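import Vale.Agent.P146.H425.R1Def
import Vale.Agent.P146.H325.Gibbs
import Vale.Agent.P146.H785.Hes

/-!
The Hessian `hh` of the value function `uu`, for a smooth function `F`: it is the derivative of the
gradient `dd`, it is nonnegative and dominates `x` times the covariance of the gradient at a later
time.
-/

open MeasureTheory ProbabilityTheory Filter Topology

namespace Vale.Agent.P146.R1

open Vale.Agent.P157.Lv Vale.Agent.P146.H425

set_option linter.unusedSectionVars false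

variable {κ : Type} [Fintype κ]

/-- The conditional mean of `φ` (at the time `1`) given the position `z` at the time `t`, under the
tilted law. -/
noncomputable def ew (x t : ℝ) (F φ : (κ → ℝ) → ℝ) (z : κ → ℝ) : ℝ :=
  (∫ y, Real.exp (x * F (z + √(1 - t) • y)) * φ (z + √(1 - t) • y) ∂(gI κ)) /
    ∫ y, Real.exp (x * F (z + √(1 - t) • y)) ∂(gI κ)

/-- The Hessian of the value function. -/
noncomputable def hh (x t : ℝ) (F : (κ → ℝ) → ℝ) (D : κ → (κ → ℝ) → ℝ)
    (H : κ → κ → (κ → ℝ) → ℝ) (e i : κ) (z : κ → ℝ) : ℝ :=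
  ew x t F (H e i) z + x * (ew x t F (fun y => D e y * D i y) z - dd x t F D e z * dd x t F D i z)

/-- The squared norm of the Hessian. -/
noncomputable def hq (x t : ℝ) (F : (κ → ℝ) → ℝ) (D : κ → (κ → ℝ) → ℝ)
    (H : κ → κ → (κ → ℝ) → ℝ) (z : κ → ℝ) : ℝ := ∑ e, ∑ i, hh x t F D H e i z ^ 2

/-- The conditional mean of `ψ` at the time `t'` given the position `z` at the time `t`, under the
tilted law. -/
noncomputable def cw (x t t' : ℝ) (F ψ : (κ → ℝ) → ℝ) (z : κ → ℝ) : ℝ :=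
  (∫ y, Real.exp (x * uu x t' F (z + √(t' - t) • y)) * ψ (z + √(t' - t) • y) ∂(gI κ)) /
    Real.exp (x * uu x t F z)

variable {F : (κ → ℝ) → ℝ} {D : κ → (κ → ℝ) → ℝ} {B L x t t' : ℝ} {φ ψ : (κ → ℝ) → ℝ}

lemma dd_eq (e : κ) : dd x t F D e = ew x t F (D e) := rfl

lemma ew_eg (h : C11 F D B L) (hφ : EG φ) (z : κ → ℝ) (b : ℝ) :
    EG fun y => Real.exp (x * F (z + b • y)) * φ (z + b • y) :=
  (h.lip.eg_exp h.B0 z b x).mul (EG.add_smul hφ z b)

lemma ew_pos (h : C11 F D B L) (z : κ → ℝ) :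
    0 < ∫ y, Real.exp (x * F (z + √(1 - t) • y)) ∂(gI κ) := h.lip.pos h.B0 z _ x

lemma ew_add (h : C11 F D B L) (hφ : EG φ) (hψ : EG ψ) (z : κ → ℝ) :
    ew x t F (fun y => φ y + ψ y) z = ew x t F φ z + ew x t F ψ z := by
  unfold ew
  rw [← add_div, ← integral_add (ew_eg h hφ z _).integrable (ew_eg h hψ z _).integrable]
  simp only [mul_add]

lemma ew_const_mul (c : ℝ) (z : κ → ℝ) : ew x t F (fun y => c * φ y) z = c * ew x t F φ z := by
  unfold ew
  rw [← mul_div_assoc, ← integral_const_mul]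
  congr 1
  refine integral_congr_ae (Filter.Eventually.of_forall fun y => ?_)
  simp only
  ring

lemma ew_sub (h : C11 F D B L) (hφ : EG φ) (hψ : EG ψ) (z : κ → ℝ) :
    ew x t F (fun y => φ y - ψ y) z = ew x t F φ z - ew x t F ψ z := by
  have h1 := ew_add (x := x) (t := t) h hφ (hψ.const_mul (-1)) z
  rw [ew_const_mul] at h1
  have e : (fun y => φ y - ψ y) = fun y => φ y + -1 * ψ y := by funext y; ring
  rw [e, h1]
  ring

lemma ew_const (h : C11 F D B L) (c : ℝ) (z : κ → ℝ) : ew x t F (fun _ => c) z = c := by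
  unfold ew
  rw [integral_mul_const, mul_comm, mul_div_assoc, div_self (ew_pos h z).ne', mul_one]

lemma ew_sum {K : Type*} (S : Finset K) (h : C11 F D B L) {φ : K → (κ → ℝ) → ℝ}
    (hφ : ∀ i ∈ S, EG (φ i)) (z : κ → ℝ) :
    ew x t F (fun y => ∑ i ∈ S, φ i y) z = ∑ i ∈ S, ew x t F (φ i) z := by
  classical
  induction S using Finset.induction_on with
  | empty => simpa using ew_const (x := x) (t := t) h 0 z
  | insert a S ha ih =>
    simp only [Finset.sum_insert ha]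
    rw [ew_add h (hφ a (Finset.mem_insert_self a S))
      (EG.sum S fun i hi => hφ i (Finset.mem_insert_of_mem hi)),
      ih fun i hi => hφ i (Finset.mem_insert_of_mem hi)]

lemma ew_mono (h : C11 F D B L) (hφ : EG φ) (hψ : EG ψ) (hle : ∀ y, φ y ≤ ψ y) (z : κ → ℝ) :
    ew x t F φ z ≤ ew x t F ψ z := by
  unfold ew
  refine div_le_div_of_nonneg_right ?_ (ew_pos h z).le
  exact integral_mono (ew_eg h hφ z _).integrable (ew_eg h hψ z _).integrable
    fun y => mul_le_mul_of_nonneg_left (hle _) (Real.exp_pos _).le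

lemma ew_nonneg (h : C11 F D B L) (hle : ∀ y, 0 ≤ φ y) (z : κ → ℝ) : 0 ≤ ew x t F φ z :=
  div_nonneg (integral_nonneg fun _ => mul_nonneg (Real.exp_pos _).le (hle _)) (ew_pos h z).le

lemma abs_ew_le (h : C11 F D B L) (hφ : EG φ) {C : ℝ} (hle : ∀ y, |φ y| ≤ C) (z : κ → ℝ) :
    |ew x t F φ z| ≤ C := by
  rw [abs_le]
  constructor
  · have := ew_mono (x := x) (t := t) h (EG.const (-C)) hφ (fun y => (abs_le.1 (hle y)).1) z
    rwa [ew_const h] at this
  · have := ew_mono (x := x) (t := t) h hφ (EG.const C) (fun y => (abs_le.1 (hle y)).2) z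
    rwa [ew_const h] at this

/-- Jensen -/
lemma ew_sq_le (h : C11 F D B L) (hφ : EG φ) (z : κ → ℝ) :
    ew x t F φ z ^ 2 ≤ ew x t F (fun y => φ y ^ 2) z := by
  set m := ew x t F φ z with hm
  have h1 := ew_nonneg (x := x) (t := t) h (φ := fun y => (φ y - m) ^ 2) (fun _ => sq_nonneg _) z
  have e : (fun y => (φ y - m) ^ 2) = fun y => (φ y ^ 2 - 2 * m * φ y) + m ^ 2 := by
    funext y; ring
  rw [e, ew_add h ((hφ.pow 2).sub (hφ.const_mul _)) (EG.const _), ew_sub h (hφ.pow 2)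
    (hφ.const_mul _), ew_const_mul, ew_const h, ← hm] at h1
  nlinarith

/-- the conditional mean as a function of the position -/
lemma eg_ew (h : C11 F D B L) (hφ : EG φ) {C : ℝ} (hle : ∀ y, |φ y| ≤ C) : EG (ew x t F φ) := by
  have m1 : StronglyMeasurable fun z : κ → ℝ =>
      ∫ y, Real.exp (x * F (z + √(1 - t) • y)) * φ (z + √(1 - t) • y) ∂(gI κ) := by
    refine StronglyMeasurable.integral_prod_right' (ν := gI κ)
      (f := fun p : (κ → ℝ) × (κ → ℝ) => Real.exp (x * F (p.1 + √(1 - t) • p.2)) *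
        φ (p.1 + √(1 - t) • p.2)) ?_
    refine Measurable.stronglyMeasurable ?_
    exact ((h.eg_exp x).mul hφ).meas.comp
      (by fun_prop : Measurable fun p : (κ → ℝ) × (κ → ℝ) => p.1 + √(1 - t) • p.2)
  have m2 : StronglyMeasurable fun z : κ → ℝ =>
      ∫ y, Real.exp (x * F (z + √(1 - t) • y)) ∂(gI κ) := by
    refine StronglyMeasurable.integral_prod_right' (ν := gI κ)
      (f := fun p : (κ → ℝ) × (κ → ℝ) => Real.exp (x * F (p.1 + √(1 - t) • p.2))) ?_
    refine Measurable.stronglyMeasurable ?_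
    exact (h.eg_exp x).meas.comp
      (by fun_prop : Measurable fun p : (κ → ℝ) × (κ → ℝ) => p.1 + √(1 - t) • p.2)
  exact EG.of_bdd (m1.measurable.div m2.measurable) fun z => abs_ew_le h hφ hle z

/-! ### the tower property -/

lemma uu_exp (h : C11 F D B L) (hx : 0 < x) (z : κ → ℝ) :
    Real.exp (x * uu x t F z) = ∫ y, Real.exp (x * F (z + √(1 - t) • y)) ∂(gI κ) := by
  unfold uu
  exact h.lip.exp_W h.B0 hx z

lemma exp_ew (h : C11 F D B L) (hx : 0 < x) (z : κ → ℝ) :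
    Real.exp (x * uu x t F z) * ew x t F φ z =
      ∫ y, Real.exp (x * F (z + √(1 - t) • y)) * φ (z + √(1 - t) • y) ∂(gI κ) := by
  rw [uu_exp h hx]
  unfold ew
  exact mul_div_cancel₀ _ (ew_pos h z).ne'

lemma cw_tower (h : C11 F D B L) (hx : 0 < x) (hφ : EG φ) (ht : t ≤ t') (ht' : t' ≤ 1)
    (z : κ → ℝ) : cw x t t' F (ew x t' F φ) z = ew x t F φ z := by
  unfold cw
  simp_rw [exp_ew h hx]
  rw [div_eq_iff (Real.exp_pos _).ne', mul_comm, exp_ew h hx]
  refine gI_rot ((h.eg_exp x).mul hφ) (a := √(t' - t)) (b := √(1 - t')) (c := √(1 - t)) ?_ z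
  rw [Real.sq_sqrt (by linarith), Real.sq_sqrt (by linarith), Real.sq_sqrt (by linarith)]
  ring

lemma cw_eg (h : C11 F D B L) (hx : 0 < x) (hψ : EG ψ) (z : κ → ℝ) :
    EG fun y => Real.exp (x * uu x t' F (z + √(t' - t) • y)) * ψ (z + √(t' - t) • y) :=
  EG.add_smul (((((c11_uu h hx t').lip.lip h.B0).exp_eg x)).mul hψ) z _

lemma cw_mono (h : C11 F D B L) (hx : 0 < x) (hφ : EG φ) (hψ : EG ψ) (hle : ∀ y, φ y ≤ ψ y)
    (z : κ → ℝ) : cw x t t' F φ z ≤ cw x t t' F ψ z := by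
  unfold cw
  refine div_le_div_of_nonneg_right ?_ (Real.exp_pos _).le
  exact integral_mono (cw_eg h hx hφ z).integrable (cw_eg h hx hψ z).integrable
    fun y => mul_le_mul_of_nonneg_left (hle _) (Real.exp_pos _).le

lemma cw_add (h : C11 F D B L) (hx : 0 < x) (hφ : EG φ) (hψ : EG ψ) (z : κ → ℝ) :
    cw x t t' F (fun y => φ y + ψ y) z = cw x t t' F φ z + cw x t t' F ψ z := by
  unfold cw
  rw [← add_div, ← integral_add (cw_eg h hx hφ z).integrable (cw_eg h hx hψ z).integrable]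
  simp only [mul_add]

lemma cw_const_mul (c : ℝ) (z : κ → ℝ) :
    cw x t t' F (fun y => c * φ y) z = c * cw x t t' F φ z := by
  unfold cw
  rw [← mul_div_assoc, ← integral_const_mul]
  congr 1
  refine integral_congr_ae (Filter.Eventually.of_forall fun y => ?_)
  simp only
  ring

lemma cw_const (h : C11 F D B L) (hx : 0 < x) (ht : t ≤ t') (ht' : t' ≤ 1) (c : ℝ) (z : κ → ℝ) :
    cw x t t' F (fun _ => c) z = c := by
  unfold cw
  rw [integral_mul_const, uu_step h hx ht ht' z, mul_comm, mul_div_assoc,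
    div_self (Real.exp_pos _).ne', mul_one]

lemma cw_nonneg (hle : ∀ y, 0 ≤ φ y) (z : κ → ℝ) : 0 ≤ cw x t t' F φ z :=
  div_nonneg (integral_nonneg fun _ => mul_nonneg (Real.exp_pos _).le (hle _)) (Real.exp_pos _).le

/-! ### derivatives of Gaussian averages -/

section fd

variable [DecidableEq κ]

/-- A Gaussian average of a function with a gradient of exponential growth. -/
lemma fd_conv {G : (κ → ℝ) → ℝ} {G1 : κ → (κ → ℝ) → ℝ}
    (hfd : ∀ u, HasFDerivAt G (∑ e, G1 e u • (ContinuousLinearMap.proj e : (κ → ℝ) →L[ℝ] ℝ)) u)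
    (hG : EG G) (hG1 : ∀ e, EG (G1 e)) (b : ℝ) (z : κ → ℝ) :
    HasFDerivAt (fun z => ∫ y, G (z + b • y) ∂(gI κ))
      (∑ e, (∫ y, G1 e (z + b • y) ∂(gI κ)) • (ContinuousLinearMap.proj e : (κ → ℝ) →L[ℝ] ℝ)) z := by
  obtain ⟨C, a, hC, ha, hb⟩ : ∃ C a : ℝ, 0 ≤ C ∧ 0 ≤ a ∧
      ∀ y, ∑ e, |G1 e y| ≤ C * Real.exp (a * ‖y‖) := by
    obtain ⟨C, a, hC, ha, h⟩ := (EG.sum Finset.univ (f := fun e y => |G1 e y|)
      fun e _ => (hG1 e).abs).bdd
    exact ⟨C, a, hC, ha, fun y => (le_abs_self _).trans (h y)⟩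
  set F' : (κ → ℝ) → (κ → ℝ) → (κ → ℝ) →L[ℝ] ℝ := fun z y =>
    ∑ e, G1 e (z + b • y) • (ContinuousLinearMap.proj e : (κ → ℝ) →L[ℝ] ℝ) with hF'
  have hn : ∀ z y, ‖F' z y‖ ≤ ∑ e, |G1 e (z + b • y)| := by
    intro z y
    refine (norm_sum_le _ _).trans (Finset.sum_le_sum fun e _ => ?_)
    rw [norm_smul, Real.norm_eq_abs]
    refine (mul_le_mul_of_nonneg_left ?_ (abs_nonneg _)).trans (le_of_eq (mul_one _))
    refine ContinuousLinearMap.opNorm_le_bound _ zero_le_one fun v => ?_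
    rw [one_mul, ContinuousLinearMap.proj_apply]
    exact norm_le_pi_norm v e
  have hm : ∀ z, AEStronglyMeasurable (F' z) (gI κ) := by
    intro z
    rw [hF']
    refine Finset.aestronglyMeasurable_fun_sum _ fun e _ => ?_
    exact (EG.add_smul (hG1 e) z b).meas.aestronglyMeasurable.smul_const _
  have key := hasFDerivAt_integral_of_dominated_of_fderiv_le (μ := gI κ)
    (F := fun z y => G (z + b • y)) (F' := F') (x₀ := z)
    (bound := fun y => C * Real.exp (a * (‖z‖ + 1)) * Real.exp (a * |b| * ‖y‖))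
    (s := Metric.ball z 1) (Metric.ball_mem_nhds z one_pos) ?_ ?_ (hm z) ?_ ?_ ?_
  · refine key.congr_fderiv ?_
    rw [hF']
    have hi : ∀ e ∈ (Finset.univ : Finset κ), Integrable (fun y => G1 e (z + b • y) •
        (ContinuousLinearMap.proj e : (κ → ℝ) →L[ℝ] ℝ)) (gI κ) := fun e _ =>
      (EG.add_smul (hG1 e) z b).integrable.smul_const _
    rw [integral_finsetSum _ hi]
    exact Finset.sum_congr rfl fun e _ => integral_smul_const _ _
  · exact Filter.Eventually.of_forall fun z' => (EG.add_smul hG z' b).meas.aestronglyMeasurable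
  · exact (EG.add_smul hG z b).integrable
  · refine Filter.Eventually.of_forall fun y z' hz' => (hn z' y).trans ((hb _).trans ?_)
    rw [Metric.mem_ball, dist_eq_norm] at hz'
    rw [mul_assoc, ← Real.exp_add]
    refine mul_le_mul_of_nonneg_left (Real.exp_le_exp.2 ?_) hC
    have h1 : ‖z'‖ ≤ ‖z‖ + 1 := by
      have := norm_add_le (z' - z) z
      rw [sub_add_cancel] at this
      linarith
    have h2 : ‖z' + b • y‖ ≤ ‖z'‖ + |b| * ‖y‖ := by
      refine (norm_add_le _ _).trans ?_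
      rw [norm_smul, Real.norm_eq_abs]
    calc a * ‖z' + b • y‖ ≤ a * ((‖z‖ + 1) + |b| * ‖y‖) :=
          mul_le_mul_of_nonneg_left (by linarith) ha
      _ = _ := by ring
  · exact (integrable_exp_norm _).const_mul _
  · refine Filter.Eventually.of_forall fun y z' _ => ?_
    have h1 := (hfd (z' + b • y)).comp z' ((hasFDerivAt_id z').add_const (b • y))
    rwa [ContinuousLinearMap.comp_id] at h1

/-- The derivative of a conditional mean. -/
noncomputable def dew (x t : ℝ) (F : (κ → ℝ) → ℝ) (D : κ → (κ → ℝ) → ℝ) (φ : (κ → ℝ) → ℝ)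
    (φ1 : κ → (κ → ℝ) → ℝ) (i : κ) (z : κ → ℝ) : ℝ :=
  ew x t F (φ1 i) z + x * (ew x t F (fun y => φ y * D i y) z - ew x t F φ z * dd x t F D i z)

lemma hh_eq_dew (H : κ → κ → (κ → ℝ) → ℝ) (e : κ) : hh x t F D H e = dew x t F D (D e) (H e) := rfl

lemma fd_expF {F2 : κ → (κ → ℝ) → ℝ} (hF : H325.C2 F D F2) (x : ℝ) (u : κ → ℝ) :
    HasFDerivAt (fun y => Real.exp (x * F y)) (∑ e, (x * (Real.exp (x * F u) * D e u)) •
      (ContinuousLinearMap.proj e : (κ → ℝ) →L[ℝ] ℝ)) u := by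
  have h1 := ((hF.fd u).const_mul x).exp
  refine h1.congr_fderiv ?_
  rw [Finset.smul_sum, Finset.smul_sum]
  refine Finset.sum_congr rfl fun e _ => ?_
  rw [smul_smul, smul_smul]
  congr 1
  ring

lemma fd_expF_mul {F2 φ1 φ2 : κ → (κ → ℝ) → ℝ} (hF : H325.C2 F D F2) (hφ : H325.C2 φ φ1 φ2)
    (x : ℝ) (u : κ → ℝ) :
    HasFDerivAt (fun y => Real.exp (x * F y) * φ y) (∑ e, (Real.exp (x * F u) *
      (φ1 e u + x * (φ u * D e u))) • (ContinuousLinearMap.proj e : (κ → ℝ) →L[ℝ] ℝ)) u := by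
  refine ((fd_expF hF x u).mul (hφ.fd u)).congr_fderiv ?_
  rw [Finset.smul_sum, Finset.smul_sum, ← Finset.sum_add_distrib]
  refine Finset.sum_congr rfl fun e _ => ?_
  rw [smul_smul, smul_smul, ← add_smul]
  congr 1
  ring

/-- **The derivative of a conditional mean.** -/
theorem ew_fd (h : C11 F D B L) {F2 φ1 φ2 : κ → (κ → ℝ) → ℝ} (hF : H325.C2 F D F2)
    (hφ : H325.C2 φ φ1 φ2) (x t : ℝ) (z : κ → ℝ) :
    HasFDerivAt (ew x t F φ) (∑ i, dew x t F D φ φ1 i z •
      (ContinuousLinearMap.proj i : (κ → ℝ) →L[ℝ] ℝ)) z := by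
  have hE := h.eg_exp x
  have hD : ∀ e, EG (D e) := fun e => h.eg_D e
  have eN : ∀ e, EG fun u => Real.exp (x * F u) * (φ1 e u + x * (φ u * D e u)) := fun e =>
    hE.mul ((hφ.eg1 e).add ((hφ.eg.mul (hD e)).const_mul x))
  have eZ : ∀ e, EG fun u => x * (Real.exp (x * F u) * D e u) := fun e =>
    (hE.mul (hD e)).const_mul x
  have kN := fd_conv (fd_expF_mul hF hφ x) (hE.mul hφ.eg) eN (√(1 - t)) z
  have kZ := fd_conv (fd_expF hF x) hE eZ (√(1 - t)) z
  have hZ := (ew_pos (x := x) (t := t) h z).ne'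
  have k3 := (hasDerivAt_inv hZ).comp_hasFDerivAt z kZ
  have k : HasFDerivAt (ew x t F φ) _ z := kN.mul k3
  refine k.congr_fderiv ?_
  set Z := ∫ y, Real.exp (x * F (z + √(1 - t) • y)) ∂(gI κ) with hZd
  set N := ∫ y, Real.exp (x * F (z + √(1 - t) • y)) * φ (z + √(1 - t) • y) ∂(gI κ) with hNd
  simp only [Finset.smul_sum]
  rw [← Finset.sum_add_distrib]
  refine Finset.sum_congr rfl fun e _ => ?_
  rw [smul_smul, smul_smul, smul_smul, ← add_smul]
  congr 1
  have e1 : ∫ y, Real.exp (x * F (z + √(1 - t) • y)) * (φ1 e (z + √(1 - t) • y) +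
      x * (φ (z + √(1 - t) • y) * D e (z + √(1 - t) • y))) ∂(gI κ) =
      Z * ew x t F (φ1 e) z + x * (Z * ew x t F (fun y => φ y * D e y) z) := by
    have e2 : Z * ew x t F (φ1 e) z =
        ∫ y, Real.exp (x * F (z + √(1 - t) • y)) * φ1 e (z + √(1 - t) • y) ∂(gI κ) := by
      unfold ew
      exact mul_div_cancel₀ _ hZ
    have e3 : Z * ew x t F (fun y => φ y * D e y) z =
        ∫ y, Real.exp (x * F (z + √(1 - t) • y)) * (φ (z + √(1 - t) • y) *
          D e (z + √(1 - t) • y)) ∂(gI κ) := by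
      unfold ew
      exact mul_div_cancel₀ _ hZ
    rw [e2, e3, ← integral_const_mul, ← integral_add (ew_eg h (hφ.eg1 e) z _).integrable
      ((ew_eg h (hφ.eg.mul (hD e)) z _).integrable.const_mul x)]
    refine integral_congr_ae (Filter.Eventually.of_forall fun y => ?_)
    simp only
    ring
  have e4 : ∫ y, x * (Real.exp (x * F (z + √(1 - t) • y)) * D e (z + √(1 - t) • y)) ∂(gI κ) =
      x * (Z * dd x t F D e z) := by
    rw [integral_const_mul]
    congr 1
    rw [dd_eq]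
    unfold ew
    exact (mul_div_cancel₀ _ hZ).symm
  have e5 : N = Z * ew x t F φ z := by
    unfold ew
    exact (mul_div_cancel₀ _ hZ).symm
  rw [e1, e4, e5]
  unfold dew
  field_simp
  ring

end fd

/-! ### the Hessian -/

/-- Smooth convex functions with bounded derivatives: the standing hypotheses of R1 on the
Hessian. -/
structure Sm [DecidableEq κ] (F : (κ → ℝ) → ℝ) (D : κ → (κ → ℝ) → ℝ) (B L : ℝ)
    (H T : κ → κ → (κ → ℝ) → ℝ) (M : ℝ) : Prop where
  c11 : C11 F D B L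
  cF : H325.C2 F D (fun e => H e e)
  cD : ∀ e, H325.C2 (D e) (H e) (T e)
  sy : ∀ e i y, H e i y = H i e y
  bH : ∀ e i y, |H e i y| ≤ M

variable [DecidableEq κ] {H T : κ → κ → (κ → ℝ) → ℝ} {M : ℝ}

lemma Sm.eH (h : Sm F D B L H T M) (e i : κ) : EG (H e i) := (h.cD e).eg1 i

lemma Sm.eD (h : Sm F D B L H T M) (e : κ) : EG (D e) := h.c11.eg_D e

/-- (H1) -/
theorem hh_fd (h : Sm F D B L H T M) (x t : ℝ) (e : κ) (z : κ → ℝ) :
    HasFDerivAt (dd x t F D e) (∑ i, hh x t F D H e i z •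
      (ContinuousLinearMap.proj i : (κ → ℝ) →L[ℝ] ℝ)) z :=
  ew_fd h.c11 h.cF (h.cD e) x t z

lemma hh_symm (h : Sm F D B L H T M) (x t : ℝ) (e i : κ) (z : κ → ℝ) :
    hh x t F D H e i z = hh x t F D H i e z := by
  unfold hh
  have e1 : H e i = H i e := funext (h.sy e i)
  rw [e1]
  have e2 : (fun y => D e y * D i y) = fun y => D i y * D e y := by funext y; ring
  rw [e2]
  ring

lemma abs_dd_le (h : C11 F D B L) (x t : ℝ) (e : κ) (z : κ → ℝ) : |dd x t F D e z| ≤ B :=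
  abs_ew_le h (h.eg_D e) (h.bd e) z

lemma abs_hh_le (h : Sm F D B L H T M) (hx : 0 ≤ x) (t : ℝ) (e i : κ) (z : κ → ℝ) :
    |hh x t F D H e i z| ≤ M + 2 * x * B ^ 2 := by
  have hB := h.c11.B0
  have h1 := abs_ew_le (x := x) (t := t) h.c11 (h.eH e i) (h.bH e i) z
  have h2 := abs_ew_le (x := x) (t := t) (φ := fun y => D e y * D i y) (C := B * B) h.c11
    ((h.eD e).mul (h.eD i)) (fun y => by
      rw [abs_mul]
      exact mul_le_mul (h.c11.bd e y) (h.c11.bd i y) (abs_nonneg _) hB) z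
  have h3 : |dd x t F D e z * dd x t F D i z| ≤ B * B := by
    rw [abs_mul]
    exact mul_le_mul (abs_dd_le h.c11 x t e z) (abs_dd_le h.c11 x t i z) (abs_nonneg _) hB
  unfold hh
  rw [abs_le] at h1 h2 h3 ⊢
  constructor <;> nlinarith [h1.1, h1.2, h2.1, h2.2, h3.1, h3.2]

lemma eg_dd (h : C11 F D B L) (x t : ℝ) (e : κ) : EG (dd x t F D e) :=
  eg_ew h (h.eg_D e) (h.bd e)

lemma eg_hh (h : Sm F D B L H T M) (x t : ℝ) (e i : κ) : EG (hh x t F D H e i) := by
  have hB := h.c11.B0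
  refine (eg_ew h.c11 (h.eH e i) (h.bH e i)).add (((eg_ew h.c11 (φ := fun y => D e y * D i y)
    (C := B * B) ((h.eD e).mul (h.eD i)) fun y => ?_).sub
    ((eg_dd h.c11 x t e).mul (eg_dd h.c11 x t i))).const_mul x)
  rw [abs_mul]
  exact mul_le_mul (h.c11.bd e y) (h.c11.bd i y) (abs_nonneg _) hB

lemma eg_hq (h : Sm F D B L H T M) (x t : ℝ) : EG (hq x t F D H) :=
  EG.sum _ fun e _ => EG.sum _ fun i _ => (eg_hh h x t e i).pow 2

lemma hq_nonneg (z : κ → ℝ) : 0 ≤ hq x t F D H z :=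
  Finset.sum_nonneg fun _ _ => Finset.sum_nonneg fun _ _ => sq_nonneg _

/-- the directional derivative of the gradient -/
noncomputable def vD (v : κ → ℝ) (D : κ → (κ → ℝ) → ℝ) (y : κ → ℝ) : ℝ := ∑ e, v e * D e y

/-- the quadratic form of a matrix -/
noncomputable def vH (v : κ → ℝ) (H : κ → κ → (κ → ℝ) → ℝ) (y : κ → ℝ) : ℝ :=
  ∑ e, ∑ i, H e i y * v e * v i

lemma eg_vD (h : C11 F D B L) (v : κ → ℝ) : EG (vD v D) :=
  EG.sum _ fun e _ => (h.eg_D e).const_mul _

lemma eg_vH (h : Sm F D B L H T M) (v : κ → ℝ) : EG (vH v H) := by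
  refine EG.sum _ fun e _ => EG.sum _ fun i _ => ?_
  refine (((h.eH e i).const_mul (v e * v i))).mono ?_ fun y => le_of_eq ?_
  · exact ((h.eH e i).meas.mul_const _).mul_const _
  · congr 1; ring

lemma ew_vD (h : C11 F D B L) (x t : ℝ) (v z : κ → ℝ) :
    ew x t F (vD v D) z = vD v (dd x t F D) z := by
  unfold vD
  rw [ew_sum _ h fun e _ => (h.eg_D e).const_mul _]
  exact Finset.sum_congr rfl fun e _ => ew_const_mul _ _

lemma ew_vH (h : Sm F D B L H T M) (x t : ℝ) (v z : κ → ℝ) :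
    ew x t F (vH v H) z = ∑ e, ∑ i, ew x t F (H e i) z * v e * v i := by
  have e0 : vH v H = fun y => ∑ e, ∑ i, (v e * v i) * H e i y := by
    funext y
    unfold vH
    exact Finset.sum_congr rfl fun e _ => Finset.sum_congr rfl fun i _ => by ring
  rw [e0, ew_sum _ h.c11 fun e _ => EG.sum _ fun i _ => (h.eH e i).const_mul _]
  refine Finset.sum_congr rfl fun e _ => ?_
  rw [ew_sum _ h.c11 fun i _ => (h.eH e i).const_mul _]
  refine Finset.sum_congr rfl fun i _ => ?_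
  rw [ew_const_mul]
  ring

lemma ew_vD_sq (h : Sm F D B L H T M) (x t : ℝ) (v z : κ → ℝ) :
    ew x t F (fun y => vD v D y ^ 2) z =
      ∑ e, ∑ i, ew x t F (fun y => D e y * D i y) z * v e * v i := by
  have e0 : (fun y => vD v D y ^ 2) = fun y => ∑ e, ∑ i, (v e * v i) * (D e y * D i y) := by
    funext y
    unfold vD
    rw [pow_two, Finset.sum_mul_sum]
    exact Finset.sum_congr rfl fun e _ => Finset.sum_congr rfl fun i _ => by ring
  rw [e0, ew_sum _ h.c11 fun e _ => EG.sum _ fun i _ => ((h.eD e).mul (h.eD i)).const_mul _]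
  refine Finset.sum_congr rfl fun e _ => ?_
  rw [ew_sum _ h.c11 fun i _ => ((h.eD e).mul (h.eD i)).const_mul _]
  refine Finset.sum_congr rfl fun i _ => ?_
  rw [ew_const_mul]
  ring

/-- The quadratic form of the Hessian. -/
lemma vH_hh (h : Sm F D B L H T M) (x t : ℝ) (v z : κ → ℝ) :
    vH v (hh x t F D H) z = ew x t F (vH v H) z +
      x * (ew x t F (fun y => vD v D y ^ 2) z - vD v (dd x t F D) z ^ 2) := by
  rw [ew_vH h, ew_vD_sq h]
  have e1 : vD v (dd x t F D) z ^ 2 =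
      ∑ e, ∑ i, dd x t F D e z * dd x t F D i z * v e * v i := by
    unfold vD
    rw [pow_two, Finset.sum_mul_sum]
    exact Finset.sum_congr rfl fun e _ => Finset.sum_congr rfl fun i _ => by ring
  rw [e1, ← Finset.sum_sub_distrib, Finset.mul_sum, ← Finset.sum_add_distrib]
  unfold vH hh
  refine Finset.sum_congr rfl fun e _ => ?_
  rw [← Finset.sum_sub_distrib, Finset.mul_sum, ← Finset.sum_add_distrib]
  exact Finset.sum_congr rfl fun i _ => by ring

/-! ### convexity -/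

lemma fd_dir {G : (κ → ℝ) → ℝ} {G1 : κ → (κ → ℝ) → ℝ}
    (hfd : ∀ u, HasFDerivAt G (∑ e, G1 e u • (ContinuousLinearMap.proj e : (κ → ℝ) →L[ℝ] ℝ)) u)
    (z v : κ → ℝ) (r : ℝ) :
    HasDerivAt (fun r : ℝ => G (z + r • v)) (∑ e, G1 e (z + r • v) * v e) r := by
  have h1 : HasDerivAt (fun r : ℝ => z + r • v) v r := by
    have := ((hasDerivAt_id r).smul_const v).const_add z
    simpa using this
  have h2 := (hfd (z + r • v)).comp_hasDerivAt r h1
  refine h2.congr_deriv ?_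
  rw [_root_.sum_apply]
  exact Finset.sum_congr rfl fun e _ => by
    rw [_root_.smul_apply, ContinuousLinearMap.proj_apply, smul_eq_mul]

/-- The Hessian of a convex function is nonnegative. -/
lemma vH_nonneg (h : Sm F D B L H T M) (hc : Cv F) (v z : κ → ℝ) : 0 ≤ vH v H z := by
  set g : ℝ → ℝ := fun r => F (z + r • v) with hg
  set g1 : ℝ → ℝ := fun r => ∑ e, D e (z + r • v) * v e with hg1
  have d0 : ∀ r, HasDerivAt g (g1 r) r := fun r => fd_dir h.cF.fd z v r
  have d1 : HasDerivAt g1 (vH v H z) 0 := by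
    have h1 : ∀ e ∈ (Finset.univ : Finset κ), HasDerivAt (fun r : ℝ => D e (z + r • v) * v e)
        ((∑ i, H e i (z + (0 : ℝ) • v) * v i) * v e) 0 := fun e _ =>
      (fd_dir (h.cD e).fd z v 0).mul_const (v e)
    refine (HasDerivAt.fun_sum h1).congr_deriv ?_
    unfold vH
    refine Finset.sum_congr rfl fun e _ => ?_
    rw [Finset.sum_mul]
    exact Finset.sum_congr rfl fun i _ => by rw [zero_smul, add_zero]; ring
  have hcv : ConvexOn ℝ Set.univ g := by
    refine ⟨convex_univ, fun r _ r' _ a b ha hb hab => ?_⟩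
    have h1 := hc a b ha hb hab (z + r • v) (z + r' • v)
    have e : a • (z + r • v) + b • (z + r' • v) = z + (a • r + b • r') • v := by
      have e2 : a • z + b • z = z := by rw [← add_smul, hab, one_smul]
      rw [smul_add, smul_add, smul_smul, smul_smul, add_smul, smul_eq_mul, smul_eq_mul]
      nth_rewrite 3 [← e2]
      abel
    rw [e] at h1
    simpa only [hg, smul_eq_mul] using h1
  have hmono : Monotone g1 := by
    have h2 : MonotoneOn (deriv g) Set.univ :=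
      hcv.monotoneOn_deriv fun r _ => (d0 r).differentiableAt
    intro r r' hr
    have := h2 (Set.mem_univ r) (Set.mem_univ r') hr
    rwa [(d0 r).deriv, (d0 r').deriv] at this
  have h3 := hmono.deriv_nonneg (x := 0)
  rwa [d1.deriv] at h3

/-- (H2) -/
theorem hh_psd (h : Sm F D B L H T M) (hc : Cv F) (hx : 0 ≤ x) (t : ℝ) (v z : κ → ℝ) :
    0 ≤ vH v (hh x t F D H) z := by
  rw [vH_hh h]
  have h1 := ew_nonneg (x := x) (t := t) h.c11 (vH_nonneg h hc v) z
  have h2 := ew_sq_le (x := x) (t := t) h.c11 (eg_vD h.c11 v) z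
  rw [ew_vD h.c11] at h2
  have := mul_nonneg hx (sub_nonneg.2 h2)
  linarith

/-- The regularity class of helper785. -/
theorem Sm.c2 (h : Sm F D B L H T M) (hc : Cv F) : H785.C2 F D H B L M :=
  ⟨h.c11, fun e z => (h.cD e).fd z, fun e i => (h.eH e i).meas, h.bH, h.sy,
    fun z v => vH_nonneg h hc v z⟩

lemma ew_eq_Ax (x t : ℝ) (F φ : (κ → ℝ) → ℝ) : ew x t F φ = H785.Ax x (√(1 - t)) F φ := rfl

lemma hh_eq_HW (x t : ℝ) (F : (κ → ℝ) → ℝ) (D : κ → (κ → ℝ) → ℝ) (H : κ → κ → (κ → ℝ) → ℝ) :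
    hh x t F D H = H785.HW x (√(1 - t)) F D H := rfl

/-- The value function has the regularity of `F`. -/
theorem c2_uu {B2 : ℝ} (h : H785.C2 F D H B L B2) (hx : 0 < x) (t : ℝ) :
    H785.C2 (uu x t F) (dd x t F D) (hh x t F D H) B (L + 2 * x * (Fintype.card κ * B) ^ 2)
      (B2 + 2 * x * B ^ 2) := h.W hx _

/-- the covariance of the gradient of `F` -/
theorem cov_le_hh (h : Sm F D B L H T M) (hc : Cv F) (x t : ℝ) (v z : κ → ℝ) :
    x * (ew x t F (fun y => vD v D y ^ 2) z - vD v (dd x t F D) z ^ 2) ≤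
      vH v (hh x t F D H) z := by
  rw [vH_hh h]
  have h1 := ew_nonneg (x := x) (t := t) h.c11 (vH_nonneg h hc v) z
  linarith

/-- (H3) the covariance of the gradient at a later time -/
theorem hh_cov (h : Sm F D B L H T M) (hc : Cv F) (hx : 0 < x) (ht : t ≤ t') (ht' : t' ≤ 1)
    (v z : κ → ℝ) :
    x * (cw x t t' F (fun w => vD v (dd x t' F D) w ^ 2) z - vD v (dd x t F D) z ^ 2) ≤
      vH v (hh x t F D H) z := by
  refine le_trans ?_ (cov_le_hh h hc x t v z)
  refine mul_le_mul_of_nonneg_left (sub_le_sub_right ?_ _) hx.le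
  have hv := eg_vD h.c11 v
  rw [← cw_tower h.c11 hx (hv.pow 2) ht ht' z]
  have hvb : ∃ C, ∀ y, |vD v D y ^ 2| ≤ C := by
    refine ⟨(∑ e, |v e| * B) ^ 2, fun y => ?_⟩
    rw [abs_pow]
    refine pow_le_pow_left₀ (abs_nonneg _) ?_ 2
    refine (Finset.abs_sum_le_sum_abs _ _).trans (Finset.sum_le_sum fun e _ => ?_)
    rw [abs_mul]
    exact mul_le_mul_of_nonneg_left (h.c11.bd e y) (abs_nonneg _)
  obtain ⟨C, hC⟩ := hvb
  have e1 : EG fun w => vD v (dd x t' F D) w ^ 2 :=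
    (EG.sum _ fun e _ => (eg_dd h.c11 x t' e).const_mul _).pow 2
  refine cw_mono h.c11 hx e1 (eg_ew h.c11 (hv.pow 2) hC) (fun w => ?_) z
  have := ew_sq_le (x := x) (t := t') h.c11 hv w
  rwa [ew_vD h.c11] at this

end Vale.Agent.P146.R1
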