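import Vale.Agent.P146.H713.Hess

/-!
One Gaussian layer: tilted averages `Ax x s F φ` preserve continuity, exponential growth and
differentiability; the class `Sm` of smooth functions is stable under `F ↦ W x s F`.
-/

open MeasureTheory ProbabilityTheory Filter Topology

namespace Vale.Agent.P146.R1

open Vale.Agent.P157.Lv Vale.Agent.P146.H425
open Vale.Agent.P146.H785 (Ax HW lf)

set_option linter.unusedSectionVars false

variable {κ : Type} [Fintype κ] {F G φ ψ c : (κ → ℝ) → ℝ} {D : κ → (κ → ℝ) → ℝ} {B L x s : ℝ}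

lemma cont_gauss (hG : EG G) (hc : Continuous G) (s : ℝ) :
    Continuous fun y => ∫ z, G (y + s • z) ∂(gI κ) := by
  obtain ⟨C, a, hC, ha, hb⟩ := hG.bdd
  refine continuous_iff_continuousAt.2 fun y0 => ?_
  refine continuousAt_of_dominated
    (bound := fun z => C * Real.exp (a * (‖y0‖ + 1)) * Real.exp (a * |s| * ‖z‖)) ?_ ?_ ?_ ?_
  · exact Filter.Eventually.of_forall fun y => (EG.add_smul hG y s).meas.aestronglyMeasurable
  · filter_upwards [Metric.ball_mem_nhds y0 one_pos] with y hy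
    refine Filter.Eventually.of_forall fun z => ?_
    rw [Metric.mem_ball, dist_eq_norm] at hy
    rw [Real.norm_eq_abs]
    refine (hb _).trans ?_
    rw [mul_assoc, ← Real.exp_add]
    refine mul_le_mul_of_nonneg_left (Real.exp_le_exp.2 ?_) hC
    have h1 : ‖y‖ ≤ ‖y0‖ + 1 := by
      have := norm_add_le (y - y0) y0
      rw [sub_add_cancel] at this
      linarith
    have h2 : ‖y + s • z‖ ≤ ‖y‖ + |s| * ‖z‖ := by
      refine (norm_add_le _ _).trans ?_
      rw [norm_smul, Real.norm_eq_abs]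
    calc a * ‖y + s • z‖ ≤ a * ((‖y0‖ + 1) + |s| * ‖z‖) :=
          mul_le_mul_of_nonneg_left (by linarith) ha
      _ = _ := by ring
  · exact (integrable_exp_norm _).const_mul _
  · exact Filter.Eventually.of_forall fun z => (hc.comp (by fun_prop)).continuousAt

lemma C11.egD (h : C11 F D B L) (e : κ) : EG (D e) := EG.of_bdd (h.meas e) (h.bd e)

lemma C11.cont (h : C11 F D B L) : Continuous F :=
  continuous_iff_continuousAt.2 fun u => (H785.C11.hasFDerivAt h u).continuousAt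

lemma C11.egx (h : C11 F D B L) (x : ℝ) : EG fun u => Real.exp (x * F u) :=
  (h.lip.lip h.B0).exp_eg x

lemma C11.posx (h : C11 F D B L) (x s : ℝ) (y : κ → ℝ) :
    0 < ∫ z, Real.exp (x * F (y + s • z)) ∂(gI κ) := h.lip.pos h.B0 y s x

lemma cont_Ax (h : C11 F D B L) (hφ : EG φ) (hc : Continuous φ) (x s : ℝ) :
    Continuous (Ax x s F φ) := by
  have h1 : Continuous fun u => Real.exp (x * F u) :=
    Real.continuous_exp.comp (continuous_const.mul (C11.cont h))
  exact (cont_gauss ((C11.egx h x).mul hφ) (h1.mul hc) s).div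
    (cont_gauss (C11.egx h x) h1 s) fun y => (C11.posx h x s y).ne'

lemma eg_Ax (h : C11 F D B L) (hφ : EG φ) (x s : ℝ) : EG (Ax x s F φ) := by
  refine ⟨H785.Ax_meas h.lip h.B0 hφ x s, ?_⟩
  obtain ⟨C, a, hC, ha, hb⟩ := hφ.bdd
  set b := |x| * (B * |s|) with hbd
  have hb0 : 0 ≤ b := mul_nonneg (abs_nonneg _) (mul_nonneg h.B0 (abs_nonneg _))
  have hF : ∀ y z : κ → ℝ, |x * F (y + s • z) - x * F y| ≤ b * ‖z‖ := by
    intro y z
    rw [← mul_sub, abs_mul]
    have h1 := h.lip y (s • z)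
    rw [norm_smul, Real.norm_eq_abs] at h1
    calc |x| * |F (y + s • z) - F y| ≤ |x| * (B * (|s| * ‖z‖)) :=
          mul_le_mul_of_nonneg_left h1 (abs_nonneg _)
      _ = b * ‖z‖ := by rw [hbd]; ring
  set I1 := ∫ z : κ → ℝ, Real.exp ((b + a * |s|) * ‖z‖) ∂(gI κ) with hI1
  set I2 := ∫ z : κ → ℝ, Real.exp (-b * ‖z‖) ∂(gI κ) with hI2
  have hI1n : 0 ≤ I1 := integral_nonneg fun _ => (Real.exp_pos _).le
  have hI2p : 0 < I2 := integral_exp_pos (integrable_exp_norm (-b))
  refine ⟨C * I1 / I2, a, by positivity, ha, fun y => ?_⟩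
  have hd : Real.exp (x * F y) * I2 ≤ ∫ z, Real.exp (x * F (y + s • z)) ∂(gI κ) := by
    rw [hI2, ← integral_const_mul]
    refine integral_mono ((integrable_exp_norm (-b)).const_mul _)
      (EG.add_smul (C11.egx h x) y s).integrable fun z => ?_
    simp only
    rw [← Real.exp_add]
    refine Real.exp_le_exp.2 ?_
    have := (abs_le.1 (hF y z)).1
    linarith
  have hn : |∫ z, Real.exp (x * F (y + s • z)) * φ (y + s • z) ∂(gI κ)| ≤
      Real.exp (x * F y) * (C * Real.exp (a * ‖y‖)) * I1 := by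
    refine (abs_integral_le_integral_abs).trans ?_
    rw [hI1, ← integral_const_mul]
    have he : EG fun z => Real.exp (x * F (y + s • z)) * φ (y + s • z) :=
      EG.add_smul ((C11.egx h x).mul hφ) y s
    refine integral_mono he.abs.integrable ((integrable_exp_norm _).const_mul _) fun z => ?_
    simp only
    rw [abs_mul, Real.abs_exp]
    have h1 : Real.exp (x * F (y + s • z)) ≤ Real.exp (x * F y) * Real.exp (b * ‖z‖) := by
      rw [← Real.exp_add]
      refine Real.exp_le_exp.2 ?_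
      have := (abs_le.1 (hF y z)).2
      linarith
    have h2 : |φ (y + s • z)| ≤ C * Real.exp (a * ‖y‖) * Real.exp (a * |s| * ‖z‖) := by
      refine (hb _).trans ?_
      rw [mul_assoc, ← Real.exp_add]
      refine mul_le_mul_of_nonneg_left (Real.exp_le_exp.2 ?_) hC
      have h3 : ‖y + s • z‖ ≤ ‖y‖ + |s| * ‖z‖ := by
        refine (norm_add_le _ _).trans ?_
        rw [norm_smul, Real.norm_eq_abs]
      calc a * ‖y + s • z‖ ≤ a * (‖y‖ + |s| * ‖z‖) := mul_le_mul_of_nonneg_left h3 ha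
        _ = _ := by ring
    calc Real.exp (x * F (y + s • z)) * |φ (y + s • z)|
        ≤ (Real.exp (x * F y) * Real.exp (b * ‖z‖)) *
          (C * Real.exp (a * ‖y‖) * Real.exp (a * |s| * ‖z‖)) :=
          mul_le_mul h1 h2 (abs_nonneg _) (by positivity)
      _ = Real.exp (x * F y) * (C * Real.exp (a * ‖y‖)) *
          (Real.exp (b * ‖z‖) * Real.exp (a * |s| * ‖z‖)) := by ring
      _ = _ := by rw [← Real.exp_add]; congr 2; ring
  unfold H785.Ax
  have hp := C11.posx h x s y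
  rw [abs_div, abs_of_pos hp, div_le_iff₀ hp]
  refine hn.trans ?_
  calc Real.exp (x * F y) * (C * Real.exp (a * ‖y‖)) * I1 =
        C * I1 / I2 * Real.exp (a * ‖y‖) * (Real.exp (x * F y) * I2) := by
        field_simp
    _ ≤ _ := mul_le_mul_of_nonneg_left hd (by positivity)

/-- The covariance recursion of one layer. -/
noncomputable def KW (x s : ℝ) (F c φ ψ : (κ → ℝ) → ℝ) (y : κ → ℝ) : ℝ :=
  Ax x s F c y + x * (Ax x s F (fun u => φ u * ψ u) y - Ax x s F φ y * Ax x s F ψ y)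

lemma HW_eq_KW (H : κ → κ → (κ → ℝ) → ℝ) (e f : κ) :
    HW x s F D H e f = KW x s F (H e f) (D e) (D f) := rfl

lemma eg_KW (h : C11 F D B L) (hc : EG c) (hφ : EG φ) (hψ : EG ψ) (x s : ℝ) :
    EG (KW x s F c φ ψ) :=
  (eg_Ax h hc x s).add (((eg_Ax h (hφ.mul hψ) x s).sub
    ((eg_Ax h hφ x s).mul (eg_Ax h hψ x s))).const_mul x)

lemma cont_KW (h : C11 F D B L) (hc : EG c) (hφ : EG φ) (hψ : EG ψ) (cc : Continuous c)
    (cφ : Continuous φ) (cψ : Continuous ψ) (x s : ℝ) : Continuous (KW x s F c φ ψ) :=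
  (cont_Ax h hc cc x s).add (continuous_const.mul ((cont_Ax h (hφ.mul hψ) (cφ.mul cψ) x s).sub
    ((cont_Ax h hφ cφ x s).mul (cont_Ax h hψ cψ x s))))

/-- Differentiable observables: total derivative, exponential growth, continuity. -/
structure Fb (φ : (κ → ℝ) → ℝ) (φ' : κ → (κ → ℝ) → ℝ) : Prop where
  fd : ∀ y, HasFDerivAt φ (lf fun e => φ' e y) y
  eg : EG φ
  eg' : ∀ e, EG (φ' e)
  ct' : ∀ e, Continuous (φ' e)

variable {φ' : κ → (κ → ℝ) → ℝ}

lemma Fb.ct (h : Fb φ φ') : Continuous φ :=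
  continuous_iff_continuousAt.2 fun u => (h.fd u).continuousAt

lemma Fb.Ax (hφ : Fb φ φ') (h : C11 F D B L) (hD : ∀ e, Continuous (D e)) (x s : ℝ) :
    Fb (Ax x s F φ) (fun e => KW x s F (φ' e) φ (D e)) :=
  ⟨fun y => H785.fd_Ax h hφ.eg hφ.eg' hφ.fd x s y, eg_Ax h hφ.eg x s,
    fun e => eg_KW h (hφ.eg' e) hφ.eg (C11.egD h e) x s,
    fun e => cont_KW h (hφ.eg' e) hφ.eg (C11.egD h e) (hφ.ct' e) hφ.ct (hD e) x s⟩

/-! ### partial derivatives -/

section pd

variable [DecidableEq κ]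

lemma lf_eq (a : κ → ℝ) : lf a = ∑ e, a e • (ContinuousLinearMap.proj e : (κ → ℝ) →L[ℝ] ℝ) := rfl

lemma Fb.pd (h : Fb φ φ') (e : κ) : PD e φ (φ' e) := H325.pd_of_fd h.fd e

lemma pd_gauss {G' : (κ → ℝ) → ℝ} {e : κ} (hd : PD e G G') (hg : EG G) (hg' : EG G') (s : ℝ) :
    PD e (fun y => ∫ z, G (y + s • z) ∂(gI κ)) (fun y => ∫ z, G' (y + s • z) ∂(gI κ)) := by
  intro y t0
  obtain ⟨C, a, hC, ha, h1⟩ := hg'.bdd
  refine (hasDerivAt_integral_of_dominated_loc_of_deriv_le
    (F := fun t (z : κ → ℝ) => G (Function.update y e t + s • z))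
    (F' := fun t (z : κ → ℝ) => G' (Function.update y e t + s • z))
    (bound := fun z => C * Real.exp (a * (‖y‖ + |t0| + 1)) * Real.exp (a * |s| * ‖z‖))
    (Metric.ball_mem_nhds t0 one_pos) ?_ ?_ ?_ ?_ ?_ ?_).2
  · exact Filter.Eventually.of_forall fun t =>
      (EG.add_smul hg (Function.update y e t) s).meas.aestronglyMeasurable
  · exact (EG.add_smul hg (Function.update y e t0) s).integrable
  · exact (EG.add_smul hg' (Function.update y e t0) s).meas.aestronglyMeasurable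
  · refine Filter.Eventually.of_forall fun z t ht => ?_
    rw [Metric.mem_ball, Real.dist_eq] at ht
    have h2 : ‖Function.update y e t + s • z‖ ≤ (‖y‖ + |t0| + 1) + |s| * ‖z‖ := by
      refine (norm_add_le _ _).trans ?_
      rw [norm_smul, Real.norm_eq_abs]
      have h3 : ‖Function.update y e t‖ ≤ ‖y‖ + |t| := by
        refine (pi_norm_le_iff_of_nonneg (by positivity)).2 fun j => ?_
        by_cases hj : j = e
        · subst hj
          simp only [Function.update_self, Real.norm_eq_abs]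
          linarith [norm_nonneg y]
        · simp only [Function.update_of_ne hj]
          linarith [norm_le_pi_norm y j, abs_nonneg t]
      have h4 : |t| ≤ |t0| + 1 := by
        have := abs_add_le (t - t0) t0
        rw [sub_add_cancel] at this
        linarith
      linarith
    rw [Real.norm_eq_abs]
    calc |G' (Function.update y e t + s • z)|
        ≤ C * Real.exp (a * ‖Function.update y e t + s • z‖) := h1 _
      _ ≤ C * Real.exp (a * ((‖y‖ + |t0| + 1) + |s| * ‖z‖)) := by gcongr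
      _ = C * Real.exp (a * (‖y‖ + |t0| + 1)) * Real.exp (a * |s| * ‖z‖) := by
          rw [mul_assoc, ← Real.exp_add]
          congr 2
          ring
  · exact (integrable_exp_norm _).const_mul _
  · refine Filter.Eventually.of_forall fun z t _ => ?_
    have e1 : ∀ t, Function.update y e t + s • z =
        Function.update (y + s • z) e (t + s * z e) := by
      intro t
      funext j
      by_cases hj : j = e
      · subst hj; simp
      · simp [hj]
    simp only [e1]
    have h3 := hd (y + s • z) (t + s * z e)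
    have h4 : HasDerivAt (fun t : ℝ => t + s * z e) 1 t := (hasDerivAt_id t).add_const _
    exact (h3.comp t h4).congr_deriv (mul_one _)

lemma C11.pd (h : C11 F D B L) (e : κ) : PD e F (D e) :=
  H325.pd_of_fd (H785.C11.hasFDerivAt h) e

/-- The partial derivative of a tilted average. -/
lemma pd_Ax (h : C11 F D B L) {φ1 : (κ → ℝ) → ℝ} {e : κ} (hd : PD e φ φ1) (hφ : EG φ)
    (hφ1 : EG φ1) (x s : ℝ) : PD e (Ax x s F φ) (KW x s F φ1 φ (D e)) := by
  have hE : PD e (fun u => Real.exp (x * F u)) (fun u => Real.exp (x * F u) * (x * D e u)) :=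
    ((C11.pd h e).const_mul x).exp.congr fun u => by ring
  have egE := C11.egx h x
  have egE1 : EG fun u => Real.exp (x * F u) * (x * D e u) := egE.mul ((C11.egD h e).const_mul x)
  have hN := hE.mul hd
  have egN1 : EG fun u => Real.exp (x * F u) * (x * D e u) * φ u + Real.exp (x * F u) * φ1 u :=
    (egE1.mul hφ).add (egE.mul hφ1)
  have h1 := pd_gauss hN (egE.mul hφ) egN1 s
  have h2 := pd_gauss hE egE egE1 s
  refine (h1.div h2 fun y => (C11.posx h x s y).ne').congr fun y => ?_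
  have hp := C11.posx h x s y
  have i1 : Integrable (fun z => Real.exp (x * F (y + s • z)) *
      (φ (y + s • z) * D e (y + s • z))) (gI κ) :=
    (EG.add_smul (egE.mul (hφ.mul (C11.egD h e))) y s).integrable
  have i2 : Integrable (fun z => Real.exp (x * F (y + s • z)) * φ1 (y + s • z)) (gI κ) :=
    (EG.add_smul (egE.mul hφ1) y s).integrable
  have e1 : ∫ z, (Real.exp (x * F (y + s • z)) * (x * D e (y + s • z)) * φ (y + s • z) +
      Real.exp (x * F (y + s • z)) * φ1 (y + s • z)) ∂(gI κ) =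
      x * (∫ z, Real.exp (x * F (y + s • z)) * (φ (y + s • z) * D e (y + s • z)) ∂(gI κ)) +
        ∫ z, Real.exp (x * F (y + s • z)) * φ1 (y + s • z) ∂(gI κ) := by
    rw [← integral_const_mul, ← integral_add (i1.const_mul x) i2]
    refine integral_congr_ae (Filter.Eventually.of_forall fun z => ?_)
    simp only
    ring
  have e2 : ∫ z, Real.exp (x * F (y + s • z)) * (x * D e (y + s • z)) ∂(gI κ) =
      x * ∫ z, Real.exp (x * F (y + s • z)) * D e (y + s • z) ∂(gI κ) := by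
    rw [← integral_const_mul]
    refine integral_congr_ae (Filter.Eventually.of_forall fun z => ?_)
    simp only
    ring
  rw [e1, e2]
  unfold KW H785.Ax
  field_simp
  ring

lemma pd_KW (h : C11 F D B L) {c1 φ1 ψ1 : (κ → ℝ) → ℝ} {e : κ} (hc : PD e c c1) (hφ : PD e φ φ1)
    (hψ : PD e ψ ψ1) (gc : EG c) (gc1 : EG c1) (gφ : EG φ) (gφ1 : EG φ1) (gψ : EG ψ)
    (gψ1 : EG ψ1) (x s : ℝ) : PD e (KW x s F c φ ψ) (fun y => KW x s F c1 c (D e) y +
      x * (KW x s F (fun u => φ1 u * ψ u + φ u * ψ1 u) (fun u => φ u * ψ u) (D e) y -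
        (KW x s F φ1 φ (D e) y * Ax x s F ψ y + Ax x s F φ y * KW x s F ψ1 ψ (D e) y))) := by
  have h1 := pd_Ax h hc gc gc1 x s
  have h2 := pd_Ax h (hφ.mul hψ) (gφ.mul gψ) ((gφ1.mul gψ).add (gφ.mul gψ1)) x s
  have h3 := (pd_Ax h hφ gφ gφ1 x s).mul (pd_Ax h hψ gψ gψ1 x s)
  exact h1.add ((h2.sub h3).const_mul x)

variable {H : κ → κ → (κ → ℝ) → ℝ} {T : κ → κ → (κ → ℝ) → ℝ} {M : ℝ}

/-- the third derivatives of the layer functional -/
noncomputable def TW (x s : ℝ) (F : (κ → ℝ) → ℝ) (D : κ → (κ → ℝ) → ℝ)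
    (H T : κ → κ → (κ → ℝ) → ℝ) (e i : κ) (y : κ → ℝ) : ℝ :=
  KW x s F (T e i) (H e i) (D i) y +
    x * (KW x s F (fun u => H e i u * D i u + D e u * H i i u) (fun u => D e u * D i u) (D i) y -
      (KW x s F (H e i) (D e) (D i) y * Ax x s F (D i) y +
        Ax x s F (D e) y * KW x s F (H i i) (D i) (D i) y))

lemma Sm.ctD (h : Sm F D B L H T M) (e : κ) : Continuous (D e) := (h.cD e).cont

lemma Sm.ctH (h : Sm F D B L H T M) (e i : κ) : Continuous (H e i) := (h.cD e).c1 i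

lemma Sm.fbD (h : Sm F D B L H T M) (e : κ) : Fb (D e) (H e) :=
  ⟨(h.cD e).fd, (h.cD e).eg, (h.cD e).eg1, (h.cD e).c1⟩

lemma abs_KW_le {C1 C2 C3 : ℝ} (h : C11 F D B L) (hc : EG c) (hφ : EG φ) (hψ : EG ψ)
    (hx : 0 ≤ x) (b1 : ∀ u, |c u| ≤ C1) (b2 : ∀ u, |φ u| ≤ C2) (b3 : ∀ u, |ψ u| ≤ C3) (s : ℝ)
    (y : κ → ℝ) : |KW x s F c φ ψ y| ≤ C1 + x * (2 * (C2 * C3)) := by
  have hC2 : 0 ≤ C2 := (abs_nonneg _).trans (b2 0)
  have hC3 : 0 ≤ C3 := (abs_nonneg _).trans (b3 0)
  have h1 := H785.Ax_abs_le h.lip h.B0 hc.meas b1 x s y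
  have h2 := H785.Ax_abs_le h.lip h.B0 hφ.meas b2 x s y
  have h3 := H785.Ax_abs_le h.lip h.B0 hψ.meas b3 x s y
  have h4 := H785.Ax_abs_le h.lip h.B0 (hφ.mul hψ).meas (C := C2 * C3) (fun u => by
    rw [abs_mul]
    exact mul_le_mul (b2 u) (b3 u) (abs_nonneg _) hC2) x s y
  have h5 : |Ax x s F φ y * Ax x s F ψ y| ≤ C2 * C3 := by
    rw [abs_mul]
    exact mul_le_mul h2 h3 (abs_nonneg _) hC2
  unfold KW
  refine (abs_add_le _ _).trans (add_le_add h1 ?_)
  rw [abs_mul, abs_of_nonneg hx]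
  refine mul_le_mul_of_nonneg_left ((abs_sub _ _).trans ?_) hx
  linarith

/-- **The class `Sm` is stable under a layer.** -/
theorem Sm.W (h : Sm F D B L H T M) (hx : 0 < x) (s : ℝ) :
    Sm (W x s F) (DW x s F D) B (L + 2 * x * (Fintype.card κ * B) ^ 2) (HW x s F D H)
      (TW x s F D H T) (M + x * (2 * (B * B))) := by
  have hc := h.c11
  have hw : C11 (Vale.Agent.P146.H425.W x s F) (DW x s F D) B
      (L + 2 * x * (Fintype.card κ * B) ^ 2) := hc.W' hx s
  have fb : ∀ e, Fb (DW x s F D e) (HW x s F D H e) := fun e =>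
    (h.fbD e).Ax hc h.ctD x s
  refine ⟨hw, ⟨H785.C11.hasFDerivAt hw, fun e => (fb e).pd e, hw.eg, fun e => (fb e).eg,
    fun e => (fb e).eg' e, fun e => (fb e).ct, fun e => (fb e).ct' e⟩,
    fun e => ⟨(fb e).fd, fun i => ?_, (fb e).eg, (fb e).eg', fun i => ?_, (fb e).ct',
      fun i => ?_⟩, fun e i y => ?_, fun e i y => ?_⟩
  · exact pd_KW hc ((h.cD e).pd i) ((h.fbD e).pd i) ((h.fbD i).pd i) (h.eH e i)
      ((h.cD e).eg2 i) (h.eD e) (h.eH e i) (h.eD i) (h.eH i i) x s
  · have g1 := (h.eH e i).mul (h.eD i)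
    have g2 := (h.eD e).mul (h.eH i i)
    exact (eg_KW hc ((h.cD e).eg2 i) (h.eH e i) (h.eD i) x s).add
      (((eg_KW hc (g1.add g2) ((h.eD e).mul (h.eD i)) (h.eD i) x s).sub
        (((eg_KW hc (h.eH e i) (h.eD e) (h.eD i) x s).mul (eg_Ax hc (h.eD i) x s)).add
          ((eg_Ax hc (h.eD e) x s).mul (eg_KW hc (h.eH i i) (h.eD i) (h.eD i) x s)))).const_mul x)
  · have g1 := (h.eH e i).mul (h.eD i)
    have g2 := (h.eD e).mul (h.eH i i)
    have k1 := (h.ctH e i).mul (h.ctD i)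
    have k2 := (h.ctD e).mul (h.ctH i i)
    exact (cont_KW hc ((h.cD e).eg2 i) (h.eH e i) (h.eD i) ((h.cD e).c2 i) (h.ctH e i)
      (h.ctD i) x s).add (continuous_const.mul
        ((cont_KW hc (g1.add g2) ((h.eD e).mul (h.eD i)) (h.eD i) (k1.add k2)
          ((h.ctD e).mul (h.ctD i)) (h.ctD i) x s).sub
        (((cont_KW hc (h.eH e i) (h.eD e) (h.eD i) (h.ctH e i) (h.ctD e) (h.ctD i) x s).mul
          (cont_Ax hc (h.eD i) (h.ctD i) x s)).add
          ((cont_Ax hc (h.eD e) (h.ctD e) x s).mul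
            (cont_KW hc (h.eH i i) (h.eD i) (h.eD i) (h.ctH i i) (h.ctD i) (h.ctD i) x s)))))
  · show KW x s F (H e i) (D e) (D i) y = KW x s F (H i e) (D i) (D e) y
    have e1 : H e i = H i e := funext fun u => h.sy e i u
    have e2 : (fun u => D e u * D i u) = fun u => D i u * D e u := by funext u; ring
    unfold KW
    rw [e1, e2]
    ring
  · exact abs_KW_le hc (h.eH e i) (h.eD e) (h.eD i) hx.le (h.bH e i) (hc.bd e) (hc.bd i) s y

end pd

end Vale.Agent.P146.R1
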