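import Vale.Agent.P146.H713.Hess
import Vale.Agent.P146.H332.Fe

/-!
The free energy `lz` belongs to the regularity classes `Sm` and `H785.C2` of R1.
-/

open MeasureTheory ProbabilityTheory

namespace Vale.Agent.P146.R1

open Vale.Agent.P157.Lv Vale.Agent.P146.H425 Vale.Agent.P146.H325 Vale.Agent.P146.H332

set_option linter.unusedSectionVars false

variable {ι : Type} [Fintype ι] [DecidableEq ι] {X : Type} [Fintype X] [Nonempty X]
variable (k : ℝ) (S : ι → X → ℝ)

/-- the gradient of `lz` -/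
noncomputable def Dz (e : ι) (u : ι → ℝ) : ℝ := k * av k S (S e) u

/-- the Hessian of `lz` -/
noncomputable def Hz (e i : ι) (u : ι → ℝ) : ℝ :=
  k ^ 2 * (av k S (fun x => S e x * S i x) u - av k S (S e) u * av k S (S i) u)

/-- the third derivatives `∂_i² D_e` of `lz` -/
noncomputable def Tz (e i : ι) (u : ι → ℝ) : ℝ := k * av2 k S (S e) i u

lemma Dz_eq : Dz k S = fun e u => k * av k S (S e) u := rfl

lemma supn_le_Kb (e : ι) : |k| * supn (S e) ≤ Kb k S := by
  unfold Kb supn
  refine mul_le_mul_of_nonneg_left ?_ (abs_nonneg k)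
  exact Finset.single_le_sum (f := fun e => ∑ x, |S e x|)
    (fun _ _ => Finset.sum_nonneg fun _ _ => abs_nonneg _) (Finset.mem_univ e)

lemma supn_nonneg (h : X → ℝ) : 0 ≤ supn h := Finset.sum_nonneg fun _ _ => abs_nonneg _

/-- **The free energy is smooth, with bounded derivatives.** -/
theorem sm_lz : Sm (lz k S) (Dz k S) (Kb k S) (3 * Kb k S ^ 2) (Hz k S) (Tz k S)
    (2 * Kb k S ^ 2) := by
  have c2D : ∀ e, H325.C2 (Dz k S e) (Hz k S e) (Tz k S e) := fun e =>
    ((c2_av k S (S e)).const_mul k).congr (fun u => rfl) (fun i u => by unfold Hz; ring)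
      fun i u => rfl
  refine ⟨c11_lz k S, ⟨fun u => ?_, fun e => ?_, (lip_log k S).eg, fun e => (c2D e).eg,
    fun e => (c2D e).eg1 e, fun e => (c2D e).cont, fun e => (c2D e).c1 e⟩, c2D, fun e i u => ?_,
    fun e i u => ?_⟩
  · have hZ := (Zp_pos k S u).ne'
    refine ((fd_Zp k S u).log hZ).congr_fderiv ?_
    rw [Finset.smul_sum]
    refine Finset.sum_congr rfl fun e _ => ?_
    rw [smul_smul]
    congr 1
    unfold Dz
    field_simp
  · exact (c2D e).pd0 e
  · unfold Hz
    have : (fun x => S e x * S i x) = fun x => S i x * S e x := by funext x; ring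
    rw [this]
    ring
  · have h1 : |av k S (fun x => S e x * S i x) u| ≤ supn (S e) * supn (S i) :=
      abs_av_le k S (fun x => by
        rw [abs_mul]
        exact mul_le_mul (le_supn (S e) x) (le_supn (S i) x) (abs_nonneg _) (supn_nonneg _)) u
    have h2 : |av k S (S e) u * av k S (S i) u| ≤ supn (S e) * supn (S i) := by
      rw [abs_mul]
      exact mul_le_mul (abs_av_le k S (le_supn (S e)) u) (abs_av_le k S (le_supn (S i)) u)
        (abs_nonneg _) (supn_nonneg _)
    have h3 : |av k S (fun x => S e x * S i x) u - av k S (S e) u * av k S (S i) u| ≤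
        2 * (supn (S e) * supn (S i)) := (abs_sub _ _).trans (by linarith)
    have h4 := supn_le_Kb k S e
    have h5 := supn_le_Kb k S i
    have h6 : (|k| * supn (S e)) * (|k| * supn (S i)) ≤ Kb k S * Kb k S :=
      mul_le_mul h4 h5 (mul_nonneg (abs_nonneg _) (supn_nonneg _)) (Kb_nonneg k S)
    unfold Hz
    rw [abs_mul, abs_of_nonneg (sq_nonneg k)]
    calc k ^ 2 * |av k S (fun x => S e x * S i x) u - av k S (S e) u * av k S (S i) u|
        ≤ k ^ 2 * (2 * (supn (S e) * supn (S i))) := mul_le_mul_of_nonneg_left h3 (sq_nonneg k)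
      _ = 2 * ((|k| * supn (S e)) * (|k| * supn (S i))) := by rw [← sq_abs k]; ring
      _ ≤ 2 * Kb k S ^ 2 := by nlinarith

theorem c2_lz : H785.C2 (lz k S) (Dz k S) (Hz k S) (Kb k S) (3 * Kb k S ^ 2) (2 * Kb k S ^ 2) :=
  (sm_lz k S).c2 (cv_lz k S)

end Vale.Agent.P146.R1
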