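import Vale.Agent.P146.H713.Lay

/-!
The deep functional: finitely many Gaussian layers (innermost first) with exponents `m i` and
standard deviations `σ i`; the deep mean `TD` of an observable, the deep covariance `KD`.
-/

open MeasureTheory ProbabilityTheory

namespace Vale.Agent.P146.R1

open Vale.Agent.P157.Lv Vale.Agent.P146.H425
open Vale.Agent.P146.H785 (Ax HW lf)

set_option linter.unusedSectionVars false

variable {κ : Type} [Fintype κ]

/-- The deep functional; the layer `i` has the exponent `m i` and the standard deviation `σ i`;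
the layer `0` is the innermost one. -/
noncomputable def FD (F : (κ → ℝ) → ℝ) (m σ : ℕ → ℝ) : ℕ → (κ → ℝ) → ℝ
  | 0 => F
  | i + 1 => W (m i) (σ i) (FD F m σ i)

/-- The deep mean of an observable. -/
noncomputable def TD (F : (κ → ℝ) → ℝ) (m σ : ℕ → ℝ) (φ : (κ → ℝ) → ℝ) : ℕ → (κ → ℝ) → ℝ
  | 0 => φ
  | i + 1 => Ax (m i) (σ i) (FD F m σ i) (TD F m σ φ i)

/-- The deep covariance of two observables, `c` at the leaves. -/
noncomputable def KD (F : (κ → ℝ) → ℝ) (m σ : ℕ → ℝ) (c φ ψ : (κ → ℝ) → ℝ) :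
    ℕ → (κ → ℝ) → ℝ
  | 0 => c
  | i + 1 => KW (m i) (σ i) (FD F m σ i) (KD F m σ c φ ψ i) (TD F m σ φ i) (TD F m σ ψ i)

/-- the Lipschitz constants of the gradient -/
noncomputable def LD (B L N : ℝ) (m : ℕ → ℝ) : ℕ → ℝ
  | 0 => L
  | i + 1 => LD B L N m i + 2 * m i * (N * B) ^ 2

/-- the bounds of the Hessian -/
noncomputable def MD (B M : ℝ) (m : ℕ → ℝ) : ℕ → ℝ
  | 0 => M
  | i + 1 => MD B M m i + m i * (2 * (B * B))

/-- The third derivatives of the deep functional. -/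
noncomputable def T3D (F : (κ → ℝ) → ℝ) (m σ : ℕ → ℝ) (D : κ → (κ → ℝ) → ℝ)
    (H T : κ → κ → (κ → ℝ) → ℝ) : ℕ → κ → κ → (κ → ℝ) → ℝ
  | 0 => T
  | i + 1 => TW (m i) (σ i) (FD F m σ i) (fun e => TD F m σ (D e) i)
      (fun e f => KD F m σ (H e f) (D e) (D f) i) (T3D F m σ D H T i)

variable {F : (κ → ℝ) → ℝ} {m σ : ℕ → ℝ} {φ ψ c : (κ → ℝ) → ℝ} {i : ℕ}

lemma FD_zero : FD F m σ 0 = F := rfl
lemma FD_succ : FD F m σ (i + 1) = W (m i) (σ i) (FD F m σ i) := rfl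
lemma TD_zero : TD F m σ φ 0 = φ := rfl
lemma TD_succ : TD F m σ φ (i + 1) = Ax (m i) (σ i) (FD F m σ i) (TD F m σ φ i) := rfl
lemma KD_zero : KD F m σ c φ ψ 0 = c := rfl
lemma KD_succ : KD F m σ c φ ψ (i + 1) =
    KW (m i) (σ i) (FD F m σ i) (KD F m σ c φ ψ i) (TD F m σ φ i) (TD F m σ ψ i) := rfl

end Vale.Agent.P146.R1
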