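import Vale.Agent.P146.H713.DeepPos
import Vale.Agent.P146.H645.CS0

/-!
The deep functionals of the SK model are position systems: the instance `deepCS` of `CS`.
-/

open MeasureTheory ProbabilityTheory

namespace Vale.Agent.P146.R1S

open Vale.Agent.P157.Lv Vale.Agent.P146.H425 Vale.Agent.P146.H325 Vale.Agent.P146.H332
  Vale.Agent.P146.H712 Vale.Agent.P146.H816 Vale.Agent.P146.R1 Vale.Agent.P146.R1C Matrix

set_option linter.unusedSectionVars false

variable {n : ℕ} {k x : ℝ} {m σ : ℕ → ℝ} {J : ℕ}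

lemma gs_act (π : Equiv.Perm (Fin n)) : GS (act (n := n) π) :=
  GS.of_mp (mp_act π) fun y s w => by
    funext e
    simp [H816.act]

lemma gs_fl (b : Fin n) : GS (fl (n := n) b) :=
  ⟨fun _ hf => int_fl b hf, fun y s w => by
    funext e
    simp only [fl, Pi.add_apply, Pi.smul_apply, smul_eq_mul]
    ring⟩

lemma lz_act (k : ℝ) (π : Equiv.Perm (Fin n)) (u : Pair n → ℝ) :
    lz k SkS (act π u) = lz k SkS u := by
  unfold lz
  rw [Zp_act]

lemma lz_fl (k : ℝ) (b : Fin n) (u : Pair n → ℝ) : lz k SkS (fl b u) = lz k SkS u := by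
  unfold lz
  have : Zp k (SkS (n := n)) (fl b u) = Zp k SkS u := Zp_flp b u
  rw [this]

lemma SkS_eq_pr (e : Pair n) : SkS e = pr e.1.1 e.1.2 := rfl

lemma SkS_row {b : Fin n} {e : Pair n} (he : e ∈ row b) : SkS e = pr (oth b e) b := by
  rw [mem_row] at he
  unfold oth
  split_ifs with h1
  · rw [← h1, pr_comm]; rfl
  · rw [← he.resolve_left h1]; rfl

lemma pr_mul_pr (i j b : Fin n) : (fun τ => pr i b τ * pr j b τ) = pr i j := by
  funext τ
  unfold pr
  have := sp_mul_self τ b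
  calc sp τ i * sp τ b * (sp τ j * sp τ b) = sp τ i * sp τ j * (sp τ b * sp τ b) := by ring
    _ = _ := by rw [this, mul_one]

/-- the rank one block for the deep functional -/
lemma kov_dp (hE : Exs m J x) (s : ℝ) (z : Pair n → ℝ) :
    k ^ 2 * x ^ 2 / 2 * ∑ i, ∑ j, ∑ p, ∑ q,
      (pA k SkS m σ J x s (fun τ => pr i j τ * pr p q τ) z -
        pA k SkS m σ J x s (pr i j) z * pA k SkS m σ J x s (pr p q) z) ^ 2 ≤
    ∑ e : Pair n, fr (fun i j => k * pK k SkS m σ J x s (pr i j) (SkS e) z) := by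
  set M : Fin n → Fin n → Fin n → Fin n → ℝ := fun i j p q =>
    pA k SkS m σ J x s (fun τ => pr i j τ * pr p q τ) z with hM
  set C : Fin n → Fin n → ℝ := fun i j => pA k SkS m σ J x s (pr i j) z with hC
  set K : Fin n → Fin n → Fin n → Fin n → ℝ := fun i j p q =>
    pK k SkS m σ J x s (pr i j) (pr p q) z with hK
  -- linear combinations of the pairs
  have q1 : ∀ v : Fin n × Fin n → ℝ, ∑ a, ∑ b, v a * (x * (M a.1 a.2 b.1 b.2 -
      C a.1 a.2 * C b.1 b.2)) * v b = x * (pA k SkS m σ J x s (fun τ =>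
        (∑ a, v a * pr a.1 a.2 τ) * ∑ a, v a * pr a.1 a.2 τ) z -
        pA k SkS m σ J x s (fun τ => ∑ a, v a * pr a.1 a.2 τ) z ^ 2) := by
    intro v
    have e1 : pA k SkS m σ J x s (fun τ => (∑ a : Fin n × Fin n, v a * pr a.1 a.2 τ) *
        ∑ a : Fin n × Fin n, v a * pr a.1 a.2 τ) z = ∑ a, ∑ b, v a * v b *
          M a.1 a.2 b.1 b.2 := by
      have e2 : (fun τ => (∑ a : Fin n × Fin n, v a * pr a.1 a.2 τ) *
          ∑ a : Fin n × Fin n, v a * pr a.1 a.2 τ) = fun τ => ∑ a : Fin n × Fin n,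
            (1 : ℝ) * ∑ b : Fin n × Fin n, (v a * v b) * (pr a.1 a.2 τ * pr b.1 b.2 τ) := by
        funext τ
        rw [Finset.sum_mul_sum]
        refine Finset.sum_congr rfl fun a _ => ?_
        rw [one_mul]
        exact Finset.sum_congr rfl fun b _ => by ring
      rw [e2, pA_lin hE Finset.univ (fun _ => (1 : ℝ)) (fun (a : Fin n × Fin n) τ =>
        ∑ b : Fin n × Fin n, (v a * v b) * (pr a.1 a.2 τ * pr b.1 b.2 τ))]
      refine Finset.sum_congr rfl fun a _ => ?_
      rw [one_mul, pA_lin hE Finset.univ (fun b => v a * v b)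
        (fun (b : Fin n × Fin n) τ => pr a.1 a.2 τ * pr b.1 b.2 τ)]
    have e3 : pA k SkS m σ J x s (fun τ => ∑ a : Fin n × Fin n, v a * pr a.1 a.2 τ) z =
        ∑ a, v a * C a.1 a.2 :=
      pA_lin hE Finset.univ v (fun (a : Fin n × Fin n) τ => pr a.1 a.2 τ) z
    rw [e1, e3, pow_two, Finset.sum_mul_sum, ← Finset.sum_sub_distrib, Finset.mul_sum]
    refine Finset.sum_congr rfl fun a _ => ?_
    rw [← Finset.sum_sub_distrib, Finset.mul_sum]
    exact Finset.sum_congr rfl fun b _ => by ring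
  have q2 : ∀ v : Fin n × Fin n → ℝ, ∑ a, ∑ b, v a * K a.1 a.2 b.1 b.2 * v b =
      pK k SkS m σ J x s (fun τ => ∑ a, v a * pr a.1 a.2 τ)
        (fun τ => ∑ a, v a * pr a.1 a.2 τ) z := by
    intro v
    rw [pK_bil hE Finset.univ Finset.univ v v (fun (a : Fin n × Fin n) τ => pr a.1 a.2 τ)
      (fun (a : Fin n × Fin n) τ => pr a.1 a.2 τ)]
    exact Finset.sum_congr rfl fun a _ => Finset.sum_congr rfl fun b _ => by ring
  have key := psd_sq_mono (q := Fin n × Fin n)
    (A := fun a b => x * (M a.1 a.2 b.1 b.2 - C a.1 a.2 * C b.1 b.2))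
    (B := fun a b => K a.1 a.2 b.1 b.2)
    (fun a b => by
      have : M a.1 a.2 b.1 b.2 = M b.1 b.2 a.1 a.2 := by
        simp only [hM]
        congr 1
        funext τ
        exact mul_comm _ _
      rw [this]
      ring)
    (fun v => by
      rw [q1]
      exact mul_nonneg hE.x0.le (sub_nonneg.2 (pK_kov hE _ z).2))
    (fun a b => pK_symm _ _ z)
    (fun v => by
      rw [q1, q2]
      exact (pK_kov hE _ z).1)
  -- the sum over all pairs of sites
  simp only [Fintype.sum_prod_type] at key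
  set G : Fin n → Fin n → ℝ := fun p q => ∑ i, ∑ j, K i j p q ^ 2 with hG
  have g1 : ∀ p q, G p q = G q p := by
    intro p q
    simp only [hG, hK]
    rw [pr_comm p q]
  have g2 : ∀ p, G p p = 0 := by
    intro p
    simp only [hG, hK]
    rw [pr_self p]
    refine Finset.sum_eq_zero fun i _ => Finset.sum_eq_zero fun j _ => ?_
    rw [pK_one hE]
    ring
  have g3 := sum_pairs G g1 g2
  have f1 : ∑ i, ∑ j, ∑ p, ∑ q, K i j p q ^ 2 = ∑ p, ∑ q, G p q := by
    simp only [hG]
    exact sum4_comm fun i j p q => K i j p q ^ 2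
  rw [f1, g3] at key
  have f2 : ∑ e : Pair n, fr (fun i j => k * pK k SkS m σ J x s (pr i j) (SkS e) z) =
      k ^ 2 * ∑ e : Pair n, G e.1.1 e.1.2 := by
    unfold fr
    simp only [hG, hK, Finset.mul_sum, mul_pow]
    rfl
  rw [f2]
  have f3 : ∑ i, ∑ j, ∑ p, ∑ q, (x * (M i j p q - C i j * C p q)) ^ 2 =
      x ^ 2 * ∑ i, ∑ j, ∑ p, ∑ q, (M i j p q - C i j * C p q) ^ 2 := by
    simp only [Finset.mul_sum, mul_pow]
  rw [f3] at key
  have hk : 0 ≤ k ^ 2 := sq_nonneg k
  have := mul_le_mul_of_nonneg_left key hk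
  linarith

/-- **The deep functional of the SK model as a position system.** -/
noncomputable def deepCS (n : ℕ) {k : ℝ} (hk : 0 < k) {m : ℕ → ℝ} (σ : ℕ → ℝ) {J : ℕ} {x : ℝ}
    (hE : Exs m J x) : CS n k x where
  F := FD (lz k SkS) m σ J
  D := fun e => TD (lz k SkS) m σ (Dz k SkS e) J
  bB := Kb k (SkS (n := n))
  bL := LD (Kb k (SkS (n := n))) (3 * Kb k (SkS (n := n)) ^ 2) (Fintype.card (Pair n)) m J
  A := fun s z i j => pA k SkS m σ J x s (pr i j) z
  DA := fun s e z i j => k * pK k SkS m σ J x s (pr i j) (SkS e) z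
  H := fun s b z i j => pK k SkS m σ J x s (pr i b) (pr j b) z
  mu := fun s z τ => pmu k SkS m σ J x s z τ
  T4 := fun s z i j p q => pA k SkS m σ J x s (fun τ => pr i j τ * pr p q τ) z
  k0 := hk
  x0 := hE.x0
  x1 := hE.x1
  c11 := c11_Fdp hE
  cv := cv_Fdp hE
  F_act := fun π z => Fdp_GS (gs_act π) (lz_act k π) hE z
  F_fl := fun b z => Fdp_GS (gs_fl b) (lz_fl k b) hE z
  dd_eq := fun s e z => dd_pA hE e z
  mu0 := fun s z τ => pmu_nonneg hE z τ
  mu1 := fun s z => sum_pmu hE z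
  eg_mu := fun s τ => eg_pmu hE s τ
  A_mu := fun s z i j => pA_pmu hE (pr i j) z
  T4_mu := fun s z i j p q => pA_pmu hE (fun τ => pr i j τ * pr p q τ) z
  fd_A := fun s i j z => (fb_pA hE s (pr i j)).fd z
  eg_DA := fun s e i j => (fb_pA hE s (pr i j)).eg' e
  DA_row := fun {s} _ {b e} he z i => by
    rw [SkS_row he]
  H_comm := fun s b z i j => pK_symm _ _ z
  H_row := fun {s} _ b z i => by
    rw [pr_self b]
    exact pK_one hE _ z
  H_nonneg := fun {s} _ b z v => by
    have h1 := pK_bil (k := k) (S := SkS) (m := m) (σ := σ) (J := J) (t := s) hE Finset.univ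
      Finset.univ v v (fun i => pr i b) (fun i => pr i b) z
    have h2 := pK_nonneg (k := k) (S := SkS) (m := m) (σ := σ) (J := J) (t := s) hE
      (fun τ => ∑ i, v i * pr i b τ) z
    rw [h1] at h2
    refine h2.trans (le_of_eq ?_)
    unfold qf
    exact Finset.sum_congr rfl fun a _ => Finset.sum_congr rfl fun c _ => by ring
  H_le := fun {s} _ b z v => by
    have h1 := pK_bil (k := k) (S := SkS) (m := m) (σ := σ) (J := J) (t := s) hE Finset.univ
      Finset.univ v v (fun i => pr i b) (fun i => pr i b) z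
    have h2 := pK_le (k := k) (S := SkS) (m := m) (σ := σ) (J := J) (t := s) hE
      (fun τ => ∑ i, v i * pr i b τ) z
    have e2 : (fun τ => (∑ i, v i * pr i b τ) * ∑ i, v i * pr i b τ) = fun τ => ∑ i,
        (1 : ℝ) * ∑ j, (v i * v j) * pr i j τ := by
      funext τ
      rw [Finset.sum_mul_sum]
      refine Finset.sum_congr rfl fun i _ => ?_
      rw [one_mul]
      refine Finset.sum_congr rfl fun j _ => ?_
      have h5 : pr i b τ * pr j b τ = pr i j τ := congrFun (pr_mul_pr i j b) τ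
      rw [← h5]
      ring
    rw [e2, pA_lin hE Finset.univ (fun _ => (1 : ℝ)) (fun (i : Fin n) τ =>
      ∑ j, (v i * v j) * pr i j τ)] at h2
    have e3 : ∀ i, pA k SkS m σ J x s (fun τ => ∑ j, (v i * v j) * pr i j τ) z =
        ∑ j, (v i * v j) * pA k SkS m σ J x s (pr i j) z := fun i =>
      pA_lin hE Finset.univ (fun j => v i * v j) (fun j => pr i j) z
    simp only [one_mul, e3] at h2
    rw [h1] at h2
    have h3 : 0 ≤ x * pA k SkS m σ J x s (fun τ => ∑ i, v i * pr i b τ) z ^ 2 :=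
      mul_nonneg hE.x0.le (sq_nonneg _)
    have h4 : ∑ i, ∑ j, v i * v j * pK k SkS m σ J x s (pr i b) (pr j b) z ≤
        ∑ i, ∑ j, v i * v j * pA k SkS m σ J x s (pr i j) z := by linarith
    refine le_trans (le_of_eq ?_) (h4.trans (le_of_eq ?_))
    · unfold qf
      exact Finset.sum_congr rfl fun a _ => Finset.sum_congr rfl fun c _ => by ring
    · unfold qf
      exact Finset.sum_congr rfl fun a _ => Finset.sum_congr rfl fun c _ => by ring
  cont_H := fun s b i j => cont_pK hE s _ _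
  kov := fun {s} _ z => kov_dp hE s z
  A_act := fun π s z p q => pA_GS (gs_act π) (lz_act k π) hE (fun u => av_pr_act k π p q u) z
  A_fl_row := fun s {b p} hp z =>
    pA_GS_neg (gs_fl b) (lz_fl k b) hE (fun u => av_fl_row hp u) z
  A_fl_ne := fun s {b p q} hp hq z =>
    pA_GS (gs_fl b) (lz_fl k b) hE (fun u => av_fl_ne hp hq u) z
  H_fl := fun s {b p q} hp hq z =>
    pK_GS_neg (gs_fl b) (lz_fl k b) hE (fun u => av_fl_row hp u) (fun u => av_fl_row hq u)
      (fun u => by rw [pr_mul_pr]; exact av_fl_ne hp hq u) z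

end Vale.Agent.P146.R1S
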