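import Vale.Agent.P146.H713.DeepDef
import Vale.Agent.P146.H941.Deep

/-!
The deep functional: regularity, linearity, the three inequalities of the covariance recursion,
symmetries.
-/

open MeasureTheory ProbabilityTheory

namespace Vale.Agent.P146.R1

open Vale.Agent.P157.Lv Vale.Agent.P146.H425
open Vale.Agent.P146.H785 (Ax HW lf)

set_option linter.unusedSectionVars false

variable {κ : Type} [Fintype κ] {F c φ ψ g : (κ → ℝ) → ℝ} {D : κ → (κ → ℝ) → ℝ}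
  {B L x x' s : ℝ} {m σ : ℕ → ℝ} {φ' : κ → (κ → ℝ) → ℝ}

/-! ### one layer -/

section one

variable {ι : Type*}

lemma Ax_lin (h : C11 F D B L) (S : Finset ι) (v : ι → ℝ) {φ : ι → (κ → ℝ) → ℝ}
    (hφ : ∀ a ∈ S, EG (φ a)) (x s : ℝ) (y : κ → ℝ) :
    Ax x s F (fun u => ∑ a ∈ S, v a * φ a u) y = ∑ a ∈ S, v a * Ax x s F (φ a) y := by
  rw [H785.Ax_sum h.lip h.B0 S (φ := fun a u => v a * φ a u) fun a ha => (hφ a ha).const_mul _]
  exact Finset.sum_congr rfl fun a _ => H785.Ax_const_mul _ _ _ _ _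

lemma KW_bil {ι' : Type*} (h : C11 F D B L) (S : Finset ι) (S' : Finset ι') (v : ι → ℝ)
    (w : ι' → ℝ) {c : ι → ι' → (κ → ℝ) → ℝ} {φ : ι → (κ → ℝ) → ℝ} {ψ : ι' → (κ → ℝ) → ℝ}
    (hc : ∀ a ∈ S, ∀ b ∈ S', EG (c a b)) (hφ : ∀ a ∈ S, EG (φ a)) (hψ : ∀ b ∈ S', EG (ψ b))
    (x s : ℝ) (y : κ → ℝ) :
    KW x s F (fun u => ∑ a ∈ S, ∑ b ∈ S', v a * w b * c a b u) (fun u => ∑ a ∈ S, v a * φ a u)
      (fun u => ∑ b ∈ S', w b * ψ b u) y =
      ∑ a ∈ S, ∑ b ∈ S', v a * w b * KW x s F (c a b) (φ a) (ψ b) y := by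
  have e1 : Ax x s F (fun u => ∑ a ∈ S, ∑ b ∈ S', v a * w b * c a b u) y =
      ∑ a ∈ S, ∑ b ∈ S', v a * w b * Ax x s F (c a b) y := by
    rw [H785.Ax_sum h.lip h.B0 S (φ := fun a u => ∑ b ∈ S', v a * w b * c a b u) fun a ha =>
      EG.sum S' fun b hb => (hc a ha b hb).const_mul _]
    refine Finset.sum_congr rfl fun a ha => ?_
    exact Ax_lin h S' (fun b => v a * w b) (fun b hb => hc a ha b hb) x s y
  have e2 : Ax x s F (fun u => (∑ a ∈ S, v a * φ a u) * ∑ b ∈ S', w b * ψ b u) y =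
      ∑ a ∈ S, ∑ b ∈ S', v a * w b * Ax x s F (fun u => φ a u * ψ b u) y := by
    have e3 : (fun u => (∑ a ∈ S, v a * φ a u) * ∑ b ∈ S', w b * ψ b u) =
        fun u => ∑ a ∈ S, ∑ b ∈ S', v a * w b * (φ a u * ψ b u) := by
      funext u
      rw [Finset.sum_mul_sum]
      exact Finset.sum_congr rfl fun a _ => Finset.sum_congr rfl fun b _ => by ring
    rw [e3, H785.Ax_sum h.lip h.B0 S (φ := fun a u => ∑ b ∈ S', v a * w b * (φ a u * ψ b u))
      fun a ha => EG.sum S' fun b hb => ((hφ a ha).mul (hψ b hb)).const_mul _]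
    refine Finset.sum_congr rfl fun a ha => ?_
    exact Ax_lin h S' (fun b => v a * w b) (φ := fun b u => φ a u * ψ b u)
      (fun b hb => (hφ a ha).mul (hψ b hb)) x s y
  unfold KW
  rw [e1, e2, Ax_lin h S v hφ, Ax_lin h S' w hψ, Finset.sum_mul_sum, ← Finset.sum_sub_distrib,
    Finset.mul_sum, ← Finset.sum_add_distrib]
  refine Finset.sum_congr rfl fun a _ => ?_
  rw [← Finset.sum_sub_distrib, Finset.mul_sum, ← Finset.sum_add_distrib]
  exact Finset.sum_congr rfl fun b _ => by ring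

lemma Ax_nonneg (h : C11 F D B L) (hc : ∀ u, 0 ≤ c u) (x s : ℝ) (y : κ → ℝ) :
    0 ≤ Ax x s F c y :=
  div_nonneg (integral_nonneg fun _ => mul_nonneg (Real.exp_pos _).le (hc _))
    (C11.posx h x s y).le

/-- `0 ≤ KW` -/
lemma KW_nonneg (h : C11 F D B L) (hx : 0 ≤ x) (hφ : EG φ) (hc : ∀ u, 0 ≤ c u) (s : ℝ)
    (y : κ → ℝ) : 0 ≤ KW x s F c φ φ y := by
  have h1 := Ax_nonneg h hc x s y
  have h2 := H785.Ax_sq_le h.lip h.B0 hφ x s y
  unfold KW
  have h3 : 0 ≤ x * (Ax x s F (fun u => φ u * φ u) y - Ax x s F φ y * Ax x s F φ y) :=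
    mul_nonneg hx (by rw [← pow_two]; linarith)
  linarith

lemma KW_le (h : C11 F D B L) (hxx : x ≤ x') (hc : EG c) (hφ : EG φ) (hg : EG g)
    (hle : ∀ u, c u + x' * φ u ^ 2 ≤ g u) (s : ℝ) (y : κ → ℝ) :
    KW x s F c φ φ y + x * Ax x s F φ y ^ 2 ≤ Ax x s F g y := by
  have h1 : Ax x s F (fun u => c u + x * (φ u * φ u)) y ≤ Ax x s F g y :=
    H785.Ax_mono h.lip h.B0 (hc.add ((hφ.mul hφ).const_mul x)) hg (fun u => by
      have := hle u
      nlinarith [sq_nonneg (φ u)]) x s y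
  rw [H785.Ax_add h.lip h.B0 hc ((hφ.mul hφ).const_mul x), H785.Ax_const_mul] at h1
  unfold KW
  nlinarith

lemma KW_kov (h : C11 F D B L) (hxx : x ≤ x') (hc : EG c) (hφ : EG φ) (hg : EG g)
    (h1 : ∀ u, x' * (g u - φ u ^ 2) ≤ c u) (h2 : ∀ u, φ u ^ 2 ≤ g u) (s : ℝ) (y : κ → ℝ) :
    x * (Ax x s F g y - Ax x s F φ y ^ 2) ≤ KW x s F c φ φ y ∧
      Ax x s F φ y ^ 2 ≤ Ax x s F g y := by
  have h3 : Ax x s F (fun u => x * g u + -x * (φ u * φ u)) y ≤ Ax x s F c y :=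
    H785.Ax_mono h.lip h.B0 ((hg.const_mul x).add ((hφ.mul hφ).const_mul (-x))) hc (fun u => by
      have := h1 u
      have := h2 u
      nlinarith [mul_nonneg (sub_nonneg.2 hxx) (sub_nonneg.2 (h2 u))]) x s y
  rw [H785.Ax_add h.lip h.B0 (hg.const_mul x) ((hφ.mul hφ).const_mul (-x)),
    H785.Ax_const_mul, H785.Ax_const_mul] at h3
  have h4 : Ax x s F (fun u => φ u * φ u) y ≤ Ax x s F g y :=
    H785.Ax_mono h.lip h.B0 (hφ.mul hφ) hg (fun u => by rw [← pow_two]; exact h2 u) x s y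
  have h5 := H785.Ax_sq_le h.lip h.B0 hφ x s y
  constructor
  · unfold KW
    nlinarith
  · linarith

lemma KW_one (h : C11 F D B L) (x s : ℝ) (y : κ → ℝ) :
    KW x s F (fun _ => 0) φ (fun _ => 1) y = 0 := by
  unfold KW
  simp only [mul_one]
  rw [H785.Ax_const h.lip h.B0, H785.Ax_const h.lip h.B0]
  ring

lemma KW_symm (x s : ℝ) (y : κ → ℝ) : KW x s F c φ ψ y = KW x s F c ψ φ y := by
  unfold KW
  have e : (fun u => φ u * ψ u) = fun u => ψ u * φ u := by funext u; ring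
  rw [e]
  ring

lemma Ax_neg (x s : ℝ) (y : κ → ℝ) : Ax x s F (fun u => -φ u) y = -Ax x s F φ y := by
  have h := H785.Ax_const_mul (F := F) (-1) φ x s y
  simpa using h

lemma KW_neg (x s : ℝ) (y : κ → ℝ) :
    KW x s F c (fun u => -φ u) (fun u => -ψ u) y = KW x s F c φ ψ y := by
  unfold KW
  rw [Ax_neg, Ax_neg]
  simp only [neg_mul_neg]

end one

/-! ### exponents -/

/-- the previous exponent -/
def mp (m : ℕ → ℝ) : ℕ → ℝ
  | 0 => 1
  | i + 1 => m i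

/-- Admissible exponents: `x ≤ m (J - 1) ≤ … ≤ m 0 ≤ 1`. -/
structure Exs (m : ℕ → ℝ) (J : ℕ) (x : ℝ) : Prop where
  x0 : 0 < x
  x1 : x ≤ 1
  ge : ∀ i < J, x ≤ m i
  le : ∀ i < J, m i ≤ 1
  anti : ∀ i, i + 1 < J → m (i + 1) ≤ m i

variable {J : ℕ}

lemma Exs.pos (h : Exs m J x) (i : ℕ) (hi : i < J) : 0 < m i := h.x0.trans_le (h.ge i hi)

lemma Exs.pos' (h : Exs m J x) {i : ℕ} (hi : i ≤ J) (j : ℕ) (hj : j < i) : 0 < m j :=
  h.pos j (hj.trans_le hi)

lemma Exs.step (h : Exs m J x) (i : ℕ) (hi : i < J) : m i ≤ mp m i := by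
  cases i with
  | zero => exact h.le 0 hi
  | succ i => exact h.anti i hi

lemma Exs.top (h : Exs m J x) : x ≤ mp m J := by
  cases J with
  | zero => exact h.x1
  | succ i => exact h.ge i (Nat.lt_succ_self i)

/-! ### regularity of the deep functional -/

theorem c11_FD (h : C11 F D B L) : ∀ i, (∀ j < i, 0 < m j) →
    C11 (FD F m σ i) (fun e => TD F m σ (D e) i) B (LD B L (Fintype.card κ) m i)
  | 0, _ => h
  | i + 1, hm => (c11_FD h i fun j hj => hm j (hj.trans (Nat.lt_succ_self i))).W'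
      (hm i (Nat.lt_succ_self i)) (σ i)

theorem cv_FD (h : C11 F D B L) (hc : Cv F) : ∀ i, (∀ j < i, 0 < m j) → Cv (FD F m σ i)
  | 0, _ => hc
  | i + 1, hm => H941.cv_W (c11_FD h i fun j hj => hm j (hj.trans (Nat.lt_succ_self i)))
      (cv_FD h hc i fun j hj => hm j (hj.trans (Nat.lt_succ_self i)))
      (hm i (Nat.lt_succ_self i)) (σ i)

theorem sm_FD [DecidableEq κ] {H T : κ → κ → (κ → ℝ) → ℝ} {M : ℝ} (h : Sm F D B L H T M) :
    ∀ i, (∀ j < i, 0 < m j) → Sm (FD F m σ i) (fun e => TD F m σ (D e) i) B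
      (LD B L (Fintype.card κ) m i) (fun e f => KD F m σ (H e f) (D e) (D f) i)
      (T3D F m σ D H T i) (MD B M m i)
  | 0, _ => h
  | i + 1, hm => (sm_FD h i fun j hj => hm j (hj.trans (Nat.lt_succ_self i))).W
      (hm i (Nat.lt_succ_self i)) (σ i)

section reg

variable {i : ℕ}

lemma eg_TD (h : C11 F D B L) (hφ : EG φ) : ∀ i, (∀ j < i, 0 < m j) → EG (TD F m σ φ i)
  | 0, _ => hφ
  | i + 1, hm => by
    have hm' : ∀ j < i, 0 < m j := fun j hj => hm j (hj.trans (Nat.lt_succ_self i))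
    exact eg_Ax (c11_FD (σ := σ) h i hm') (eg_TD h hφ i hm') (m i) (σ i)

lemma cont_TD (h : C11 F D B L) (hφ : EG φ) (hc : Continuous φ) : ∀ i, (∀ j < i, 0 < m j) →
    Continuous (TD F m σ φ i)
  | 0, _ => hc
  | i + 1, hm => by
    have hm' : ∀ j < i, 0 < m j := fun j hj => hm j (hj.trans (Nat.lt_succ_self i))
    exact cont_Ax (c11_FD (σ := σ) h i hm') (eg_TD h hφ i hm') (cont_TD h hφ hc i hm') (m i) (σ i)

lemma eg_KD (h : C11 F D B L) (hc : EG c) (hφ : EG φ) (hψ : EG ψ) : ∀ i, (∀ j < i, 0 < m j) →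
    EG (KD F m σ c φ ψ i)
  | 0, _ => hc
  | i + 1, hm => by
    have hm' : ∀ j < i, 0 < m j := fun j hj => hm j (hj.trans (Nat.lt_succ_self i))
    exact eg_KW (c11_FD (σ := σ) h i hm') (eg_KD h hc hφ hψ i hm') (eg_TD h hφ i hm')
      (eg_TD h hψ i hm') (m i) (σ i)

lemma cont_KD (h : C11 F D B L) (hc : EG c) (hφ : EG φ) (hψ : EG ψ) (cc : Continuous c)
    (cφ : Continuous φ) (cψ : Continuous ψ) : ∀ i, (∀ j < i, 0 < m j) →
    Continuous (KD F m σ c φ ψ i)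
  | 0, _ => cc
  | i + 1, hm => by
    have hm' : ∀ j < i, 0 < m j := fun j hj => hm j (hj.trans (Nat.lt_succ_self i))
    exact cont_KW (c11_FD (σ := σ) h i hm') (eg_KD h hc hφ hψ i hm') (eg_TD h hφ i hm')
      (eg_TD h hψ i hm') (cont_KD h hc hφ hψ cc cφ cψ i hm') (cont_TD h hφ cφ i hm')
      (cont_TD h hψ cψ i hm') (m i) (σ i)

/-- **The derivative of a deep mean.** -/
theorem fb_TD (h : C11 F D B L) (hD : ∀ e, Continuous (D e)) (hφ : Fb φ φ') : ∀ i,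
    (∀ j < i, 0 < m j) → Fb (TD F m σ φ i) (fun e => KD F m σ (φ' e) φ (D e) i)
  | 0, _ => hφ
  | i + 1, hm => by
    have hm' : ∀ j < i, 0 < m j := fun j hj => hm j (hj.trans (Nat.lt_succ_self i))
    exact (fb_TD h hD hφ i hm').Ax (c11_FD (σ := σ) h i hm')
      (fun e => cont_TD h (C11.egD h e) (hD e) i hm') (m i) (σ i)

end reg

/-! ### linearity -/

lemma TD_lin {ι : Type*} (h : C11 F D B L) (S : Finset ι) (v : ι → ℝ) {φ : ι → (κ → ℝ) → ℝ}
    (hφ : ∀ a ∈ S, EG (φ a)) : ∀ i, (∀ j < i, 0 < m j) →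
    TD F m σ (fun u => ∑ a ∈ S, v a * φ a u) i = fun y => ∑ a ∈ S, v a * TD F m σ (φ a) i y
  | 0, _ => rfl
  | i + 1, hm => by
    have hm' : ∀ j < i, 0 < m j := fun j hj => hm j (hj.trans (Nat.lt_succ_self i))
    funext y
    rw [TD_succ, TD_lin h S v hφ i hm']
    exact Ax_lin (c11_FD (σ := σ) h i hm') S v (fun a ha => eg_TD h (hφ a ha) i hm') _ _ y

lemma TD_const (h : C11 F D B L) (a : ℝ) : ∀ i, (∀ j < i, 0 < m j) →
    TD F m σ (fun _ => a) i = fun _ => a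
  | 0, _ => rfl
  | i + 1, hm => by
    have hm' : ∀ j < i, 0 < m j := fun j hj => hm j (hj.trans (Nat.lt_succ_self i))
    have hc := c11_FD (σ := σ) h i hm'
    funext y
    rw [TD_succ, TD_const h a i hm']
    exact H785.Ax_const hc.lip hc.B0 a _ _ y

lemma TD_const_mul (a : ℝ) (φ : (κ → ℝ) → ℝ) : ∀ i,
    TD F m σ (fun u => a * φ u) i = fun y => a * TD F m σ φ i y
  | 0 => rfl
  | i + 1 => by
    funext y
    rw [TD_succ, TD_const_mul a φ i]
    exact H785.Ax_const_mul _ _ _ _ _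

lemma TD_add (h : C11 F D B L) (hφ : EG φ) (hψ : EG ψ) : ∀ i, (∀ j < i, 0 < m j) →
    TD F m σ (fun u => φ u + ψ u) i = fun y => TD F m σ φ i y + TD F m σ ψ i y
  | 0, _ => rfl
  | i + 1, hm => by
    have hm' : ∀ j < i, 0 < m j := fun j hj => hm j (hj.trans (Nat.lt_succ_self i))
    have hc := c11_FD (σ := σ) h i hm'
    funext y
    rw [TD_succ, TD_add h hφ hψ i hm']
    exact H785.Ax_add hc.lip hc.B0 (eg_TD h hφ i hm') (eg_TD h hψ i hm') _ _ y

lemma TD_mono (h : C11 F D B L) (hφ : EG φ) (hψ : EG ψ) (hle : ∀ u, φ u ≤ ψ u) : ∀ i,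
    (∀ j < i, 0 < m j) → ∀ y, TD F m σ φ i y ≤ TD F m σ ψ i y
  | 0, _ => hle
  | i + 1, hm => by
    have hm' : ∀ j < i, 0 < m j := fun j hj => hm j (hj.trans (Nat.lt_succ_self i))
    have hc := c11_FD (σ := σ) h i hm'
    intro y
    exact H785.Ax_mono hc.lip hc.B0 (eg_TD h hφ i hm') (eg_TD h hψ i hm')
      (TD_mono h hφ hψ hle i hm') _ _ y

lemma TD_nonneg (h : C11 F D B L) (hφ : EG φ) (hle : ∀ u, 0 ≤ φ u) (i : ℕ)
    (hm : ∀ j < i, 0 < m j) (y : κ → ℝ) : 0 ≤ TD F m σ φ i y := by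
  have := TD_mono (σ := σ) h (EG.const 0) hφ hle i hm y
  rwa [TD_const h 0 i hm] at this

lemma abs_TD_le (h : C11 F D B L) (hφ : EG φ) {C : ℝ} (hle : ∀ u, |φ u| ≤ C) (i : ℕ)
    (hm : ∀ j < i, 0 < m j) (y : κ → ℝ) : |TD F m σ φ i y| ≤ C := by
  have h1 := TD_mono (σ := σ) h (EG.const (-C)) hφ (fun u => (abs_le.1 (hle u)).1) i hm y
  have h2 := TD_mono (σ := σ) h hφ (EG.const C) (fun u => (abs_le.1 (hle u)).2) i hm y
  rw [TD_const h _ i hm] at h1 h2
  exact abs_le.2 ⟨h1, h2⟩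

lemma KD_bil {ι ι' : Type*} (h : C11 F D B L) (S : Finset ι) (S' : Finset ι') (v : ι → ℝ)
    (w : ι' → ℝ) {c : ι → ι' → (κ → ℝ) → ℝ} {φ : ι → (κ → ℝ) → ℝ} {ψ : ι' → (κ → ℝ) → ℝ}
    (hc : ∀ a ∈ S, ∀ b ∈ S', EG (c a b)) (hφ : ∀ a ∈ S, EG (φ a)) (hψ : ∀ b ∈ S', EG (ψ b)) :
    ∀ i, (∀ j < i, 0 < m j) → KD F m σ (fun u => ∑ a ∈ S, ∑ b ∈ S', v a * w b * c a b u)
      (fun u => ∑ a ∈ S, v a * φ a u) (fun u => ∑ b ∈ S', w b * ψ b u) i =
      fun y => ∑ a ∈ S, ∑ b ∈ S', v a * w b * KD F m σ (c a b) (φ a) (ψ b) i y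
  | 0, _ => rfl
  | i + 1, hm => by
    have hm' : ∀ j < i, 0 < m j := fun j hj => hm j (hj.trans (Nat.lt_succ_self i))
    funext y
    rw [KD_succ, KD_bil h S S' v w hc hφ hψ i hm', TD_lin h S v hφ i hm', TD_lin h S' w hψ i hm']
    exact KW_bil (c11_FD (σ := σ) h i hm') S S' v w
      (fun a ha b hb => eg_KD h (hc a ha b hb) (hφ a ha) (hψ b hb) i hm')
      (fun a ha => eg_TD h (hφ a ha) i hm') (fun b hb => eg_TD h (hψ b hb) i hm') _ _ y

lemma KD_symm : ∀ i, KD F m σ c φ ψ i = KD F m σ c ψ φ i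
  | 0 => rfl
  | i + 1 => by
    funext y
    rw [KD_succ, KD_succ, KD_symm i, KW_symm]

lemma TD_neg : ∀ i, TD F m σ (fun u => -φ u) i = fun y => -TD F m σ φ i y
  | 0 => rfl
  | i + 1 => by
    funext y
    rw [TD_succ, TD_neg i]
    exact Ax_neg _ _ _

lemma KD_neg : ∀ i, KD F m σ c (fun u => -φ u) (fun u => -ψ u) i = KD F m σ c φ ψ i
  | 0 => rfl
  | i + 1 => by
    funext y
    rw [KD_succ, KD_succ, KD_neg i, TD_neg i, TD_neg i, KW_neg]

lemma KD_one (h : C11 F D B L) : ∀ i, (∀ j < i, 0 < m j) →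
    KD F m σ (fun _ => 0) φ (fun _ => 1) i = fun _ => 0
  | 0, _ => rfl
  | i + 1, hm => by
    have hm' : ∀ j < i, 0 < m j := fun j hj => hm j (hj.trans (Nat.lt_succ_self i))
    funext y
    rw [KD_succ, KD_one h i hm', TD_const h 1 i hm']
    exact KW_one (c11_FD (σ := σ) h i hm') _ _ y

/-! ### the three inequalities -/

lemma KD_nonneg (h : C11 F D B L) (hcg : EG c) (hφ : EG φ) (hc : ∀ u, 0 ≤ c u) : ∀ i,
    (∀ j < i, 0 < m j) → ∀ y, 0 ≤ KD F m σ c φ φ i y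
  | 0, _ => hc
  | i + 1, hm => by
    have hm' : ∀ j < i, 0 < m j := fun j hj => hm j (hj.trans (Nat.lt_succ_self i))
    intro y
    exact KW_nonneg (c11_FD (σ := σ) h i hm') (hm i (Nat.lt_succ_self i)).le
      (eg_TD h hφ i hm') (KD_nonneg h hcg hφ hc i hm') _ y

/-- **(row)** -/
theorem KD_le (h : C11 F D B L) (hE : Exs m J x) (hc : EG c) (hφ : EG φ) (hg : EG g)
    (hle : ∀ u, c u + φ u ^ 2 ≤ g u) : ∀ i, i ≤ J → ∀ y,
    KD F m σ c φ φ i y + mp m i * TD F m σ φ i y ^ 2 ≤ TD F m σ g i y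
  | 0, _ => fun y => by
    show c y + 1 * φ y ^ 2 ≤ g y
    rw [one_mul]
    exact hle y
  | i + 1, hi => by
    have hm' := hE.pos' (i := i) (by omega)
    intro y
    exact KW_le (c11_FD (σ := σ) h i hm') (hE.step i (by omega)) (eg_KD h hc hφ hφ i hm')
      (eg_TD h hφ i hm') (eg_TD h hg i hm') (KD_le h hE hc hφ hg hle i (by omega)) _ y

/-- **(Kov)** -/
theorem KD_kov (h : C11 F D B L) (hE : Exs m J x) (hc : EG c) (hφ : EG φ) (hg : EG g)
    (h1 : ∀ u, g u - φ u ^ 2 ≤ c u) (h2 : ∀ u, φ u ^ 2 ≤ g u) : ∀ i, i ≤ J → ∀ y,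
    mp m i * (TD F m σ g i y - TD F m σ φ i y ^ 2) ≤ KD F m σ c φ φ i y ∧
      TD F m σ φ i y ^ 2 ≤ TD F m σ g i y
  | 0, _ => fun y => by
    refine ⟨?_, h2 y⟩
    show 1 * (g y - φ y ^ 2) ≤ c y
    rw [one_mul]
    exact h1 y
  | i + 1, hi => by
    have hm' := hE.pos' (i := i) (by omega)
    intro y
    exact KW_kov (c11_FD (σ := σ) h i hm') (hE.step i (by omega)) (eg_KD h hc hφ hφ i hm')
      (eg_TD h hφ i hm') (eg_TD h hg i hm')
      (fun u => (KD_kov h hE hc hφ hg h1 h2 i (by omega) u).1)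
      (fun u => (KD_kov h hE hc hφ hg h1 h2 i (by omega) u).2) _ y

/-! ### symmetries -/

/-- A symmetry of the Gaussian measure which respects the translations. -/
structure GS (A : (κ → ℝ) → κ → ℝ) : Prop where
  int : ∀ f : (κ → ℝ) → ℝ, Measurable f → ∫ w, f (A w) ∂(gI κ) = ∫ w, f w ∂(gI κ)
  add : ∀ (y : κ → ℝ) (s : ℝ) (w : κ → ℝ), A (y + s • w) = A y + s • A w

variable {A : (κ → ℝ) → κ → ℝ}

lemma GS.of_mp (hA : MeasurePreserving A (gI κ) (gI κ))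
    (hadd : ∀ (y : κ → ℝ) (s : ℝ) (w : κ → ℝ), A (y + s • w) = A y + s • A w) : GS A := by
  refine ⟨fun f hf => ?_, hadd⟩
  have h : ∫ w, f w ∂(Measure.map A (gI κ)) = ∫ w, f (A w) ∂(gI κ) :=
    integral_map hA.measurable.aemeasurable hf.aestronglyMeasurable
  rw [← h, hA.map_eq]

lemma int_GS (hA : GS A) {f : (κ → ℝ) → ℝ} (hf : Measurable f) (s : ℝ) (z : κ → ℝ) :
    ∫ w, f (A z + s • w) ∂(gI κ) = ∫ w, f (A (z + s • w)) ∂(gI κ) := by
  have hm : Measurable fun w => f (A z + s • w) := hf.comp (by fun_prop)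
  rw [← hA.int _ hm]
  simp only [← hA.add]

lemma Ax_GS (hA : GS A) (hF : Measurable F) (hφ : Measurable φ) (hinv : ∀ z, F (A z) = F z)
    (x s : ℝ) (z : κ → ℝ) : Ax x s F φ (A z) = Ax x s F (fun u => φ (A u)) z := by
  have hE : Measurable fun u => Real.exp (x * F u) := Real.measurable_exp.comp (hF.const_mul x)
  unfold H785.Ax
  rw [int_GS hA (f := fun u => Real.exp (x * F u) * φ u) (hE.mul hφ),
    int_GS hA (f := fun u => Real.exp (x * F u)) hE]
  simp only [hinv]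

lemma W_GS (hA : GS A) (hF : Measurable F) (hinv : ∀ z, F (A z) = F z) (x s : ℝ) (z : κ → ℝ) :
    W x s F (A z) = W x s F z := by
  have hE : Measurable fun u => Real.exp (x * F u) := Real.measurable_exp.comp (hF.const_mul x)
  unfold W
  rw [int_GS hA (f := fun u => Real.exp (x * F u)) hE]
  simp only [hinv]

lemma KW_GS (hA : GS A) (hF : Measurable F) (hc : Measurable c) (hφ : Measurable φ)
    (hψ : Measurable ψ) (hinv : ∀ z, F (A z) = F z) (x s : ℝ) (z : κ → ℝ) :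
    KW x s F c φ ψ (A z) = KW x s F (fun u => c (A u)) (fun u => φ (A u)) (fun u => ψ (A u)) z := by
  unfold KW
  rw [Ax_GS hA hF hc hinv, Ax_GS hA hF hφ hinv, Ax_GS hA hF hψ hinv,
    Ax_GS hA hF (φ := fun u => φ u * ψ u) (hφ.mul hψ) hinv]

theorem FD_GS (h : C11 F D B L) (hA : GS A) (hinv : ∀ z, F (A z) = F z) : ∀ i,
    (∀ j < i, 0 < m j) → ∀ z, FD F m σ i (A z) = FD F m σ i z
  | 0, _ => hinv
  | i + 1, hm => by
    have hm' : ∀ j < i, 0 < m j := fun j hj => hm j (hj.trans (Nat.lt_succ_self i))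
    intro z
    exact W_GS hA (c11_FD (σ := σ) h i hm').eg.meas (FD_GS h hA hinv i hm') _ _ z

theorem TD_GS (h : C11 F D B L) (hA : GS A) (hφ : EG φ) (hφA : EG fun u => φ (A u))
    (hinv : ∀ z, F (A z) = F z) : ∀ i, (∀ j < i, 0 < m j) → ∀ z,
    TD F m σ φ i (A z) = TD F m σ (fun u => φ (A u)) i z
  | 0, _ => fun _ => rfl
  | i + 1, hm => by
    have hm' : ∀ j < i, 0 < m j := fun j hj => hm j (hj.trans (Nat.lt_succ_self i))
    intro z
    rw [TD_succ, TD_succ, Ax_GS hA (c11_FD (σ := σ) h i hm').eg.meas (eg_TD h hφ i hm').meas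
      (FD_GS h hA hinv i hm')]
    congr 1
    funext u
    exact TD_GS h hA hφ hφA hinv i hm' u

theorem KD_GS (h : C11 F D B L) (hA : GS A) (hc : EG c) (hφ : EG φ) (hψ : EG ψ)
    (hφA : EG fun u => φ (A u)) (hψA : EG fun u => ψ (A u))
    (hinv : ∀ z, F (A z) = F z) : ∀ i, (∀ j < i, 0 < m j) → ∀ z,
    KD F m σ c φ ψ i (A z) =
      KD F m σ (fun u => c (A u)) (fun u => φ (A u)) (fun u => ψ (A u)) i z
  | 0, _ => fun _ => rfl
  | i + 1, hm => by
    have hm' : ∀ j < i, 0 < m j := fun j hj => hm j (hj.trans (Nat.lt_succ_self i))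
    intro z
    rw [KD_succ, KD_succ, KW_GS hA (c11_FD (σ := σ) h i hm').eg.meas
      (eg_KD h hc hφ hψ i hm').meas (eg_TD h hφ i hm').meas (eg_TD h hψ i hm').meas
      (FD_GS h hA hinv i hm')]
    have e1 : (fun u => KD F m σ c φ ψ i (A u)) = KD F m σ (fun u => c (A u))
        (fun u => φ (A u)) (fun u => ψ (A u)) i :=
      funext fun u => KD_GS h hA hc hφ hψ hφA hψA hinv i hm' u
    have e2 : (fun u => TD F m σ φ i (A u)) = TD F m σ (fun u => φ (A u)) i :=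
      funext fun u => TD_GS h hA hφ hφA hinv i hm' u
    have e3 : (fun u => TD F m σ ψ i (A u)) = TD F m σ (fun u => ψ (A u)) i :=
      funext fun u => TD_GS h hA hψ hψA hinv i hm' u
    rw [e1, e2, e3]

/-! ### size of the deep functional -/

/-- the deep functional dominates a convex function -/
theorem le_FD (h : C11 F D B L) (hc : Cv F) : ∀ i, (∀ j < i, 0 < m j) → ∀ z,
    F z ≤ FD F m σ i z
  | 0, _ => fun _ => le_rfl
  | i + 1, hm => by
    have hm' : ∀ j < i, 0 < m j := fun j hj => hm j (hj.trans (Nat.lt_succ_self i))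
    intro z
    exact (le_FD h hc i hm' z).trans (H941.le_W (c11_FD (σ := σ) h i hm') (cv_FD h hc i hm')
      (hm i (Nat.lt_succ_self i)) (σ i) z)

/-- If each layer with the exponent `1` costs at most `a (σ i)²` then the deep functional costs
at most the sum. -/
theorem FD_le (h : C11 F D B L) {a : ℝ} (hW : ∀ s z, W 1 s F z ≤ F z + a * s ^ 2) : ∀ i,
    (∀ j < i, 0 < m j) → (∀ j < i, m j ≤ 1) → ∀ z,
    FD F m σ i z ≤ F z + a * ∑ j ∈ Finset.range i, σ j ^ 2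
  | 0, _, _ => fun z => by simp [FD]
  | i + 1, hm, h1 => by
    have hm' : ∀ j < i, 0 < m j := fun j hj => hm j (hj.trans (Nat.lt_succ_self i))
    have h1' : ∀ j < i, m j ≤ 1 := fun j hj => h1 j (hj.trans (Nat.lt_succ_self i))
    have hmi := hm i (Nat.lt_succ_self i)
    have hc := c11_FD (σ := σ) h i hm'
    intro z
    set b := a * ∑ j ∈ Finset.range i, σ j ^ 2 with hb
    have hl : LipB (fun z => F z + b) B := fun y w => by
      have := h.lip y w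
      rwa [add_sub_add_right_eq_sub]
    calc FD F m σ (i + 1) z = W (m i) (σ i) (FD F m σ i) z := rfl
      _ ≤ W (m i) (σ i) (fun z => F z + b) z :=
          H941.W_mono hc.lip hc.B0 hl h.B0 hmi (FD_le h hW i hm' h1') z
      _ = W (m i) (σ i) F z + b := H941.W_add_const h.lip h.B0 hmi b z
      _ ≤ W 1 (σ i) F z + b := by
          have := H941.W_mono_exp (s := σ i) h.lip h.B0 hmi (h1 i (Nat.lt_succ_self i)) z
          linarith
      _ ≤ F z + a * σ i ^ 2 + b := by linarith [hW (σ i) z]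
      _ = F z + a * ∑ j ∈ Finset.range (i + 1), σ j ^ 2 := by
          rw [Finset.sum_range_succ, hb]
          ring

/-- comparison of variances -/
theorem var_comp {G : (κ → ℝ) → ℝ} (hF : EG F) (hG : EG G) {a : ℝ}
    (h0 : ∀ z, F z ≤ G z) (h1 : ∀ z, G z ≤ F z + a) :
    ∫ z, F z ^ 2 ∂(gI κ) - (∫ z, F z ∂(gI κ)) ^ 2 ≤
      2 * (∫ z, G z ^ 2 ∂(gI κ) - (∫ z, G z ∂(gI κ)) ^ 2) + 2 * a ^ 2 := by
  have ha : 0 ≤ a := by linarith [h0 0, h1 0]
  set mF := ∫ z, F z ∂(gI κ)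
  set mG := ∫ z, G z ∂(gI κ)
  have key : ∀ (f : (κ → ℝ) → ℝ) (hf : EG f) (c : ℝ), ∫ z, (f z - c) ^ 2 ∂(gI κ) =
      ∫ z, f z ^ 2 ∂(gI κ) - 2 * c * ∫ z, f z ∂(gI κ) + c ^ 2 := by
    intro f hf c
    have e : (fun z => (f z - c) ^ 2) = fun z => (f z ^ 2 + -(2 * c) * f z) + c ^ 2 := by
      funext z; ring
    have i1 : Integrable (fun z => f z ^ 2) (gI κ) := (hf.pow 2).integrable
    have i2 : Integrable (fun z => -(2 * c) * f z) (gI κ) := hf.integrable.const_mul _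
    have i3 : Integrable (fun z => f z ^ 2 + -(2 * c) * f z) (gI κ) := i1.add i2
    rw [e, integral_add i3 (integrable_const _), integral_add i1 i2, integral_const_mul]
    simp
    ring
  have h2 : ∫ z, (F z - mG) ^ 2 ∂(gI κ) ≤
      ∫ z, (2 * (G z - mG) ^ 2 + 2 * a ^ 2) ∂(gI κ) := by
    refine integral_mono ((hF.sub (EG.const _)).pow 2).integrable
      ((((hG.sub (EG.const mG)).pow 2).const_mul 2).integrable.add (integrable_const _))
      fun z => ?_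
    have h3 := h0 z
    have h4 := h1 z
    simp only
    nlinarith [sq_nonneg (F z - mG + (G z - F z) * 2 - 0), sq_nonneg (F z - mG - (F z - G z) * 2),
      sq_nonneg (G z - mG - (F z - G z)), sq_nonneg (G z - mG + (F z - G z)),
      mul_nonneg (sub_nonneg.2 h3) (by linarith : 0 ≤ F z + a - G z)]
  rw [integral_add (((hG.sub (EG.const mG)).pow 2).const_mul 2).integrable (integrable_const _),
    integral_const_mul, key F hF mG, key G hG mG] at h2
  simp only [integral_const, probReal_univ, smul_eq_mul, one_mul] at h2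
  nlinarith [sq_nonneg (mF - mG)]

end Vale.Agent.P146.R1
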