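import Vale.Agent.P146.H713.Hess
import Vale.Agent.P146.H332.KX
import Vale.Agent.P146.H332.Conv

/-!
The heat formula on the objects of R1: `d/ds E_θ |D_s|² = E_θ |Hess u_s|²` for `t1 < s < 1`.
-/

open MeasureTheory ProbabilityTheory Filter Topology

namespace Vale.Agent.P146.R1

open Vale.Agent.P157.Lv Vale.Agent.P146.H425 Vale.Agent.P146.H332

set_option linter.unusedSectionVars false

variable {κ : Type} [Fintype κ] [DecidableEq κ]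

/-- the third block -/
def A3 (κ : Type) [Fintype κ] : Finset (K3 κ) :=
  (Finset.univ : Finset κ).map (Function.Embedding.inr.trans Function.Embedding.inr)

/-- the coordinate of the position -/
def pj : K3 κ → κ := Sum.elim id (Sum.elim id id)

/-- the coefficients of the position at the time `1` -/
noncomputable def cf (t0 t1 : ℝ) : K3 κ → ℝ :=
  Sum.elim (fun _ => √t0) (Sum.elim (fun _ => √(t1 - t0)) fun _ => √(1 - t1))

/-- the time -/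
def tm (t1 s : ℝ) : ℝ := t1 + (1 - t1) * s

/-- the first family of coordinates -/
def wl {J : Type} (w : J ⊕ J → ℝ) : J → ℝ := fun j => w (Sum.inl j)

variable {F : (κ → ℝ) → ℝ} {D : κ → (κ → ℝ) → ℝ} {B L x θ t0 t1 s : ℝ} {φ : (κ → ℝ) → ℝ}
  {H T : κ → κ → (κ → ℝ) → ℝ} {M : ℝ}

lemma mem_A3 (i : κ) : (Sum.inr (Sum.inr i) : K3 κ) ∈ A3 κ := by
  simp [A3]

lemma not_A3_0 (i : κ) : (Sum.inl i : K3 κ) ∉ A3 κ := by
  simp [A3]

lemma not_A3_1 (i : κ) : (Sum.inr (Sum.inl i) : K3 κ) ∉ A3 κ := by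
  simp [A3]

lemma of_A3 {j : K3 κ} (h : j ∈ A3 κ) : ∃ i, j = Sum.inr (Sum.inr i) := by
  obtain ⟨i, -, rfl⟩ := Finset.mem_map.1 h
  exact ⟨i, rfl⟩

lemma cont_q2 (t0 t1 s : ℝ) : Continuous (q2 (κ := κ) t0 t1 s) := by
  unfold q2 q1 q0 b0 b1 b2
  fun_prop

lemma q2_apply (t0 t1 s : ℝ) (w : K3 κ → ℝ) (e : κ) : q2 t0 t1 s w e =
    √t0 * w (Sum.inl e) + √(t1 - t0) * w (Sum.inr (Sum.inl e)) +
      √(s - t1) * w (Sum.inr (Sum.inr e)) := rfl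

lemma fd_q2 (t0 t1 s : ℝ) (w : K3 κ → ℝ) : HasFDerivAt (q2 (κ := κ) t0 t1 s)
    (ContinuousLinearMap.pi fun e =>
      (√t0 • (ContinuousLinearMap.proj (Sum.inl e) : (K3 κ → ℝ) →L[ℝ] ℝ) +
      √(t1 - t0) • (ContinuousLinearMap.proj (Sum.inr (Sum.inl e)) : (K3 κ → ℝ) →L[ℝ] ℝ)) +
      √(s - t1) • (ContinuousLinearMap.proj (Sum.inr (Sum.inr e)) : (K3 κ → ℝ) →L[ℝ] ℝ)) w := by
  rw [hasFDerivAt_pi]
  intro e
  have h0 : ∀ j : K3 κ, HasFDerivAt (fun w : K3 κ → ℝ => w j)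
      (ContinuousLinearMap.proj j : (K3 κ → ℝ) →L[ℝ] ℝ) w := fun j =>
    (ContinuousLinearMap.proj j : (K3 κ → ℝ) →L[ℝ] ℝ).hasFDerivAt
  exact (((h0 (Sum.inl e)).const_mul (√t0)).add
    ((h0 (Sum.inr (Sum.inl e))).const_mul (√(t1 - t0)))).add
    ((h0 (Sum.inr (Sum.inr e))).const_mul (√(s - t1)))

lemma q2_update (t0 t1 s : ℝ) (w : K3 κ → ℝ) (i : κ) (r : ℝ) :
    q2 t0 t1 s (Function.update w (Sum.inr (Sum.inr i)) r) = Function.update (q2 t0 t1 s w) i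
      (√t0 * w (Sum.inl i) + √(t1 - t0) * w (Sum.inr (Sum.inl i)) + √(s - t1) * r) := by
  funext e
  by_cases h : e = i
  · subst h
    rw [q2_apply, Function.update_self, Function.update_self]
    simp
  · rw [Function.update_of_ne h, q2_apply, q2_apply]
    have h1 : (Sum.inr (Sum.inr e) : K3 κ) ≠ Sum.inr (Sum.inr i) := fun h' =>
      h (Sum.inr_injective (Sum.inr_injective h'))
    simp [Function.update_of_ne h1]

/-- Functions of the position at the time `1`. -/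
lemma sf_q2 {G : (κ → ℝ) → ℝ} {G1 G2 : κ → (κ → ℝ) → ℝ} (h : H325.C2 G G1 G2) (t0 t1 : ℝ) :
    SF (A3 κ) (fun w => G (q2 t0 t1 1 w)) (fun j w => cf t0 t1 j * G1 (pj j) (q2 t0 t1 1 w))
      (fun j w => cf t0 t1 j ^ 2 * G2 (pj j) (q2 t0 t1 1 w)) := by
  have eg : ∀ {f : (κ → ℝ) → ℝ}, EG f → EG fun w : K3 κ → ℝ => f (q2 t0 t1 1 w) := fun hf =>
    (E3.of2 hf).eg_q t0 t1 1
  refine ⟨eg h.eg, h.cont.comp (cont_q2 _ _ _), fun j _ => (eg (h.eg1 (pj j))).const_mul _,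
    fun j _ => continuous_const.mul ((h.c1 (pj j)).comp (cont_q2 _ _ _)),
    fun j _ => (eg (h.eg2 (pj j))).const_mul _,
    fun j _ => continuous_const.mul ((h.c2 (pj j)).comp (cont_q2 _ _ _)), fun w => ?_, ?_⟩
  · refine ((h.fd (q2 t0 t1 1 w)).comp w (fd_q2 t0 t1 1 w)).congr_fderiv ?_
    ext v
    simp only [ContinuousLinearMap.comp_apply, _root_.sum_apply, _root_.smul_apply,
      ContinuousLinearMap.proj_apply, smul_eq_mul, ContinuousLinearMap.pi_apply, _root_.add_apply,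
      Fintype.sum_sum_type, cf, pj, Sum.elim_inl, Sum.elim_inr, id]
    rw [← Finset.sum_add_distrib, ← Finset.sum_add_distrib]
    exact Finset.sum_congr rfl fun e _ => by ring
  · intro j hj
    obtain ⟨i, rfl⟩ := of_A3 hj
    intro y r
    have h3 := h.pd i (q2 t0 t1 1 y) (√t0 * y (Sum.inl i) + √(t1 - t0) * y (Sum.inr (Sum.inl i)) +
      √(1 - t1) * r)
    have h4 : HasDerivAt (fun r : ℝ => √t0 * y (Sum.inl i) +
        √(t1 - t0) * y (Sum.inr (Sum.inl i)) + √(1 - t1) * r) (√(1 - t1)) r := by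
      simpa using ((hasDerivAt_id r).const_mul (√(1 - t1))).const_add
        (√t0 * y (Sum.inl i) + √(t1 - t0) * y (Sum.inr (Sum.inl i)))
    have h5 := (h3.comp r h4).const_mul (√(1 - t1))
    simp only [cf, pj, Sum.elim_inr, id, q2_update]
    refine h5.congr_deriv ?_
    ring

lemma int_b2 {f : (κ → ℝ) → ℝ} (hf : EG f) :
    ∫ z, f (b2 z) ∂(gI (K3 κ)) = ∫ y, f y ∂(gI κ) := by
  rw [int_K3 (E3.of2 hf)]
  simp only [b2_elim, integral_const, probReal_univ, smul_eq_mul, one_mul]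

lemma tm_sub (t1 s : ℝ) : tm t1 s - t1 = (1 - t1) * s := by unfold tm; ring
lemma one_sub_tm (t1 s : ℝ) : 1 - tm t1 s = (1 - t1) * (1 - s) := by unfold tm; ring

/-- the position with the noise -/
lemma q2_pt (h1 : t1 ≤ 1) (s : ℝ) (w : K3 κ ⊕ K3 κ → ℝ) (z : K3 κ → ℝ) :
    q2 t0 t1 1 (pt (A3 κ) (fun _ => 1) (fun _ => 0) (fun _ => 0) s w z) =
      q2 t0 t1 (tm t1 s) (wl w) + √(1 - tm t1 s) • b2 z := by
  have e1 : √(tm t1 s - t1) = √(1 - t1) * √s := by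
    rw [tm_sub, Real.sqrt_mul (by linarith)]
  have e2 : √(1 - tm t1 s) = √(1 - t1) * √(1 - s) := by
    rw [one_sub_tm, Real.sqrt_mul (by linarith)]
  funext e
  rw [Pi.add_apply, q2_apply, q2_apply, e1, e2]
  simp only [pt, u, not_A3_0, not_A3_1, mem_A3, if_true, if_false, wl, Pi.smul_apply, smul_eq_mul,
    b2]
  ring

/-- the smoothed function -/
lemma P_q2 {G : (κ → ℝ) → ℝ} (hG : EG G) (h1 : t1 ≤ 1) (s : ℝ) (w : K3 κ ⊕ K3 κ → ℝ) :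
    P (A3 κ) (fun _ => 1) (fun _ => 0) (fun _ => 0) (fun w => G (q2 t0 t1 1 w)) s w =
      ∫ y, G (q2 t0 t1 (tm t1 s) (wl w) + √(1 - tm t1 s) • y) ∂(gI κ) := by
  unfold P
  simp_rw [q2_pt h1]
  exact int_b2 (EG.add_smul hG _ _)

/-- the exponential of `F` -/
lemma c2_expF (h : C11 F D B L) {F2 : κ → (κ → ℝ) → ℝ} (hF : H325.C2 F D F2) (x : ℝ) :
    H325.C2 (fun y => Real.exp (x * F y)) (fun e y => x * (Real.exp (x * F y) * D e y))
      (fun e y => x * (Real.exp (x * F y) * F2 e y + x * (Real.exp (x * F y) * D e y ^ 2))) := by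
  have hE := h.eg_exp x
  have hc : Continuous fun y => Real.exp (x * F y) :=
    Real.continuous_exp.comp (continuous_const.mul hF.cont)
  refine ⟨fun u => fd_expF hF x u, fun e => ?_, hE, fun e => (hE.mul (h.eg_D e)).const_mul x,
    fun e => ((hE.mul (hF.eg2 e)).add ((hE.mul ((h.eg_D e).pow 2)).const_mul x)).const_mul x,
    fun e => continuous_const.mul (hc.mul (hF.c1 e)),
    fun e => continuous_const.mul ((hc.mul (hF.c2 e)).add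
      (continuous_const.mul (hc.mul ((hF.c1 e).pow 2))))⟩
  have h1 : PD e (fun y => Real.exp (x * F y)) (fun y => x * (Real.exp (x * F y) * D e y)) :=
    H325.pd_of_fd (fun u => fd_expF hF x u) e
  exact ((h1.mul (hF.pd e)).const_mul x).congr fun y => by ring

section sys

variable (F D x t0 t1)

/-- the density of the tilted law -/
noncomputable def Zd (s : ℝ) (w : K3 κ ⊕ K3 κ → ℝ) : ℝ :=
  Real.exp (x * uu x (tm t1 s) F (q2 t0 t1 (tm t1 s) (wl w)))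

/-- its derivatives -/
noncomputable def DZd (j : K3 κ ⊕ K3 κ) (s : ℝ) (w : K3 κ ⊕ K3 κ → ℝ) : ℝ :=
  Zd F x t0 t1 s w * (√(1 - t1) * (x * dd x (tm t1 s) F D (Sum.elim pj pj j)
    (q2 t0 t1 (tm t1 s) (wl w))))

end sys

/-- the active coordinates -/
def Aj (κ : Type) [Fintype κ] : Finset (K3 κ ⊕ K3 κ) := (A3 κ).map Function.Embedding.inl

lemma of_Aj {j : K3 κ ⊕ K3 κ} (h : j ∈ Aj κ) : ∃ i, j = Sum.inl (Sum.inr (Sum.inr i)) := by
  obtain ⟨j', hj', rfl⟩ := Finset.mem_map.1 h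
  obtain ⟨i, rfl⟩ := of_A3 hj'
  exact ⟨i, rfl⟩

lemma sum_Aj (g : κ → ℝ) : ∑ j ∈ Aj κ, g (Sum.elim pj pj j) = ∑ i, g i := by
  unfold Aj A3
  rw [Finset.sum_map, Finset.sum_map]
  rfl

/-- the numerators -/
lemma kf_num (h : C11 F D B L) (hx : 0 < x) {F2 φ1 φ2 : κ → (κ → ℝ) → ℝ}
    (hF : H325.C2 F D F2) (hφ : H325.C2 φ φ1 φ2) (t0 : ℝ) (h1 : t1 ≤ 1) :
    KF (Aj κ) (fun s w => Zd F x t0 t1 s w * ew x (tm t1 s) F φ (q2 t0 t1 (tm t1 s) (wl w)))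
      (fun j s w => Zd F x t0 t1 s w * (√(1 - t1) * (ew x (tm t1 s) F (φ1 (Sum.elim pj pj j))
        (q2 t0 t1 (tm t1 s) (wl w)) + x * ew x (tm t1 s) F (fun y => φ y *
          D (Sum.elim pj pj j) y) (q2 t0 t1 (tm t1 s) (wl w)))))
      (fun _ _ => 0) := by
  have hE := h.eg_exp x
  have k := (sf_q2 ((c2_expF h hF x).mul hφ) t0 t1).kf (fun _ => 1) (fun _ => 0) fun _ => 0
  refine k.congr (fun s w => ?_) (fun j hj s w => ?_) fun _ _ => rfl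
  · rw [P_q2 (hE.mul hφ.eg) h1]
    exact exp_ew h hx _
  · obtain ⟨i, rfl⟩ := of_Aj hj
    have e0 : EG fun y => √(1 - t1) * (x * (Real.exp (x * F y) * D i y) * φ y +
        Real.exp (x * F y) * φ1 i y) :=
      ((((hE.mul (h.eg_D i)).const_mul x).mul hφ.eg).add (hE.mul (hφ.eg1 i))).const_mul _
    show _ = P (A3 κ) (fun _ => 1) (fun _ => 0) (fun _ => 0)
      (fun w => √(1 - t1) * (x * (Real.exp (x * F (q2 t0 t1 1 w)) * D i (q2 t0 t1 1 w)) *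
        φ (q2 t0 t1 1 w) + Real.exp (x * F (q2 t0 t1 1 w)) * φ1 i (q2 t0 t1 1 w))) s w
    rw [P_q2 (G := fun y => √(1 - t1) * (x * (Real.exp (x * F y) * D i y) * φ y +
        Real.exp (x * F y) * φ1 i y)) e0 h1]
    set z := q2 t0 t1 (tm t1 s) (wl w) with hz
    have e1 := exp_ew (t := tm t1 s) (φ := φ1 i) h hx z
    have e2 := exp_ew (t := tm t1 s) (φ := fun y => φ y * D i y) h hx z
    show Real.exp (x * uu x (tm t1 s) F z) * (√(1 - t1) * (ew x (tm t1 s) F (φ1 i) z +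
      x * ew x (tm t1 s) F (fun y => φ y * D i y) z)) = _
    have e3 : Real.exp (x * uu x (tm t1 s) F z) * (√(1 - t1) * (ew x (tm t1 s) F (φ1 i) z +
      x * ew x (tm t1 s) F (fun y => φ y * D i y) z)) =
      √(1 - t1) * (Real.exp (x * uu x (tm t1 s) F z) * ew x (tm t1 s) F (φ1 i) z +
        x * (Real.exp (x * uu x (tm t1 s) F z) *
          ew x (tm t1 s) F (fun y => φ y * D i y) z)) := by ring
    rw [e3, e1, e2, ← integral_const_mul x, ← integral_add (ew_eg h (hφ.eg1 i) z _).integrable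
      ((ew_eg h (hφ.eg.mul (h.eg_D i)) z _).integrable.const_mul x), ← integral_const_mul]
    refine integral_congr_ae (Filter.Eventually.of_forall fun y => ?_)
    simp only
    ring

lemma c2_one : H325.C2 (fun _ : κ → ℝ => (1 : ℝ)) (fun _ _ => 0) (fun _ _ => 0) :=
  ⟨fun u => by simpa using hasFDerivAt_const (𝕜 := ℝ) (1 : ℝ) u, fun _ => PD.const 0, EG.const 1,
    fun _ => EG.const 0, fun _ => EG.const 0, fun _ => continuous_const, fun _ => continuous_const⟩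

lemma Zd_pos (F : (κ → ℝ) → ℝ) (x t0 t1 s : ℝ) (w : K3 κ ⊕ K3 κ → ℝ) : 0 < Zd F x t0 t1 s w :=
  Real.exp_pos _

lemma kf_Zd (h : C11 F D B L) (hx : 0 < x) {F2 : κ → (κ → ℝ) → ℝ} (hF : H325.C2 F D F2)
    (t0 : ℝ) (h1 : t1 ≤ 1) : KF (Aj κ) (Zd F x t0 t1) (DZd F D x t0 t1) (fun _ _ => 0) := by
  refine (kf_num h hx hF c2_one t0 h1).congr (fun s w => ?_) (fun j _ s w => ?_) fun _ _ => rfl
  · rw [ew_const h, mul_one]
  · have e1 : (fun y => (1 : ℝ) * D (Sum.elim pj pj j) y) = D (Sum.elim pj pj j) := by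
      funext y; ring
    rw [ew_const h, zero_add, e1]
    rfl

lemma Zd_lower (h : C11 F D B L) (hx : 0 < x) (t0 : ℝ) (h1 : t1 ≤ 1) :
    ∃ c a : ℝ, 0 < c ∧ ∀ s ∈ Set.Icc (0 : ℝ) 1, ∀ w,
      c * Real.exp (-(a * ‖w‖)) ≤ Zd F x t0 t1 s w := by
  have hB := h.B0
  set K := √t0 + √(t1 - t0) + √(1 - t1) with hK
  have hK0 : 0 ≤ K := by positivity
  have hG : EG fun y => Real.exp (x * F y) := h.eg_exp x
  have h2 : ∀ y : K3 κ → ℝ, Real.exp (x * F 0) * Real.exp (-(x * B * K * ‖y‖)) ≤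
      Real.exp (x * F (q2 t0 t1 1 y)) := by
    intro y
    rw [← Real.exp_add]
    refine Real.exp_le_exp.2 ?_
    have h3 := (abs_le.1 (h.lip 0 (q2 t0 t1 1 y))).1
    rw [zero_add] at h3
    have h4 := norm_q2 t0 t1 1 y
    have h5 : x * (F 0 - B * (K * ‖y‖)) ≤ x * F (q2 t0 t1 1 y) := by
      refine mul_le_mul_of_nonneg_left ?_ hx.le
      have := mul_le_mul_of_nonneg_left h4 hB
      linarith
    linarith
  obtain ⟨k', hk', h3⟩ := P_lower (A0 := A3 κ) ((E3.of2 hG).eg_q t0 t1 1) (Real.exp_pos _)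
    (by positivity : 0 ≤ x * B * K) h2 (fun _ => 1) (fun _ => 0) (fun _ => 0)
  refine ⟨k', _, hk', fun s hs w => (h3 s hs w).trans (le_of_eq ?_)⟩
  rw [P_q2 hG h1]
  exact (uu_exp h hx _).symm

lemma den_Zd (h : C11 F D B L) (hx : 0 < x) {F2 : κ → (κ → ℝ) → ℝ} (hF : H325.C2 F D F2)
    (t0 : ℝ) (h1 : t1 ≤ 1) : Den (Aj κ) (Zd F x t0 t1) (DZd F D x t0 t1) :=
  ⟨kf_Zd h hx hF t0 h1, Zd_lower h hx t0 h1⟩

/-- **Conditional means are martingales.** -/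
theorem kx_ew (h : C11 F D B L) (hx : 0 < x) {F2 φ1 φ2 : κ → (κ → ℝ) → ℝ}
    (hF : H325.C2 F D F2) (hφ : H325.C2 φ φ1 φ2) (t0 : ℝ) (h1 : t1 ≤ 1) :
    KX (Aj κ) (Zd F x t0 t1) (DZd F D x t0 t1)
      (fun s w => ew x (tm t1 s) F φ (q2 t0 t1 (tm t1 s) (wl w)))
      (fun j s w => √(1 - t1) * dew x (tm t1 s) F D φ φ1 (Sum.elim pj pj j)
        (q2 t0 t1 (tm t1 s) (wl w))) (fun _ _ => 0) := by
  refine (KX.ratio (den_Zd h hx hF t0 h1) (kf_num h hx hF hφ t0 h1)).congr (fun s w => ?_)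
    (fun j _ s w => ?_) fun _ _ => rfl
  · have := (Zd_pos F x t0 t1 s w).ne'
    field_simp
  · have := (Zd_pos F x t0 t1 s w).ne'
    unfold DZd dew
    field_simp
    ring

/-- the sum of the squares of conditional means, with a weight -/
theorem kx_sum (h : C11 F D B L) (hx : 0 < x) {F2 : κ → (κ → ℝ) → ℝ} (hF : H325.C2 F D F2)
    {K : Type*} [Fintype K] {f : K → (κ → ℝ) → ℝ} {f1 f2 : K → κ → (κ → ℝ) → ℝ}
    (hf : ∀ k, H325.C2 (f k) (f1 k) (f2 k)) (t0 : ℝ) (h1 : t1 ≤ 1)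
    {Y : (κ → ℝ) → (κ → ℝ) → ℝ} (hY : E3 fun z0 z1 _ => Y z0 z1) :
    ∃ D', KX (Aj κ) (Zd F x t0 t1) (DZd F D x t0 t1)
      (fun s w => Y (q0 t0 (wl w)) (q1 t0 t1 (wl w)) *
        ∑ k, ew x (tm t1 s) F (f k) (q2 t0 t1 (tm t1 s) (wl w)) ^ 2) D'
      (fun s w => (1 - t1) * (Y (q0 t0 (wl w)) (q1 t0 t1 (wl w)) *
        ∑ k, ∑ i, dew x (tm t1 s) F D (f k) (f1 k) i (q2 t0 t1 (tm t1 s) (wl w)) ^ 2)) := by
  have k1 := KX.sum Finset.univ fun k (_ : k ∈ Finset.univ) => (kx_ew h hx hF (hf k) t0 h1).sq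
  have eY : EG fun w : K3 κ ⊕ K3 κ → ℝ => Y (q0 t0 (wl w)) (q1 t0 t1 (wl w)) := by
    have := hY.eg_q t0 t1 t1
    exact eg_comp this (A := wl) (c := 1) (by unfold wl; fun_prop) zero_le_one fun w => by
      rw [one_mul]
      exact (pi_norm_le_iff_of_nonneg (norm_nonneg _)).2 fun _ => norm_le_pi_norm w _
  have kY : KX (Aj κ) (Zd F x t0 t1) (DZd F D x t0 t1)
      (fun _ w => Y (q0 t0 (wl w)) (q1 t0 t1 (wl w))) (fun _ _ _ => 0) (fun _ _ => 0) := by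
    refine KX.weight eY fun j hj y r => ?_
    obtain ⟨i, rfl⟩ := of_Aj hj
    have e0 : q0 t0 (wl (Function.update y (Sum.inl (Sum.inr (Sum.inr i))) r)) =
        q0 t0 (wl y) := by
      funext e
      show √t0 * _ = √t0 * _
      congr 1
    have e1 : q1 t0 t1 (wl (Function.update y (Sum.inl (Sum.inr (Sum.inr i))) r)) =
        q1 t0 t1 (wl y) := by
      unfold q1
      rw [e0]
      rfl
    rw [e0, e1]
  refine ⟨_, (kY.mul k1).congr (fun _ _ => rfl) (fun _ _ _ _ => rfl) fun s w => ?_⟩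
  simp only [mul_zero, zero_mul, zero_add, add_zero, Finset.sum_const_zero]
  rw [← mul_assoc, mul_comm (1 - t1), mul_assoc, Finset.mul_sum]
  congr 1
  refine Finset.sum_congr rfl fun k _ => ?_
  rw [sum_Aj fun i => (√(1 - t1) * dew x (tm t1 s) F D (f k) (f1 k) i
    (q2 t0 t1 (tm t1 s) (wl w))) ^ 2, Finset.mul_sum]
  refine Finset.sum_congr rfl fun i _ => ?_
  rw [mul_pow, Real.sq_sqrt (by linarith)]

/-- from the system to the law `P_θ` -/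
lemma int_Zd (h : C11 F D B L) (hx : 0 < x) {Ψ : (κ → ℝ) → (κ → ℝ) → (κ → ℝ) → ℝ} (hΨ : E3 Ψ)
    (θ t0 t1 s : ℝ) :
    ∫ w, Zd F x t0 t1 s w * (Real.exp (θ * xi x t0 t1 F (q0 t0 (wl w)) (q1 t0 t1 (wl w))) *
      Ψ (q0 t0 (wl w)) (q1 t0 t1 (wl w)) (q2 t0 t1 (tm t1 s) (wl w))) ∂(gI (K3 κ ⊕ K3 κ)) =
      Eu x θ t0 t1 (tm t1 s) F Ψ := by
  unfold Eu
  rw [← int_inl (eg_Eu h hx hΨ θ t0 t1 (tm t1 s))]
  refine integral_congr_ae (Filter.Eventually.of_forall fun w => ?_)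
  show Zd F x t0 t1 s w * (Real.exp (θ * xi x t0 t1 F (q0 t0 (wl w)) (q1 t0 t1 (wl w))) *
    Ψ (q0 t0 (wl w)) (q1 t0 t1 (wl w)) (q2 t0 t1 (tm t1 s) (wl w))) =
    dn x θ t0 t1 (tm t1 s) F (q0 t0 (wl w)) (q1 t0 t1 (wl w)) (q2 t0 t1 (tm t1 s) (wl w)) *
    Ψ (q0 t0 (wl w)) (q1 t0 t1 (wl w)) (q2 t0 t1 (tm t1 s) (wl w))
  unfold dn Zd
  rw [Real.exp_add, mul_assoc]

/-- the weight of `P_θ` -/
lemma e3_wt (h : C11 F D B L) (hx : 0 < x) {Y : (κ → ℝ) → (κ → ℝ) → ℝ}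
    (hY : E3 fun z0 z1 _ => Y z0 z1) (θ t0 t1 : ℝ) :
    E3 fun z0 z1 _ => Real.exp (θ * xi x t0 t1 F z0 z1) * Y z0 z1 := by
  refine E3.mul (Ψ := fun z0 z1 _ => Real.exp (θ * xi x t0 t1 F z0 z1))
    (Ψ' := fun z0 z1 _ => Y z0 z1) ?_ hY
  have l : ∀ t, Lip (uu x t F) := fun t => (c11_uu h hx t).lip.lip h.B0
  have l0 : Lip fun w : K3 κ → ℝ => uu x t0 F (b0 w) :=
    lip_b (l t0) zero_le_one fun w w' => by rw [one_mul]; exact norm_b0 (w - w')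
  have l1 : Lip fun w : K3 κ → ℝ => uu x t1 F (b1 w) :=
    lip_b (l t1) zero_le_one fun w w' => by rw [one_mul]; exact norm_b1 (w - w')
  have h1 := (l1.add (l0.const_mul (-1))).exp_eg (θ * x)
  unfold E3
  have e : (fun w : K3 κ → ℝ => Real.exp (θ * xi x t0 t1 F (b0 w) (b1 w))) =
      fun w => Real.exp (θ * x * (uu x t1 F (b1 w) + -1 * uu x t0 F (b0 w))) := by
    funext w
    unfold xi
    congr 1
    ring
  rw [e]
  exact h1

section main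

variable {K : Type*} [Fintype K] {f : K → (κ → ℝ) → ℝ} {f1 f2 : K → κ → (κ → ℝ) → ℝ}
  {Y : (κ → ℝ) → (κ → ℝ) → ℝ} {C : ℝ}

/-- the time change -/
lemma tm_div (h1 : t1 < 1) (s : ℝ) : tm t1 ((s - t1) / (1 - t1)) = s := by
  unfold tm
  have : 1 - t1 ≠ 0 := by linarith
  field_simp
  ring

lemma eg_ewsq (h : C11 F D B L) (hf : ∀ k, EG (f k)) (hfb : ∀ k y, |f k y| ≤ C) (x t : ℝ) :
    EG fun z => ∑ k, ew x t F (f k) z ^ 2 :=
  EG.sum _ fun k _ => (eg_ew h (hf k) (hfb k)).pow 2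

lemma eg_dew (h : C11 F D B L) {φ1 : κ → (κ → ℝ) → ℝ} (hφ : EG φ) (hφ1 : ∀ i, EG (φ1 i))
    (hb : ∀ y, |φ y| ≤ C) (hb1 : ∀ i y, |φ1 i y| ≤ C) (x t : ℝ) (i : κ) :
    EG (dew x t F D φ φ1 i) := by
  have hB := h.B0
  have hC : 0 ≤ C := (abs_nonneg _).trans (hb 0)
  refine (eg_ew h (hφ1 i) (hb1 i)).add (((eg_ew h (φ := fun y => φ y * D i y)
    (C := C * B) (hφ.mul (h.eg_D i)) fun y => ?_).sub
    ((eg_ew h hφ hb).mul (eg_dd h x t i))).const_mul x)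
  rw [abs_mul]
  exact mul_le_mul (hb y) (h.bd i y) (abs_nonneg _) hC

lemma eg_dewsq (h : C11 F D B L) (hf : ∀ k, EG (f k)) (hf1 : ∀ k i, EG (f1 k i))
    (hfb : ∀ k y, |f k y| ≤ C) (hf1b : ∀ k i y, |f1 k i y| ≤ C) (x t : ℝ) :
    EG fun z => ∑ k, ∑ i, dew x t F D (f k) (f1 k) i z ^ 2 :=
  EG.sum _ fun k _ => EG.sum _ fun i _ =>
    (eg_dew h (hf k) (hf1 k) (hfb k) (hf1b k) x t i).pow 2

/-- the generator in the time `s` -/
lemma Eu_gen (h : C11 F D B L) (hx : 0 < x) {F2 : κ → (κ → ℝ) → ℝ} (hF : H325.C2 F D F2)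
    (hf : ∀ k, H325.C2 (f k) (f1 k) (f2 k)) (hfb : ∀ k y, |f k y| ≤ C)
    (hf1 : ∀ k i y, |f1 k i y| ≤ C)
    (hY : E3 fun z0 z1 _ => Y z0 z1) (h1 : t1 ≤ 1) (θ t0 : ℝ) :
    ∃ f' L' : ℝ → (K3 κ ⊕ K3 κ → ℝ) → ℝ, ∃ D',
      KX (Aj κ) (Zd F x t0 t1) (DZd F D x t0 t1) f' D' L' ∧
      (∀ s, ∫ w, Zd F x t0 t1 s w * f' s w ∂(gI (K3 κ ⊕ K3 κ)) =
        Eu x θ t0 t1 (tm t1 s) F fun z0 z1 z2 =>
          Y z0 z1 * ∑ k, ew x (tm t1 s) F (f k) z2 ^ 2) ∧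
      (∀ s, ∫ w, Zd F x t0 t1 s w * L' s w ∂(gI (K3 κ ⊕ K3 κ)) =
        (1 - t1) * Eu x θ t0 t1 (tm t1 s) F fun z0 z1 z2 =>
          Y z0 z1 * ∑ k, ∑ i, dew x (tm t1 s) F D (f k) (f1 k) i z2 ^ 2) := by
  have hY' := e3_wt h hx hY θ t0 t1
  obtain ⟨D', hk⟩ := kx_sum h hx hF hf t0 h1 hY'
  refine ⟨_, _, D', hk, fun s => ?_, fun s => ?_⟩
  · have hΨ : E3 fun z0 z1 z2 => Y z0 z1 * ∑ k, ew x (tm t1 s) F (f k) z2 ^ 2 :=
      hY.mul (E3.of2 (eg_ewsq h (fun k => (hf k).eg) hfb x (tm t1 s)))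
    rw [← int_Zd h hx hΨ θ t0 t1 s]
    refine integral_congr_ae (Filter.Eventually.of_forall fun w => ?_)
    simp only
    ring
  · have hΨ : E3 fun z0 z1 z2 => Y z0 z1 *
        ∑ k, ∑ i, dew x (tm t1 s) F D (f k) (f1 k) i z2 ^ 2 :=
      hY.mul (E3.of2 (eg_dewsq h (fun k => (hf k).eg) (fun k => (hf k).eg1) hfb hf1 x (tm t1 s)))
    rw [← int_Zd h hx hΨ θ t0 t1 s, ← integral_const_mul]
    refine integral_congr_ae (Filter.Eventually.of_forall fun w => ?_)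
    simp only
    ring

/-- **The heat formula under `P_θ`.** -/
theorem Eu_deriv (h : C11 F D B L) (hx : 0 < x) {F2 : κ → (κ → ℝ) → ℝ} (hF : H325.C2 F D F2)
    (hf : ∀ k, H325.C2 (f k) (f1 k) (f2 k)) (hfb : ∀ k y, |f k y| ≤ C)
    (hf1 : ∀ k i y, |f1 k i y| ≤ C)
    (hY : E3 fun z0 z1 _ => Y z0 z1) (hs : s ∈ Set.Ioo t1 1) :
    HasDerivAt (fun s => Eu x θ t0 t1 s F fun z0 z1 z2 => Y z0 z1 * ∑ k, ew x s F (f k) z2 ^ 2)
      (Eu x θ t0 t1 s F fun z0 z1 z2 => Y z0 z1 * ∑ k, ∑ i, dew x s F D (f k) (f1 k) i z2 ^ 2)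
      s := by
  have h1 : t1 < 1 := hs.1.trans hs.2
  have h1' : (1 : ℝ) - t1 ≠ 0 := by linarith
  obtain ⟨f', L', D', hk, e1, e2⟩ := Eu_gen h hx hF hf hfb hf1 hY h1.le θ t0
  have hr : (s - t1) / (1 - t1) ∈ Set.Ioo (0 : ℝ) 1 := by
    have : 0 < 1 - t1 := by linarith
    exact ⟨div_pos (by linarith [hs.1]) this, (div_lt_one this).2 (by linarith [hs.2])⟩
  have k1 := KX.deriv (den_Zd h hx hF t0 h1.le) hk hr
  have k2 : HasDerivAt (fun s => (s - t1) / (1 - t1)) (1 / (1 - t1)) s :=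
    ((hasDerivAt_id s).sub_const t1).div_const (1 - t1)
  have k3 := k1.comp s k2
  have e3 : ((fun s => ∫ w, Zd F x t0 t1 s w * f' s w ∂(gI (K3 κ ⊕ K3 κ))) ∘
      fun s => (s - t1) / (1 - t1)) =
      fun s => Eu x θ t0 t1 s F fun z0 z1 z2 => Y z0 z1 * ∑ k, ew x s F (f k) z2 ^ 2 := by
    funext s
    simp only [Function.comp]
    rw [e1, tm_div h1]
  rw [e3, e2, tm_div h1] at k3
  refine k3.congr_deriv ?_
  field_simp

/-- continuity of the two sides -/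
theorem Eu_cont (h : C11 F D B L) (hx : 0 < x) {F2 : κ → (κ → ℝ) → ℝ} (hF : H325.C2 F D F2)
    (hf : ∀ k, H325.C2 (f k) (f1 k) (f2 k)) (hfb : ∀ k y, |f k y| ≤ C)
    (hf1 : ∀ k i y, |f1 k i y| ≤ C)
    (hY : E3 fun z0 z1 _ => Y z0 z1) (h1 : t1 < 1) (θ t0 : ℝ) :
    ContinuousOn (fun s => Eu x θ t0 t1 s F fun z0 z1 z2 =>
      Y z0 z1 * ∑ k, ew x s F (f k) z2 ^ 2) (Set.Icc t1 1) ∧
    ContinuousOn (fun s => Eu x θ t0 t1 s F fun z0 z1 z2 =>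
      Y z0 z1 * ∑ k, ∑ i, dew x s F D (f k) (f1 k) i z2 ^ 2) (Set.Icc t1 1) := by
  have h1' : (1 : ℝ) - t1 ≠ 0 := by linarith
  have h1'' : (0 : ℝ) < 1 - t1 := by linarith
  obtain ⟨f', L', D', hk, e1, e2⟩ := Eu_gen h hx hF hf hfb hf1 hY h1.le θ t0
  have hden := den_Zd h hx hF t0 h1.le
  have k1 := KX.cont hden hk
  have k2 := (hden.kf.gf.mul (KX.gL hden hk)).continuousOn
  have hm : Set.MapsTo (fun s => (s - t1) / (1 - t1)) (Set.Icc t1 1) (Set.Icc (0 : ℝ) 1) :=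
    fun s hs => ⟨div_nonneg (by linarith [hs.1]) h1''.le, (div_le_one h1'').2 (by linarith [hs.2])⟩
  have hc : ContinuousOn (fun s : ℝ => (s - t1) / (1 - t1)) (Set.Icc t1 1) := by fun_prop
  have k3 := k1.comp hc hm
  have k4 := (k2.comp hc hm).const_mul (1 / (1 - t1))
  constructor
  · refine k3.congr fun s _ => ?_
    simp only [Function.comp]
    rw [e1, tm_div h1]
  · refine k4.congr fun s _ => ?_
    simp only [Function.comp]
    rw [e2, tm_div h1]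
    field_simp

end main

/-! ### the squared gradient -/

/-- a bound for the gradient and the Hessian of `F` -/
lemma Sm.bds (hS : Sm F D B L H T M) : (∀ e y, |D e y| ≤ max B M) ∧
    ∀ e i y, |H e i y| ≤ max B M :=
  ⟨fun e y => (hS.c11.bd e y).trans (le_max_left _ _),
    fun e i y => (hS.bH e i y).trans (le_max_right _ _)⟩

/-- (H4), with a weight -/
theorem Eu_sq_deriv (hS : Sm F D B L H T M) (hx : 0 < x) {Y : (κ → ℝ) → (κ → ℝ) → ℝ}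
    (hY : E3 fun z0 z1 _ => Y z0 z1) (hs : s ∈ Set.Ioo t1 1) :
    HasDerivAt (fun s => Eu x θ t0 t1 s F fun z0 z1 z2 => Y z0 z1 * sq x s F D z2)
      (Eu x θ t0 t1 s F fun z0 z1 z2 => Y z0 z1 * hq x s F D H z2) s :=
  Eu_deriv hS.c11 hx hS.cF hS.cD hS.bds.1 hS.bds.2 hY hs

theorem Eu_sq_cont (hS : Sm F D B L H T M) (hx : 0 < x) {Y : (κ → ℝ) → (κ → ℝ) → ℝ}
    (hY : E3 fun z0 z1 _ => Y z0 z1) (h1 : t1 < 1) (θ t0 : ℝ) :
    ContinuousOn (fun s => Eu x θ t0 t1 s F fun z0 z1 z2 => Y z0 z1 * sq x s F D z2)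
      (Set.Icc t1 1) :=
  (Eu_cont hS.c11 hx hS.cF hS.cD hS.bds.1 hS.bds.2 hY h1 θ t0).1

theorem Eu_hq_cont (hS : Sm F D B L H T M) (hx : 0 < x) {Y : (κ → ℝ) → (κ → ℝ) → ℝ}
    (hY : E3 fun z0 z1 _ => Y z0 z1) (h1 : t1 < 1) (θ t0 : ℝ) :
    ContinuousOn (fun s => Eu x θ t0 t1 s F fun z0 z1 z2 => Y z0 z1 * hq x s F D H z2)
      (Set.Icc t1 1) :=
  (Eu_cont hS.c11 hx hS.cF hS.cD hS.bds.1 hS.bds.2 hY h1 θ t0).2

theorem Eu_sq_ftc (hS : Sm F D B L H T M) (hx : 0 < x) {Y : (κ → ℝ) → (κ → ℝ) → ℝ}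
    (hY : E3 fun z0 z1 _ => Y z0 z1) (h1 : t1 < 1) (θ t0 : ℝ) {a b : ℝ} (ha : t1 ≤ a)
    (hab : a ≤ b) (hb : b ≤ 1) :
    ∫ s in a..b, Eu x θ t0 t1 s F (fun z0 z1 z2 => Y z0 z1 * hq x s F D H z2) =
      Eu x θ t0 t1 b F (fun z0 z1 z2 => Y z0 z1 * sq x b F D z2) -
        Eu x θ t0 t1 a F (fun z0 z1 z2 => Y z0 z1 * sq x a F D z2) := by
  refine intervalIntegral.integral_eq_sub_of_hasDerivAt_of_le hab
    ((Eu_sq_cont hS hx hY h1 θ t0).mono (Set.Icc_subset_Icc ha hb)) (fun s hs => ?_) ?_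
  · exact Eu_sq_deriv hS hx hY ⟨ha.trans_lt hs.1, hs.2.trans_le hb⟩
  · refine ContinuousOn.intervalIntegrable ?_
    rw [Set.uIcc_of_le hab]
    exact (Eu_hq_cont hS hx hY h1 θ t0).mono (Set.Icc_subset_Icc ha hb)

/-- `E_θ |Hess u_s|²` -/
noncomputable def Ht (x θ t0 t1 s : ℝ) (F : (κ → ℝ) → ℝ) (D : κ → (κ → ℝ) → ℝ)
    (H : κ → κ → (κ → ℝ) → ℝ) : ℝ := Et x θ t0 t1 s F (fun _ _ z2 => hq x s F D H z2)

lemma Qt_eq (h : C11 F D B L) (hx : 0 < x) (hs : s ∈ Set.Icc t1 1) : Qt x θ t0 t1 s F D =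
    Eu x θ t0 t1 s F (fun _ _ z2 => 1 * sq x s F D z2) / Eu x θ t0 t1 t1 F (fun _ _ _ => 1) := by
  unfold Qt Et
  rw [Eu_one_eq h hx hs.1 hs.2]
  simp only [one_mul]

lemma Ht_eq (h : C11 F D B L) (hx : 0 < x) (hs : s ∈ Set.Icc t1 1) : Ht x θ t0 t1 s F D H =
    Eu x θ t0 t1 s F (fun _ _ z2 => 1 * hq x s F D H z2) /
      Eu x θ t0 t1 t1 F (fun _ _ _ => 1) := by
  unfold Ht Et
  rw [Eu_one_eq h hx hs.1 hs.2]
  simp only [one_mul]

/-- **(H4)** `d/ds E_θ |D_s|² = E_θ |Hess u_s|²` -/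
theorem Qt_deriv (hS : Sm F D B L H T M) (hx : 0 < x) (θ t0 : ℝ) (hs : s ∈ Set.Ioo t1 1) :
    HasDerivAt (fun s => Qt x θ t0 t1 s F D) (Ht x θ t0 t1 s F D H) s := by
  have k := (Eu_sq_deriv (θ := θ) (t0 := t0) (Y := fun _ _ => 1) hS hx (E3.const 1) hs).div_const
    (Eu x θ t0 t1 t1 F (fun _ _ _ => 1))
  rw [← Ht_eq hS.c11 hx ⟨hs.1.le, hs.2.le⟩] at k
  refine k.congr_of_eventuallyEq ?_
  filter_upwards [Ioo_mem_nhds hs.1 hs.2] with r hr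
  exact Qt_eq hS.c11 hx ⟨hr.1.le, hr.2.le⟩

theorem Qt_cont (hS : Sm F D B L H T M) (hx : 0 < x) (θ t0 : ℝ) (h1 : t1 < 1) :
    ContinuousOn (fun s => Qt x θ t0 t1 s F D) (Set.Icc t1 1) := by
  refine ((Eu_sq_cont (Y := fun _ _ => 1) hS hx (E3.const 1) h1 θ t0).div_const
    (Eu x θ t0 t1 t1 F (fun _ _ _ => 1))).congr fun s hs => ?_
  exact Qt_eq hS.c11 hx hs

theorem Ht_cont (hS : Sm F D B L H T M) (hx : 0 < x) (θ t0 : ℝ) (h1 : t1 < 1) :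
    ContinuousOn (fun s => Ht x θ t0 t1 s F D H) (Set.Icc t1 1) := by
  refine ((Eu_hq_cont (Y := fun _ _ => 1) hS hx (E3.const 1) h1 θ t0).div_const
    (Eu x θ t0 t1 t1 F (fun _ _ _ => 1))).congr fun s hs => ?_
  exact Ht_eq hS.c11 hx hs

theorem Qt_ftc (hS : Sm F D B L H T M) (hx : 0 < x) (θ t0 : ℝ) (h1 : t1 < 1) {a b : ℝ}
    (ha : t1 ≤ a) (hab : a ≤ b) (hb : b ≤ 1) :
    ∫ s in a..b, Ht x θ t0 t1 s F D H = Qt x θ t0 t1 b F D - Qt x θ t0 t1 a F D := by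
  refine intervalIntegral.integral_eq_sub_of_hasDerivAt_of_le hab
    ((Qt_cont hS hx θ t0 h1).mono (Set.Icc_subset_Icc ha hb)) (fun s hs => ?_) ?_
  · exact Qt_deriv hS hx θ t0 ⟨ha.trans_lt hs.1, hs.2.trans_le hb⟩
  · refine ContinuousOn.intervalIntegrable ?_
    rw [Set.uIcc_of_le hab]
    exact (Ht_cont hS hx θ t0 h1).mono (Set.Icc_subset_Icc ha hb)

lemma Ht_nonneg (hS : Sm F D B L H T M) (hx : 0 < x) (θ t0 t1 s : ℝ) :
    0 ≤ Ht x θ t0 t1 s F D H := Et_nonneg hS.c11 hx fun _ _ _ => hq_nonneg _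

/-- `E_θ |D_s|²` is nondecreasing for `s ≥ t1`. -/
theorem Qt_mono (hS : Sm F D B L H T M) (hx : 0 < x) (θ t0 : ℝ) (h1 : t1 < 1) {a b : ℝ}
    (ha : t1 ≤ a) (hab : a ≤ b) (hb : b ≤ 1) : Qt x θ t0 t1 a F D ≤ Qt x θ t0 t1 b F D := by
  have := Qt_ftc hS hx θ t0 h1 ha hab hb
  have h2 : 0 ≤ ∫ s in a..b, Ht x θ t0 t1 s F D H :=
    intervalIntegral.integral_nonneg hab fun s _ => Ht_nonneg hS hx θ t0 t1 s
  linarith

end Vale.Agent.P146.R1
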