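import Vale.Agent.P146.H713.En5

/-!
The pair of late times, part 4: the second time, and the pair `s1 < s2` with all its numbers;
exchange of the weights of the two times.
-/

open MeasureTheory ProbabilityTheory

namespace Vale.Agent.P146.H713.En2

open Vale.Agent.P157.Lv Vale.Agent.P146.H425 Vale.Agent.P146.H325 Vale.Agent.P146.H332
  Vale.Agent.P146.H712 Vale.Agent.P146.H816 Vale.Agent.P146.R1 Vale.Agent.P146.R1C Matrix
  Vale.Agent.P146.R1S Vale.Agent.P146.H693 Vale.Agent.P146.H655 Vale.Agent.P146.H946.En2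
open Vale.Agent.P146.H785 (Ax)

set_option linter.unusedSectionVars false

variable {n : ℕ} {k x : ℝ} {S : CS n k x} {w t t' s s' : ℝ} {m σ : ℕ → ℝ} {N : ℕ}

lemma frA_ge (s : ℝ) (u : Pair n → ℝ) : (n : ℝ) ≤ fr (S.A s u) := by
  unfold fr
  have h : ∀ i ∈ (Finset.univ : Finset (Fin n)), (1 : ℝ) ≤ ∑ j, S.A s u i j ^ 2 := by
    intro i _
    have h1 := Finset.single_le_sum (f := fun j => S.A s u i j ^ 2) (fun j _ => sq_nonneg _)
      (Finset.mem_univ i)
    have h2 : S.A s u i i = 1 := S.A_self s u i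
    simp only [h2] at h1
    linarith
  have h3 := Finset.sum_le_sum h
  simpa using h3

lemma NmT_ge (hm : Pm m N) (c : ℝ) :
    (n : ℝ) * NQ S w m σ N c t ≤ NmT S w m σ N c t s := by
  rw [← EwT_one (S := S) (w := w) (t := t) (s := s) (σ := σ) hm c (n : ℝ)]
  refine cmp_T hm c (eg_Aw S t s (EG.const _)) (eg_Aw S t s (eg_frA s)) fun u => ?_
  have hc := c11_uu S.c11 S.x0 s
  exact H785.Ax_mono hc.lip hc.B0 (EG.const _) (eg_frA s) (fun v => frA_ge s v) _ _ u

lemma NmT_le2 (hm : Pm m N) (c : ℝ) :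
    NmT S w m σ N c t s ≤ (n : ℝ) ^ 2 * NQ S w m σ N c t := by
  rw [← EwT_one (S := S) (w := w) (t := t) (s := s) (σ := σ) hm c ((n : ℝ) ^ 2)]
  refine cmp_T hm c (eg_Aw S t s (eg_frA s)) (eg_Aw S t s (EG.const _)) fun u => ?_
  have hc := c11_uu S.c11 S.x0 s
  exact H785.Ax_mono hc.lip hc.B0 (eg_frA s) (EG.const _) (fun v => frA_le s v) _ _ u

/-- **The second time.** For every first time `t`, most times `s` of `[t + Δ/2, t + Δ]` are good:
all rates of `all_rates` at `s`, and the rate at `s` with the weight of `t`. -/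
theorem second (hm : Pm m N) (c : ℝ) (hn : 2 ≤ n) {Δ q Nb η : ℝ} {M : ℕ} (h0 : w ≤ t)
    (hΔ : 0 < Δ) (h2 : t + 2 * Δ ≤ 1) (hSh : Sh S (Δ / 2 / M)) (hq : 1 ≤ q) (hNb : 0 < Nb)
    (hpB : ∀ s, t ≤ s → s ≤ t + Δ → pB S w m σ N c Nb s ≤ η)
    (hη : (4 + 128 * M) * (n : ℝ) ^ 6 * η ≤ Nb * n) (hM : 9 * q * Real.log n ≤ M) :
    ∃ G ⊆ Finset.range M, (M : ℝ) * (1 - 5 / q) ≤ G.card ∧
      ∀ j ∈ G, ∀ s, s = t + Δ / 2 + j * (Δ / 2 / M) → Rates S w m σ N c (Δ / 2) 0 1 q Nb s ∧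
        Δ * RtT S w m σ N c t s ≤ 16 * q * Real.log n * (Nb * NQ S w m σ N c t) := by
  have hn2 : (2 : ℝ) ≤ n := by exact_mod_cast hn
  have hn0 : (0 : ℝ) < n := by linarith
  have hl : 0 < Real.log n := Real.log_pos (by linarith)
  have hql : 0 < q * Real.log n := by positivity
  have hM0 : (0 : ℝ) < M := lt_of_lt_of_le (by nlinarith) hM
  have hM1 : (1 : ℝ) ≤ M := by exact_mod_cast hM0
  have hNQ : (0 : ℝ) < NQ S w m σ N c t := lt_of_lt_of_le hn0 (NQ_ge hm c)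
  have hη0 : 0 ≤ η := (pB_nonneg (S := S) (w := w) (m := m) (σ := σ) (N := N) (t := t) c
    Nb).trans (hpB t le_rfl (by linarith))
  have hlog2 : (2 : ℝ) / 3 ≤ Real.log (1 + 1) := by
    have := Real.log_two_gt_d9
    norm_num at this ⊢
    linarith
  have hS : ∀ s s' : ℝ, s' - s = Δ / 2 / M → Sh S (s' - s) := fun s s' h => by rw [h]; exact hSh
  have hst : (0 : ℝ) < Δ / 2 / M := by positivity
  obtain ⟨G, hG, hc, hb⟩ := all_rates (ι := Unit) (κ := Empty) (S := S) (σ := σ) (q := q)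
    (M := M) (a := t + Δ / 2) (h := Δ / 2) (Δ := 0) (ε := 1) (Nb := Nb) (η := η)
    (f := fun _ s => 2 * NmT S w m σ N c t s) (g := fun _ s => RtT S w m σ N c t s)
    (e := fun _ => 0) (K := fun _ => 2 * q * Real.log n) (R := fun _ => n)
    (F := fun i => i.elim) (R' := fun i => i.elim) hm c hn (by linarith) (by linarith) le_rfl
    (by linarith) hSh hq one_pos hNb (fun s b1 b2 => hpB s (by linarith) (by linarith)) hη
    (by nlinarith)
    (by
      calc 6 * q * Real.log n = 9 * q * Real.log n * (2 / 3) := by ring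
        _ ≤ M * (2 / 3) := mul_le_mul_of_nonneg_right hM (by norm_num)
        _ ≤ M * Real.log (1 + 1) := mul_le_mul_of_nonneg_left hlog2 hM0.le)
    (by
      have : 0 ≤ Δ / 2 * Real.log (1 + 1) := by positivity
      linarith)
    (fun _ => by
      have h1 := NmT_ge (S := S) (w := w) (t := t) (s := t + Δ / 2) (σ := σ) hm c
      have h2 : 0 < (n : ℝ) * NQ S w m σ N c t := by positivity
      linarith)
    (fun _ s _ _ => RtT_nonneg hm c t s)
    (fun _ s b1 b2 => by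
      have h1 := RtT_le (S := S) (w := w) (t := t) (s := s) (s' := s + Δ / 2 / M) (σ := σ) hm c
        (by linarith) (by linarith) (by linarith) (hS _ _ (by ring))
      have e : s + Δ / 2 / M - s = Δ / 2 / M := by ring
      rw [e] at h1
      linarith)
    (fun _ => by
      have h1 := NmT_le2 (S := S) (w := w) (t := t) (s := t + Δ / 2 + Δ / 2) (σ := σ) hm c
      have h2 := NmT_ge (S := S) (w := w) (t := t) (s := t + Δ / 2) (σ := σ) hm c
      have h3 := mul_le_mul_of_nonneg_left h2 hn0.le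
      have h4 : (n : ℝ) * (n * NQ S w m σ N c t) = (n : ℝ) ^ 2 * NQ S w m σ N c t := by ring
      simp only [mul_zero, add_zero]
      linarith)
    (fun _ => le_rfl) (fun _ => by positivity) (fun _ => by nlinarith)
    (fun i => i.elim) (fun i => i.elim) (fun i => i.elim) (fun i => i.elim) (fun i => i.elim)
  refine ⟨G, hG, le_trans (le_of_eq ?_) hc, fun j hj s hs => ?_⟩
  · simp only [Fintype.card_unit, Fintype.card_empty, Nat.cast_one, Nat.cast_zero]
    norm_num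
  · obtain ⟨b1, b2, -⟩ := hb j hj s hs
    refine ⟨b1, ?_⟩
    have b3 := b2 ()
    simp only [mul_zero, add_zero] at b3
    have hjM : (j : ℝ) ≤ M := by exact_mod_cast (Finset.mem_range.1 (hG hj)).le
    have hj1 : (j : ℝ) * (Δ / 2 / M) ≤ Δ / 2 := by
      calc (j : ℝ) * (Δ / 2 / M) ≤ M * (Δ / 2 / M) := mul_le_mul_of_nonneg_right hjM hst.le
        _ = Δ / 2 := by field_simp
    have hj0 : 0 ≤ (j : ℝ) * (Δ / 2 / M) := by positivity
    have h5 := NmT_le (S := S) (w := w) (t := t) (s := s) (σ := σ) (Nb := Nb) hm c hNb.le h0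
      (by linarith) (by linarith)
    have h6 := hpB s (by linarith) (by linarith)
    have h7 : (n : ℝ) ^ 6 * pB S w m σ N c Nb s ≤ (n : ℝ) ^ 6 * η :=
      mul_le_mul_of_nonneg_left h6 (by positivity)
    have h8 : Nb * n ≤ Nb * NQ S w m σ N c t := mul_le_mul_of_nonneg_left (NQ_ge hm c) hNb.le
    have h9 : (n : ℝ) ^ 6 * η ≤ (4 + 128 * M) * (n : ℝ) ^ 6 * η := by
      have : 0 ≤ (n : ℝ) ^ 6 * η := by positivity
      nlinarith
    have h10 : NmT S w m σ N c t s ≤ 2 * (Nb * NQ S w m σ N c t) := by linarith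
    have h11 : 2 * q * Real.log n * (2 * NmT S w m σ N c t s) ≤
        2 * q * Real.log n * (2 * (2 * (Nb * NQ S w m σ N c t))) :=
      mul_le_mul_of_nonneg_left (by linarith) (by positivity)
    nlinarith [b3, h11]

/-- the numbers of a pair of late times -/
structure Pts (S : CS n k x) (w : ℝ) (m σ : ℕ → ℝ) (N : ℕ) (c h Δ ε θ q Nb s1 s2 : ℝ) :
    Prop where
  le1 : s1 + Δ / 2 ≤ s2
  le2 : s2 ≤ s1 + Δ
  r1 : Rates S w m σ N c h Δ ε q Nb s1
  r2 : Rates S w m σ N c (Δ / 2) 0 1 q Nb s2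
  /-- `E <Q_1(s1), (C_s2 - C_s1)²>` -/
  inc : IncQ S w m σ N c s1 s2 ≤ ε / 2 * NQ S w m σ N c s1
  /-- `E W |C_s2 - C_s1|²`, `W = <Q_1(s1), C_s1²>` -/
  incT : IncT S w m σ N c s1 s2 ≤ 24 * θ * (Nb * NQ S w m σ N c s1)
  /-- `E W ∑_e |D_e C_s2|²` -/
  rate : Δ * RtT S w m σ N c s1 s2 ≤ 16 * q * Real.log n * (Nb * NQ S w m σ N c s1)

lemma IncQ_mono (hm : Pm m N) (c : ℝ) (h1 : w ≤ t) (h2 : t ≤ s) (h3 : s ≤ s') (h4 : s' ≤ 1) :
    IncQ S w m σ N c t s ≤ IncQ S w m σ N c t s' := by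
  have i1 := eg_IncW (S := S) (σ := σ) hm c (Y := Q1 S w m σ N t) (fun i j => eg_Q1 hm i j) h1
    h2 (h3.trans h4)
  have i2 := eg_IncW (S := S) (σ := σ) hm c (Y := Q1 S w m σ N t) (fun i j => eg_Q1 hm i j) h1
    (h2.trans h3) h4
  refine integral_mono i1.integrable i2.integrable fun g => ?_
  simp only
  set Y := Q1 S w m σ N t (c • g) with hY
  refine E1_mono hm (eg_Inc h2 (h3.trans h4) Y) (eg_Inc (h2.trans h3) h4 Y) (fun u => ?_) _
  rw [Inc_eq h2 (h3.trans h4), Inc_eq (h2.trans h3) h4, ← sub_nonneg, ← Finset.sum_sub_distrib]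
  have e1 : ∀ i j, EG fun v => Aw S s s' (A2 S s' i j) v - A2 S s i j v := fun i j =>
    (eg_Aw S s s' (eg_A2 S s' i j)).sub (eg_A2 S s i j)
  have h5 : ∑ i, (∑ j, Y i j * (Aw S t s' (A2 S s' i j) u - A2 S t i j u) -
      ∑ j, Y i j * (Aw S t s (A2 S s i j) u - A2 S t i j u)) =
      Aw S t s (Inc S s s' Y) u := by
    have e2 : Inc S s s' Y = fun v => ∑ i, ∑ j, Y i j * (Aw S s s' (A2 S s' i j) v -
      A2 S s i j v) := funext fun v => Inc_eq h3 h4 Y v
    rw [e2, Aw_sum2 S t s Y e1]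
    refine Finset.sum_congr rfl fun i _ => ?_
    rw [← Finset.sum_sub_distrib]
    refine Finset.sum_congr rfl fun j _ => ?_
    have e4 : (fun v => Aw S s s' (A2 S s' i j) v - A2 S s i j v) = fun v =>
      Aw S s s' (A2 S s' i j) v + -1 * A2 S s i j v := by funext v; ring
    rw [e4, Aw_add S t s (eg_Aw S s s' (eg_A2 S s' i j)) ((eg_A2 S s i j).const_mul (-1)),
      Aw_const_mul, ← Aw_tower S h2 h3 h4 (eg_A2 S s' i j)]
    ring
  rw [h5]
  exact Aw_nonneg S t s (fun v => Inc_nonneg (Q1_psd hm (c • g)) v) u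

/-- **The pair of late times.** `Δ = p (h / M)`. -/
theorem pair (hm : Pm m N) (c : ℝ) (hn : 2 ≤ n) {a h Δ ε θ q Nb η : ℝ} {M M2 p : ℕ}
    (h1 : w ≤ a) (hh : 0 < h) (hp : 0 < p) (hΔp : Δ = p * (h / M)) (h2 : a + 2 * h + 2 * Δ ≤ 1)
    (hSh : Sh S (h / M)) (hSh2 : Sh S (Δ / 2 / M2)) (hq : 6 ≤ q) (hε : 0 < ε) (hNb : 0 < Nb)
    (hpB : ∀ t, a ≤ t → t ≤ a + h + 2 * Δ → pB S w m σ N c Nb t ≤ η)
    (hη : (66 + 128 * M) * (n : ℝ) ^ 6 * η ≤ Nb * n)
    (hη2 : (4 + 128 * M2) * (n : ℝ) ^ 6 * η ≤ Nb * n)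
    (hη3 : (288 + 128 * M) * (n : ℝ) ^ 6 * η ≤ θ * (Nb * n))
    (hM1 : 8 * q * Real.log n ≤ M)
    (hM2 : 6 * q * Real.log n ≤ M * Real.log (1 + ε))
    (hΔ2 : 6 * q * Real.log n * Δ ≤ h * Real.log (1 + ε)) (hM3 : 9 * q * Real.log n ≤ M2)
    (hθ : 8 * q * Real.log n * Δ ≤ θ * h) (hθ1 : θ ≤ 1 / 2) :
    ∃ s1 s2, a ≤ s1 ∧ s1 ≤ a + h ∧ Pts S w m σ N c h Δ ε θ q Nb s1 s2 := by
  have hn2 : (2 : ℝ) ≤ n := by exact_mod_cast hn
  have hn0 : (0 : ℝ) < n := by linarith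
  have hl : 0 < Real.log n := Real.log_pos (by linarith)
  have hql : 0 < q * Real.log n := by positivity
  have hM0 : (0 : ℝ) < M := lt_of_lt_of_le (by nlinarith) hM1
  have hM20 : (0 : ℝ) < M2 := lt_of_lt_of_le (by nlinarith) hM3
  have hp' : (0 : ℝ) < p := by exact_mod_cast hp
  have hp1 : (1 : ℝ) ≤ p := by exact_mod_cast hp
  have hδ : 0 < h / M := by positivity
  have hΔ : 0 < Δ := by rw [hΔp]; positivity
  have hη0 : 0 ≤ η := (pB_nonneg (S := S) (w := w) (m := m) (σ := σ) (N := N) (t := a) c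
    Nb).trans (hpB a le_rfl (by linarith))
  have hX : 0 ≤ (n : ℝ) ^ 6 * η := by positivity
  have hMX : 0 ≤ (M : ℝ) * ((n : ℝ) ^ 6 * η) := by positivity
  have hlog2 : Real.log 2 ≤ Real.log n := Real.log_le_log (by norm_num) hn2
  obtain ⟨f1, f2⟩ := FA_range (S := S) (w := w) (σ := σ) (a := a) (b := a + h + 2 * Δ) (h := h)
    (Mg := M) hm c hn hNb hpB hp hδ hh.le (by rw [← hΔp]; linarith) (by nlinarith)
  obtain ⟨G, hG, hc, hb⟩ := all_rates (ι := Unit) (κ := Empty) (S := S) (σ := σ) (q := q)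
    (M := M) (a := a) (h := h) (Δ := Δ) (ε := ε) (Nb := Nb) (η := η)
    (f := fun _ => FA S w m σ N c Nb (h / M) p)
    (g := fun _ => FG S w m σ N c Nb (h / M) p (64 * (n : ℝ) ^ 6 * η))
    (e := fun _ => 64 * (n : ℝ) ^ 6 * η / p) (K := fun _ => 8 * q * Real.log n)
    (R := fun _ => 2 * (n : ℝ) ^ 3)
    (F := fun i => i.elim) (R' := fun i => i.elim) hm c hn h1 hh hΔ.le
    (by linarith) hSh (by linarith) hε hNb (fun s b1 b2 => hpB s b1 (by linarith))
    (by nlinarith) hM1 hM2 hΔ2 (fun _ => f1)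
    (fun _ t b1 b2 => FG_nonneg (S := S) (w := w) (σ := σ) (a := a) (b := a + h + 2 * Δ) hm c
      hNb.le hpB h1 (by linarith) hδ le_rfl b1 (by rw [← hΔp]; linarith))
    (fun _ t _ _ => (FA_step hp hδ t).le)
    (fun _ => f2)
    (fun _ => by
      rw [Real.log_mul (by norm_num) (by positivity), Real.log_pow]
      push_cast
      have : q * Real.log 2 ≤ q * Real.log n := mul_le_mul_of_nonneg_left hlog2 (by linarith)
      nlinarith)
    (fun _ => by positivity) (fun _ => hM1)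
    (fun i => i.elim) (fun i => i.elim) (fun i => i.elim) (fun i => i.elim) (fun i => i.elim)
  have hc2 : 0 < G.card := by
    have h3 : (0 : ℝ) < G.card := by
      refine lt_of_lt_of_le ?_ hc
      simp only [Fintype.card_unit, Fintype.card_empty, Nat.cast_one, Nat.cast_zero]
      refine mul_pos hM0 ?_
      rw [sub_pos, div_lt_one (by linarith)]
      linarith
    exact_mod_cast h3
  obtain ⟨j, hj⟩ := Finset.card_pos.1 hc2
  obtain ⟨b1, b2, -⟩ := hb j hj _ rfl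
  have hjM : j < M := Finset.mem_range.1 (hG hj)
  have hjM' : (j : ℝ) ≤ M := by exact_mod_cast hjM.le
  set s1 := a + j * (h / M) with hs1
  have hs1a : a ≤ s1 := by
    have : 0 ≤ (j : ℝ) * (h / M) := by positivity
    linarith
  have hs1b : s1 ≤ a + h := by
    have h4 : (j : ℝ) * (h / M) ≤ M * (h / M) := mul_le_mul_of_nonneg_right hjM' hδ.le
    have h5 : (M : ℝ) * (h / M) = h := by field_simp
    linarith
  obtain ⟨G2, hG2, hc3, hb2⟩ := second (S := S) (w := w) (t := s1) (σ := σ) (q := q) (M := M2)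
    (Δ := Δ) (Nb := Nb) (η := η) hm c hn (h1.trans hs1a) hΔ (by linarith) hSh2 (by linarith) hNb
    (fun s d1 d2 => hpB s (by linarith) (by linarith)) hη2 hM3
  have hc4 : 0 < G2.card := by
    have h3 : (0 : ℝ) < G2.card := by
      refine lt_of_lt_of_le ?_ hc3
      refine mul_pos hM20 ?_
      rw [sub_pos, div_lt_one (by linarith)]
      linarith
    exact_mod_cast h3
  obtain ⟨i, hi⟩ := Finset.card_pos.1 hc4
  obtain ⟨d1, d2⟩ := hb2 i hi _ rfl
  have hiM : (i : ℝ) ≤ M2 := by exact_mod_cast (Finset.mem_range.1 (hG2 hi)).le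
  set s2 := s1 + Δ / 2 + i * (Δ / 2 / M2) with hs2
  have hs2a : s1 + Δ / 2 ≤ s2 := by
    have : 0 ≤ (i : ℝ) * (Δ / 2 / M2) := by positivity
    linarith
  have hs2b : s2 ≤ s1 + Δ := by
    have h4 : (i : ℝ) * (Δ / 2 / M2) ≤ M2 * (Δ / 2 / M2) :=
      mul_le_mul_of_nonneg_right hiM (by positivity)
    have h5 : (M2 : ℝ) * (Δ / 2 / M2) = Δ / 2 := by field_simp
    linarith
  refine ⟨s1, s2, hs1a, hs1b, hs2a, hs2b, b1, d1, ?_, ?_, d2⟩
  · exact (IncQ_mono hm c (h1.trans hs1a) (by linarith) hs2b (by linarith)).trans b1.inc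
  · exact FF_growth (S := S) (w := w) (σ := σ) (a := a) (b := a + h + 2 * Δ) (h := h)
      (K := 8 * q * Real.log n) (Mg := M) (j := j) hm c hNb hpB h1 (by linarith) hp hδ hh
      (by positivity) hjM.le hs1a (by rw [← hΔp]; linarith) (by rw [← hΔp]; exact hθ) hθ1 hη3
      (b2 ()) (by linarith) (by rw [← hΔp]; exact hs2b)

end Vale.Agent.P146.H713.En2
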