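import Vale.Agent.P146.H713.Dic2
import Vale.Agent.P146.H713.En6

/-!
Dictionary, part 2: the numbers of the pair of late times as means `EwG` of the two-layer law.
-/

open MeasureTheory ProbabilityTheory

namespace Vale.Agent.P146.H713.En2

open Vale.Agent.P157.Lv Vale.Agent.P146.H425 Vale.Agent.P146.H325 Vale.Agent.P146.H332
  Vale.Agent.P146.H712 Vale.Agent.P146.H816 Vale.Agent.P146.R1 Vale.Agent.P146.R1C Matrix
  Vale.Agent.P146.R1S Vale.Agent.P146.H693 Vale.Agent.P146.H655 Vale.Agent.P146.H706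
  Vale.Agent.P146.H946.En2
open Vale.Agent.P146.H785 (Ax)

set_option linter.unusedSectionVars false

variable {n : ℕ} {k : ℝ} {q : Par} {S : CS n k q.x} {y l : ℝ} {m σ : ℕ → ℝ}
  {Y : (Pair n → ℝ) → Matrix (Fin n) (Fin n) ℝ}

/-- sums of products of functions of `P2` and `P3` under the weight `<Y(P0), C_1²>` -/
theorem EwG_form2 (hT : Tm q y l) (hs : Stk q y l m σ) (hY : ∀ i j, EG fun z => Y z i j)
    {ι : Type*} (T : Finset ι) {χ φ : ι → (Pair n → ℝ) → ℝ} (hχ : ∀ i ∈ T, EG (χ i))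
    (hφ : ∀ i ∈ T, EG (φ i)) :
    EwG q (R1C.GTwo q y l S.F S.D) S.F (fun w => qF S q.s1 (Y (P0 q w)) (P2 q w) *
      ∑ r ∈ T, χ r (P2 q w) * φ r (P3 q w)) =
    ∫ g, E1 S q.t1 m σ 2 q.s1 (fun u => qF S q.s1 (Y (√q.t0 • g)) u *
      ∑ r ∈ T, χ r u * Aw S q.s1 q.s2 (φ r) u) (√q.t0 • g) ∂(gI (Pair n)) := by
  have hm := hs.pm hT.hy
  have key := EwG_sum (S := S) hT hs ((Finset.univ : Finset (Fin n × Fin n)) ×ˢ T)
    (a := fun p z => Y z p.1.1 p.1.2) (χ := fun p u => A2 S q.s1 p.1.1 p.1.2 u * χ p.2 u)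
    (φ := fun p => φ p.2) (fun p _ => hY p.1.1 p.1.2)
    (fun p hp => (eg_A2 S q.s1 p.1.1 p.1.2).mul (hχ p.2 (Finset.mem_product.1 hp).2))
    (fun p hp => hφ p.2 (Finset.mem_product.1 hp).2)
  have e1 : (fun w => qF S q.s1 (Y (P0 q w)) (P2 q w) * ∑ r ∈ T, χ r (P2 q w) * φ r (P3 q w)) =
      fun w : K4 (Pair n) → ℝ => ∑ p ∈ (Finset.univ : Finset (Fin n × Fin n)) ×ˢ T,
        Y (P0 q w) p.1.1 p.1.2 *
        (A2 S q.s1 p.1.1 p.1.2 (P2 q w) * χ p.2 (P2 q w) * φ p.2 (P3 q w)) := by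
    funext w
    unfold qF
    rw [Finset.sum_product, Fintype.sum_prod_type, Finset.sum_mul]
    refine Finset.sum_congr rfl fun i _ => ?_
    rw [Finset.sum_mul]
    refine Finset.sum_congr rfl fun j _ => ?_
    rw [Finset.mul_sum]
    exact Finset.sum_congr rfl fun r _ => by ring
  rw [e1, key]
  refine integral_congr_ae (Filter.Eventually.of_forall fun g => ?_)
  simp only
  have hE : EG fun u => ∑ r ∈ T, χ r u * Aw S q.s1 q.s2 (φ r) u :=
    EG.sum _ fun r hr => (hχ r hr).mul (eg_Aw S q.s1 q.s2 (hφ r hr))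
  rw [E1_form hm hE, Finset.sum_product, Fintype.sum_prod_type]
  refine Finset.sum_congr rfl fun i _ => Finset.sum_congr rfl fun j _ => ?_
  have e2 : (fun u => A2 S q.s1 i j u * ∑ r ∈ T, χ r u * Aw S q.s1 q.s2 (φ r) u) = fun u =>
      ∑ r ∈ T, A2 S q.s1 i j u * χ r u * Aw S q.s1 q.s2 (φ r) u := by
    funext u
    rw [Finset.mul_sum]
    exact Finset.sum_congr rfl fun r _ => by ring
  have e3 : E1 S q.t1 m σ 2 q.s1 (fun u => A2 S q.s1 i j u *
      ∑ r ∈ T, χ r u * Aw S q.s1 q.s2 (φ r) u) (√q.t0 • g) =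
      ∑ r ∈ T, E1 S q.t1 m σ 2 q.s1 (fun u => A2 S q.s1 i j u * χ r u *
        Aw S q.s1 q.s2 (φ r) u) (√q.t0 • g) := by
    rw [e2, E1_sum hm T fun r hr => ((eg_A2 S q.s1 i j).mul (hχ r hr)).mul
      (eg_Aw S q.s1 q.s2 (hφ r hr))]
  rw [e3, Finset.mul_sum]

/-- the deep matrix of the first late time -/
noncomputable def Yp (S : CS n k q.x) (m σ : ℕ → ℝ) (z : Pair n → ℝ) :
    Matrix (Fin n) (Fin n) ℝ := Q1 S q.t1 m σ 2 q.s1 z

/-- the scalar weight `W = <Y(P0), C_1²>` -/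
noncomputable def Wp (S : CS n k q.x) (m σ : ℕ → ℝ) (w : K4 (Pair n) → ℝ) : ℝ :=
  qF S q.s1 (Yp S m σ (P0 q w)) (P2 q w)

lemma eg_Yp (hT : Tm q y l) (hs : Stk q y l m σ) (i j : Fin n) : EG fun z => Yp S m σ z i j :=
  eg_Q1 (hs.pm hT.hy) i j

/-- `E W f(P3)` -/
theorem EwG_W3 (hT : Tm q y l) (hs : Stk q y l m σ) {f : (Pair n → ℝ) → ℝ} (hf : EG f) :
    EwG q (R1C.GTwo q y l S.F S.D) S.F (fun w => Wp S m σ w * f (P3 q w)) =
      EwT S q.t1 m σ 2 (√q.t0) q.s1 q.s2 f := by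
  have h := EwG_form (S := S) hT hs (Y := Yp S m σ) (eg_Yp hT hs) (χ := fun _ => 1) (EG.const 1)
    hf
  simp only [one_mul] at h
  exact h

/-- `E W f(P2)` -/
theorem EwG_W2 (hT : Tm q y l) (hs : Stk q y l m σ) {f : (Pair n → ℝ) → ℝ} (hf : EG f) :
    EwG q (R1C.GTwo q y l S.F S.D) S.F (fun w => Wp S m σ w * f (P2 q w)) =
      ∫ g, E1 S q.t1 m σ 2 q.s1 (fun u => qF S q.s1 (Q1 S q.t1 m σ 2 q.s1 (√q.t0 • g)) u * f u)
        (√q.t0 • g) ∂(gI (Pair n)) := by
  have h := EwG_form (S := S) hT hs (Y := Yp S m σ) (eg_Yp hT hs) (χ := f) (φ := fun _ => 1) hf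
    (EG.const 1)
  have e1 : Aw S q.s1 q.s2 (fun _ => (1 : ℝ)) = fun _ => 1 :=
    funext fun u => Aw_const S q.s1 q.s2 1 u
  simp only [mul_one, e1] at h
  exact h

/-- `E W = E|Q_1|²` -/
theorem EwG_W (hT : Tm q y l) (hs : Stk q y l m σ) :
    EwG q (R1C.GTwo q y l S.F S.D) S.F (Wp S m σ) = NQ S q.t1 m σ 2 (√q.t0) q.s1 := by
  have h := EwG_W3 (S := S) hT hs (EG.const 1)
  rw [EwT_one (hs.pm hT.hy)] at h
  simp only [mul_one, one_mul] at h
  exact h

/-- `E W |C_1|²` -/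
theorem EwG_QNQ (hT : Tm q y l) (hs : Stk q y l m σ) :
    EwG q (R1C.GTwo q y l S.F S.D) S.F (fun w => Wp S m σ w * fr (S.A q.s1 (P2 q w))) =
      QNQ S q.t1 m σ 2 (√q.t0) q.s1 := EwG_W2 hT hs (eg_frA q.s1)

/-- `E W |C_2|²` -/
theorem EwG_NmT (hT : Tm q y l) (hs : Stk q y l m σ) :
    EwG q (R1C.GTwo q y l S.F S.D) S.F (fun w => Wp S m σ w * fr (S.A q.s2 (P3 q w))) =
      NmT S q.t1 m σ 2 (√q.t0) q.s1 q.s2 := EwG_W3 hT hs (eg_frA q.s2)

/-- `E W ∑_e |D_e C_1|²` -/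
theorem EwG_EnTQ (hT : Tm q y l) (hs : Stk q y l m σ) :
    EwG q (R1C.GTwo q y l S.F S.D) S.F (fun w => Wp S m σ w *
      ∑ e : Pair n, fr (S.DA q.s1 e (P2 q w))) =
      EnTQ S q.t1 m σ 2 (√q.t0) q.s1 := EwG_W2 hT hs (eg_sDA q.s1)

/-- `E W ∑_e |D_e C_2|²` -/
theorem EwG_RtT (hT : Tm q y l) (hs : Stk q y l m σ) :
    EwG q (R1C.GTwo q y l S.F S.D) S.F (fun w => Wp S m σ w *
      ∑ e : Pair n, fr (S.DA q.s2 e (P3 q w))) =
      RtT S q.t1 m σ 2 (√q.t0) q.s1 q.s2 := EwG_W3 hT hs (eg_sDA q.s2)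

/-- `E W |C_2 - C_1|²` -/
theorem EwG_IncT (hT : Tm q y l) (hs : Stk q y l m σ) :
    EwG q (R1C.GTwo q y l S.F S.D) S.F (fun w => Wp S m σ w *
      dF S q.s1 q.s2 (P2 q w) (P3 q w)) = IncT S q.t1 m σ 2 (√q.t0) q.s1 q.s2 := by
  have h := EwG_form2 (S := S) hT hs (Y := Yp S m σ) (eg_Yp hT hs)
    (Finset.univ : Finset (Fin 3 × (Fin n × Fin n)))
    (χ := fun r u => if r.1 = 0 then 1 else if r.1 = 1 then
      -2 * S.A q.s1 u r.2.1 r.2.2 else S.A q.s1 u r.2.1 r.2.2 ^ 2)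
    (φ := fun r v => if r.1 = 0 then S.A q.s2 v r.2.1 r.2.2 ^ 2 else if r.1 = 1 then
      S.A q.s2 v r.2.1 r.2.2 else 1)
    (fun r _ => by
      by_cases h0 : r.1 = 0
      · simp only [h0, if_true]; exact EG.const 1
      · by_cases h1 : r.1 = 1
        · simp only [h0, h1, if_true]
          exact (S.eg_A q.s1 _ _).const_mul _
        · simp only [h0, h1, if_false]
          exact (S.eg_A q.s1 _ _).pow 2)
    (fun r _ => by
      by_cases h0 : r.1 = 0
      · simp only [h0, if_true]; exact (S.eg_A q.s2 _ _).pow 2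
      · by_cases h1 : r.1 = 1
        · simp only [h0, h1, if_true]
          exact S.eg_A q.s2 _ _
        · simp only [h0, h1, if_false]
          exact EG.const 1)
  refine Eq.trans ?_ (h.trans ?_)
  · congr 1
    funext w
    unfold Wp
    congr 1
    rw [Fintype.sum_prod_type, Fin.sum_univ_three]
    simp only [Fin.isValue, if_true, one_ne_zero, if_false, Fin.reduceEq, one_mul, mul_one]
    unfold dF
    rw [← Finset.sum_add_distrib, ← Finset.sum_add_distrib]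
    exact Finset.sum_congr rfl fun p _ => by ring
  · unfold IncT
    refine integral_congr_ae (Filter.Eventually.of_forall fun g => ?_)
    simp only
    congr 1
    funext u
    unfold Yp
    congr 1
    rw [IncF_eq hT.h2 hT.h3, Fintype.sum_prod_type, Fin.sum_univ_three]
    simp only [Fin.isValue, if_true, one_ne_zero, if_false, Fin.reduceEq, one_mul]
    have e1 : Aw S q.s1 q.s2 (fun _ => (1 : ℝ)) u = 1 := Aw_const S q.s1 q.s2 1 u
    have e2 : (fun v => fr (S.A q.s2 v)) = fun v => ∑ p : Fin n × Fin n,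
        S.A q.s2 v p.1 p.2 ^ 2 := funext fun v => fr_pr _
    rw [e2, Aw_sum S q.s1 q.s2 Finset.univ (φ := fun (p : Fin n × Fin n) v =>
      S.A q.s2 v p.1 p.2 ^ 2) fun p _ => (S.eg_A q.s2 _ _).pow 2, fr_pr,
      ← Finset.sum_add_distrib, ← Finset.sum_add_distrib, ← Finset.sum_sub_distrib]
    refine Finset.sum_congr rfl fun p _ => ?_
    have e3 : Aw S q.s1 q.s2 (fun v => S.A q.s2 v p.1 p.2) u = S.A q.s1 u p.1 p.2 :=
      (A_tw S hT.h2 hT.h3 u p.1 p.2).symm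
    rw [e1, e3]
    ring

/-- `E <Y, (C_2 - C_1)²>` -/
theorem EwG_IncQ (hT : Tm q y l) (hs : Stk q y l m σ) :
    EwG q (R1C.GTwo q y l S.F S.D) S.F (fun w => ∑ i, ∑ j, Yp S m σ (P0 q w) i j *
      dA2 S q.s1 q.s2 (P2 q w) i j (P3 q w)) = IncQ S q.t1 m σ 2 (√q.t0) q.s1 q.s2 := by
  have hm := hs.pm hT.hy
  have h := EwG_sum (S := S) hT hs
    (Finset.univ : Finset (Fin 4 × (Fin n × Fin n) × Fin n))
    (a := fun r z => Yp S m σ z r.2.1.1 r.2.1.2)
    (χ := fun r u => if r.1 = 0 then 1 else if r.1 = 1 then -S.A q.s1 u r.2.1.1 r.2.2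
      else if r.1 = 2 then -S.A q.s1 u r.2.2 r.2.1.2
      else S.A q.s1 u r.2.1.1 r.2.2 * S.A q.s1 u r.2.2 r.2.1.2)
    (φ := fun r v => if r.1 = 0 then S.A q.s2 v r.2.1.1 r.2.2 * S.A q.s2 v r.2.2 r.2.1.2
      else if r.1 = 1 then S.A q.s2 v r.2.2 r.2.1.2 else if r.1 = 2 then
      S.A q.s2 v r.2.1.1 r.2.2 else 1)
    (fun r _ => eg_Yp hT hs _ _)
    (fun r _ => by
      by_cases h0 : r.1 = 0
      · simp only [h0, if_true]; exact EG.const 1
      · by_cases h1 : r.1 = 1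
        · simp only [h0, h1, if_true]
          exact (S.eg_A q.s1 _ _).neg
        · by_cases h2 : r.1 = 2
          · simp only [h0, h1, h2, if_true]
            exact (S.eg_A q.s1 _ _).neg
          · simp only [h0, h1, h2, if_false]
            exact (S.eg_A q.s1 _ _).mul (S.eg_A q.s1 _ _))
    (fun r _ => by
      by_cases h0 : r.1 = 0
      · simp only [h0, if_true]; exact (S.eg_A q.s2 _ _).mul (S.eg_A q.s2 _ _)
      · by_cases h1 : r.1 = 1
        · simp only [h0, h1, if_true]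
          exact S.eg_A q.s2 _ _
        · by_cases h2 : r.1 = 2
          · simp only [h0, h1, h2, if_true]
            exact S.eg_A q.s2 _ _
          · simp only [h0, h1, h2, if_false]
            exact EG.const 1)
  refine Eq.trans ?_ (h.trans ?_)
  · congr 1
    funext w
    rw [Fintype.sum_prod_type, Fin.sum_univ_four, Fintype.sum_prod_type, Fintype.sum_prod_type,
      Fintype.sum_prod_type, Fintype.sum_prod_type, Fintype.sum_prod_type, Fintype.sum_prod_type,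
      Fintype.sum_prod_type, Fintype.sum_prod_type, ← Finset.sum_add_distrib,
      ← Finset.sum_add_distrib, ← Finset.sum_add_distrib]
    refine Finset.sum_congr rfl fun i _ => ?_
    rw [← Finset.sum_add_distrib, ← Finset.sum_add_distrib, ← Finset.sum_add_distrib]
    refine Finset.sum_congr rfl fun j _ => ?_
    simp only [Fin.isValue, if_true, one_ne_zero, if_false, Fin.reduceEq, one_mul, mul_one]
    unfold H655.dA2 dA
    rw [← Finset.mul_sum, ← Finset.mul_sum, ← Finset.mul_sum, ← Finset.mul_sum, ← mul_add,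
      ← mul_add, ← mul_add, ← Finset.sum_add_distrib, ← Finset.sum_add_distrib,
      ← Finset.sum_add_distrib]
    congr 1
    exact Finset.sum_congr rfl fun p _ => by ring
  · show _ = ∫ g, E1 S q.t1 m σ 2 q.s1 (Inc S q.s1 q.s2 (Yp S m σ (√q.t0 • g))) (√q.t0 • g)
      ∂(gI (Pair n))
    refine integral_congr_ae (Filter.Eventually.of_forall fun g => ?_)
    simp only
    set M := Yp S m σ (√q.t0 • g) with hM
    have e0 : Inc S q.s1 q.s2 M = fun u => ∑ i, ∑ j, M i j *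
        (Aw S q.s1 q.s2 (A2 S q.s2 i j) u - A2 S q.s1 i j u) :=
      funext fun u => Inc_eq hT.h2 hT.h3 M u
    have e9 : ∀ i j, EG fun u => Aw S q.s1 q.s2 (A2 S q.s2 i j) u - A2 S q.s1 i j u := fun i j =>
      (eg_Aw S q.s1 q.s2 (eg_A2 S q.s2 i j)).sub (eg_A2 S q.s1 i j)
    rw [e0, E1_sum2 hm M e9]
    rw [Fintype.sum_prod_type, Fin.sum_univ_four, Fintype.sum_prod_type, Fintype.sum_prod_type,
      Fintype.sum_prod_type, Fintype.sum_prod_type, Fintype.sum_prod_type, Fintype.sum_prod_type,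
      Fintype.sum_prod_type, Fintype.sum_prod_type, ← Finset.sum_add_distrib,
      ← Finset.sum_add_distrib, ← Finset.sum_add_distrib]
    refine Finset.sum_congr rfl fun i _ => ?_
    rw [← Finset.sum_add_distrib, ← Finset.sum_add_distrib, ← Finset.sum_add_distrib]
    refine Finset.sum_congr rfl fun j _ => ?_
    simp only [Fin.isValue, if_true, one_ne_zero, if_false, Fin.reduceEq, one_mul]
    rw [← Finset.mul_sum, ← Finset.mul_sum, ← Finset.mul_sum, ← Finset.mul_sum, ← mul_add,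
      ← mul_add, ← mul_add, ← Finset.sum_add_distrib, ← Finset.sum_add_distrib,
      ← Finset.sum_add_distrib]
    congr 1
    have b1 : Aw S q.s1 q.s2 (fun _ => (1 : ℝ)) = fun _ => 1 :=
      funext fun u => Aw_const S q.s1 q.s2 1 u
    have b2 : ∀ a b, Aw S q.s1 q.s2 (fun v => S.A q.s2 v a b) = fun u => S.A q.s1 u a b :=
      fun a b => funext fun u => (A_tw S hT.h2 hT.h3 u a b).symm
    simp only [b1, b2, mul_one]
    have b3 : (fun u => Aw S q.s1 q.s2 (A2 S q.s2 i j) u - A2 S q.s1 i j u) = fun u =>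
        ∑ p, (Aw S q.s1 q.s2 (fun v => S.A q.s2 v i p * S.A q.s2 v p j) u +
          (-1) * (S.A q.s1 u i p * S.A q.s1 u p j)) := by
      funext u
      have h5 : Aw S q.s1 q.s2 (A2 S q.s2 i j) u =
          ∑ p, Aw S q.s1 q.s2 (fun v => S.A q.s2 v i p * S.A q.s2 v p j) u :=
        Aw_sum S q.s1 q.s2 Finset.univ (fun p _ => (S.eg_A q.s2 i p).mul (S.eg_A q.s2 p j)) u
      rw [h5, Finset.sum_add_distrib, ← Finset.mul_sum]
      unfold H693.A2
      ring
    rw [b3]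
    have c1 : ∀ p, EG fun u => Aw S q.s1 q.s2 (fun v => S.A q.s2 v i p * S.A q.s2 v p j) u :=
      fun p => eg_Aw S q.s1 q.s2 ((S.eg_A q.s2 i p).mul (S.eg_A q.s2 p j))
    have c2 : ∀ p, EG fun u => S.A q.s1 u i p * S.A q.s1 u p j := fun p =>
      (S.eg_A q.s1 i p).mul (S.eg_A q.s1 p j)
    rw [E1_sum hm Finset.univ fun p _ => (c1 p).add ((c2 p).const_mul (-1))]
    refine Finset.sum_congr rfl fun p _ => ?_
    rw [E1_add hm (c1 p) ((c2 p).const_mul (-1)), E1_const_mul]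
    have d1 : (fun u => -S.A q.s1 u i p * S.A q.s1 u p j) = fun u => (-1) *
        (S.A q.s1 u i p * S.A q.s1 u p j) := by funext u; ring
    have d2 : (fun u => -S.A q.s1 u p j * S.A q.s1 u i p) = fun u => (-1) *
        (S.A q.s1 u i p * S.A q.s1 u p j) := by funext u; ring
    rw [d1, d2, E1_const_mul]
    ring

/-- `E <Y, ∑_e (D_e C_1)²>` -/
theorem EwG_EnQ (hT : Tm q y l) (hs : Stk q y l m σ) :
    EwG q (R1C.GTwo q y l S.F S.D) S.F (fun w => H655.En S q.s1 (Yp S m σ (P0 q w)) (P2 q w)) =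
      EnQ S q.t1 m σ 2 (√q.t0) q.s1 := by
  have hm := hs.pm hT.hy
  have h := EwG_sum (S := S) hT hs (Finset.univ : Finset (Fin n × Fin n))
    (a := fun r z => Yp S m σ z r.1 r.2) (χ := fun r => dd2 S q.s1 r.1 r.2) (φ := fun _ _ => 1)
    (fun r _ => eg_Yp hT hs _ _) (fun r _ => eg_dd2 q.s1 _ _) (fun _ _ => EG.const 1)
  have e1 : Aw S q.s1 q.s2 (fun _ => (1 : ℝ)) = fun _ => 1 :=
    funext fun u => Aw_const S q.s1 q.s2 1 u
  simp only [mul_one, e1, Fintype.sum_prod_type] at h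
  refine Eq.trans ?_ (h.trans ?_)
  · congr 1
    funext w
    exact En_dd2 q.s1 _ _
  · unfold EnQ
    refine integral_congr_ae (Filter.Eventually.of_forall fun g => ?_)
    simp only
    have e2 : H655.En S q.s1 (Q1 S q.t1 m σ 2 q.s1 (√q.t0 • g)) = fun u => ∑ i, ∑ j,
        Q1 S q.t1 m σ 2 q.s1 (√q.t0 • g) i j * dd2 S q.s1 i j u := funext fun u => En_dd2 q.s1 _ u
    rw [e2, E1_sum2 hm _ fun i j => eg_dd2 q.s1 i j]
    rfl

end Vale.Agent.P146.H713.En2
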