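import Vale.Agent.P146.H713.Deep
import Vale.Agent.P146.H713.SkC2

/-!
The deep functional of a Gibbs measure, seen from a position: the means `pA` of the observables
under the root law, the covariances `pK` (derivatives of `pA`).
-/

open MeasureTheory ProbabilityTheory

namespace Vale.Agent.P146.R1

open Vale.Agent.P157.Lv Vale.Agent.P146.H425 Vale.Agent.P146.H325 Vale.Agent.P146.H332
open Vale.Agent.P146.H785 (Ax HW lf)

set_option linter.unusedSectionVars false

variable {ι : Type} [Fintype ι] [DecidableEq ι] {X : Type} [Fintype X] [Nonempty X]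

/-! ### scalars -/

section smul

variable {F c φ ψ : (ι → ℝ) → ℝ} {x s : ℝ} {m σ : ℕ → ℝ}

lemma KW_smul (a : ℝ) (y : ι → ℝ) :
    KW x s F (fun u => a * c u) φ (fun u => a * ψ u) y = a * KW x s F c φ ψ y := by
  unfold KW
  have e : (fun u => φ u * (a * ψ u)) = fun u => a * (φ u * ψ u) := by funext u; ring
  rw [e, H785.Ax_const_mul, H785.Ax_const_mul, H785.Ax_const_mul]
  ring

lemma KD_smul (a : ℝ) : ∀ i, KD F m σ (fun u => a * c u) φ (fun u => a * ψ u) i =
    fun y => a * KD F m σ c φ ψ i y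
  | 0 => rfl
  | i + 1 => by
    funext y
    rw [KD_succ, KD_succ, KD_smul a i, TD_const_mul, KW_smul]

end smul

variable (k : ℝ) (S : ι → X → ℝ) (m σ : ℕ → ℝ) (J : ℕ) (x t : ℝ)

/-- the thermal covariance -/
noncomputable def tc (h g : X → ℝ) (u : ι → ℝ) : ℝ :=
  av k S (fun τ => h τ * g τ) u - av k S h u * av k S g u

/-- the deep functional of the Gibbs measure -/
noncomputable def Fdp : (ι → ℝ) → ℝ := FD (lz k S) m σ J

/-- its gradient -/
noncomputable def Ddp (e : ι) : (ι → ℝ) → ℝ := TD (lz k S) m σ (Dz k S e) J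

/-- The mean of `h` at a position. -/
noncomputable def pA (h : X → ℝ) : (ι → ℝ) → ℝ :=
  Ax x (√(1 - t)) (FD (lz k S) m σ J) (TD (lz k S) m σ (av k S h) J)

/-- The covariance of `h` and `g` at a position. -/
noncomputable def pK (h g : X → ℝ) : (ι → ℝ) → ℝ :=
  KW x (√(1 - t)) (FD (lz k S) m σ J) (KD (lz k S) m σ (tc k S h g) (av k S h) (av k S g) J)
    (TD (lz k S) m σ (av k S h) J) (TD (lz k S) m σ (av k S g) J)

variable {k S m σ J x t} {h g : X → ℝ}

lemma c11_Fdp (hE : Exs m J x) : C11 (FD (lz k S) m σ J)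
    (fun e => TD (lz k S) m σ (Dz k S e) J) (Kb k S)
    (LD (Kb k S) (3 * Kb k S ^ 2) (Fintype.card ι) m J) :=
  c11_FD (sm_lz k S).c11 J (hE.pos' le_rfl)

lemma cv_Fdp (hE : Exs m J x) : Cv (FD (lz k S) m σ J) :=
  cv_FD (sm_lz k S).c11 (cv_lz k S) J (hE.pos' le_rfl)

theorem sm_Fdp (hE : Exs m J x) : Sm (FD (lz k S) m σ J)
    (fun e => TD (lz k S) m σ (Dz k S e) J) (Kb k S)
    (LD (Kb k S) (3 * Kb k S ^ 2) (Fintype.card ι) m J)
    (fun e f => KD (lz k S) m σ (Hz k S e f) (Dz k S e) (Dz k S f) J)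
    (T3D (lz k S) m σ (Dz k S) (Hz k S) (Tz k S) J) (MD (Kb k S) (2 * Kb k S ^ 2) m J) :=
  sm_FD (sm_lz k S) J (hE.pos' le_rfl)

lemma eg_tc : EG (tc k S h g) := (eg_av k S _).sub ((eg_av k S h).mul (eg_av k S g))

lemma cont_tc : Continuous (tc k S h g) :=
  (cont_av k S _).sub ((cont_av k S h).mul (cont_av k S g))

section

variable (hE : Exs m J x)
include hE

lemma eg_dA (h : X → ℝ) : EG (TD (lz k S) m σ (av k S h) J) :=
  eg_TD (sm_lz k S).c11 (eg_av k S h) J (hE.pos' le_rfl)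

lemma cont_dA (h : X → ℝ) : Continuous (TD (lz k S) m σ (av k S h) J) :=
  cont_TD (sm_lz k S).c11 (eg_av k S h) (cont_av k S h) J (hE.pos' le_rfl)

lemma eg_dK (h g : X → ℝ) : EG (KD (lz k S) m σ (tc k S h g) (av k S h) (av k S g) J) :=
  eg_KD (sm_lz k S).c11 eg_tc (eg_av k S h) (eg_av k S g) J (hE.pos' le_rfl)

lemma cont_dK (h g : X → ℝ) :
    Continuous (KD (lz k S) m σ (tc k S h g) (av k S h) (av k S g) J) :=
  cont_KD (sm_lz k S).c11 eg_tc (eg_av k S h) (eg_av k S g) cont_tc (cont_av k S h)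
    (cont_av k S g) J (hE.pos' le_rfl)

lemma eg_pA (t : ℝ) (h : X → ℝ) : EG (pA k S m σ J x t h) :=
  eg_Ax (c11_Fdp hE) (eg_dA hE h) x _

lemma cont_pA (t : ℝ) (h : X → ℝ) : Continuous (pA k S m σ J x t h) :=
  cont_Ax (c11_Fdp hE) (eg_dA hE h) (cont_dA hE h) x _

lemma eg_pK (t : ℝ) (h g : X → ℝ) : EG (pK k S m σ J x t h g) :=
  eg_KW (c11_Fdp hE) (eg_dK hE h g) (eg_dA hE h) (eg_dA hE g) x _

lemma cont_pK (t : ℝ) (h g : X → ℝ) : Continuous (pK k S m σ J x t h g) :=
  cont_KW (c11_Fdp hE) (eg_dK hE h g) (eg_dA hE h) (eg_dA hE g) (cont_dK hE h g)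
    (cont_dA hE h) (cont_dA hE g) x _

lemma pA_lin {K : Type*} (A : Finset K) (v : K → ℝ) (h : K → X → ℝ) (z : ι → ℝ) :
    pA k S m σ J x t (fun τ => ∑ a ∈ A, v a * h a τ) z =
      ∑ a ∈ A, v a * pA k S m σ J x t (h a) z := by
  have e1 : av k S (fun τ => ∑ a ∈ A, v a * h a τ) = fun u => ∑ a ∈ A, v a * av k S (h a) u := by
    funext u
    rw [av_sum]
    exact Finset.sum_congr rfl fun a _ => av_mul k S _ _ u
  unfold pA
  rw [e1, TD_lin (sm_lz k S).c11 A v (fun a _ => eg_av k S (h a)) J (hE.pos' le_rfl)]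
  exact Ax_lin (c11_Fdp hE) A v (fun a _ => eg_dA hE (h a)) x _ z

lemma pA_const (a : ℝ) (z : ι → ℝ) : pA k S m σ J x t (fun _ => a) z = a := by
  have e1 : av k S (fun _ : X => a) = fun _ => a := funext fun u => av_const k S a u
  unfold pA
  rw [e1, TD_const (sm_lz k S).c11 a J (hE.pos' le_rfl)]
  have hc := c11_Fdp (k := k) (S := S) (σ := σ) hE
  exact H785.Ax_const hc.lip hc.B0 a _ _ z

lemma pA_mono {h g : X → ℝ} (hle : ∀ τ, h τ ≤ g τ) (z : ι → ℝ) :
    pA k S m σ J x t h z ≤ pA k S m σ J x t g z := by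
  have hc := c11_Fdp (k := k) (S := S) (σ := σ) hE
  exact H785.Ax_mono hc.lip hc.B0 (eg_dA hE h) (eg_dA hE g)
    (TD_mono (sm_lz k S).c11 (eg_av k S h) (eg_av k S g) (fun u => av_mono k S hle u) J
      (hE.pos' le_rfl)) _ _ z

lemma pA_nonneg {h : X → ℝ} (hle : ∀ τ, 0 ≤ h τ) (z : ι → ℝ) :
    0 ≤ pA k S m σ J x t h z := by
  have := pA_mono (k := k) (S := S) (σ := σ) (t := t) hE (h := fun _ => 0) hle z
  rwa [pA_const hE] at this

lemma abs_pA_le {h : X → ℝ} {C : ℝ} (hC : ∀ τ, |h τ| ≤ C) (z : ι → ℝ) :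
    |pA k S m σ J x t h z| ≤ C := by
  have h1 := pA_mono (k := k) (S := S) (σ := σ) (t := t) hE (h := fun _ => -C)
    (fun τ => (abs_le.1 (hC τ)).1) z
  have h2 := pA_mono (k := k) (S := S) (σ := σ) (t := t) hE (g := fun _ => C)
    (fun τ => (abs_le.1 (hC τ)).2) z
  rw [pA_const hE] at h1 h2
  exact abs_le.2 ⟨h1, h2⟩

lemma pK_bil {K K' : Type*} (A : Finset K) (A' : Finset K') (v : K → ℝ) (w : K' → ℝ)
    (h : K → X → ℝ) (g : K' → X → ℝ) (z : ι → ℝ) :
    pK k S m σ J x t (fun τ => ∑ a ∈ A, v a * h a τ) (fun τ => ∑ b ∈ A', w b * g b τ) z =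
      ∑ a ∈ A, ∑ b ∈ A', v a * w b * pK k S m σ J x t (h a) (g b) z := by
  have e1 : ∀ {L : Type _} (A : Finset L) (v : L → ℝ) (h : L → X → ℝ),
      av k S (fun τ => ∑ a ∈ A, v a * h a τ) = fun u => ∑ a ∈ A, v a * av k S (h a) u := by
    intro L A v h
    funext u
    rw [av_sum]
    exact Finset.sum_congr rfl fun a _ => av_mul k S _ _ u
  have e2 : ∀ {L : Type _} (A : Finset L) (v : L → ℝ) (h : L → X → ℝ),
      av k S (fun τ => ∑ a ∈ A, v a * h a τ) = fun u => ∑ a ∈ A, v a * av k S (h a) u := by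
    intro L A v h
    funext u
    rw [av_sum]
    exact Finset.sum_congr rfl fun a _ => av_mul k S _ _ u
  have e3 : tc k S (fun τ => ∑ a ∈ A, v a * h a τ) (fun τ => ∑ b ∈ A', w b * g b τ) =
      fun u => ∑ a ∈ A, ∑ b ∈ A', v a * w b * tc k S (h a) (g b) u := by
    funext u
    unfold tc
    have e4 : (fun τ => (∑ a ∈ A, v a * h a τ) * ∑ b ∈ A', w b * g b τ) =
        fun τ => ∑ a ∈ A, ∑ b ∈ A', v a * w b * (h a τ * g b τ) := by
      funext τ
      rw [Finset.sum_mul_sum]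
      exact Finset.sum_congr rfl fun a _ => Finset.sum_congr rfl fun b _ => by ring
    rw [e4, e1, e2, av_sum]
    simp only [av_sum, av_mul]
    rw [Finset.sum_mul_sum, ← Finset.sum_sub_distrib]
    refine Finset.sum_congr rfl fun a _ => ?_
    rw [← Finset.sum_sub_distrib]
    exact Finset.sum_congr rfl fun b _ => by ring
  have hm := hE.pos' (i := J) le_rfl
  unfold pK
  rw [e1, e2, e3, KD_bil (sm_lz k S).c11 A A' v w (fun _ _ _ _ => eg_tc)
    (fun a _ => eg_av k S (h a)) (fun b _ => eg_av k S (g b)) J hm,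
    TD_lin (sm_lz k S).c11 A v (fun a _ => eg_av k S (h a)) J hm,
    TD_lin (sm_lz k S).c11 A' w (fun a _ => eg_av k S (g a)) J hm]
  exact KW_bil (c11_Fdp hE) A A' v w (fun a _ b _ => eg_dK hE (h a) (g b))
    (fun a _ => eg_dA hE (h a)) (fun b _ => eg_dA hE (g b)) x _ z

omit hE in
lemma tc_nonneg (h : X → ℝ) (u : ι → ℝ) : 0 ≤ tc k S h h u := by
  have h1 := av_sq_le k S h u
  unfold tc
  have e : (fun τ => h τ * h τ) = fun τ => h τ ^ 2 := by funext τ; ring
  rw [e]
  nlinarith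

/-- **The covariance is nonnegative.** -/
lemma pK_nonneg (h : X → ℝ) (z : ι → ℝ) : 0 ≤ pK k S m σ J x t h h z :=
  KW_nonneg (c11_Fdp hE) hE.x0.le (eg_dA hE h) (fun u => KD_nonneg (sm_lz k S).c11 eg_tc
    (eg_av k S h) (tc_nonneg h) J (hE.pos' le_rfl) u) _ z

/-- **(row)** -/
lemma pK_le (h : X → ℝ) (z : ι → ℝ) : pK k S m σ J x t h h z +
    x * pA k S m σ J x t h z ^ 2 ≤ pA k S m σ J x t (fun τ => h τ * h τ) z :=
  KW_le (c11_Fdp hE) hE.top (eg_dK hE h h) (eg_dA hE h) (eg_dA hE fun τ => h τ * h τ)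
    (fun u => KD_le (sm_lz k S).c11 hE eg_tc (eg_av k S h) (eg_av k S fun τ => h τ * h τ)
      (fun u => by unfold tc; linarith) J le_rfl u) _ z

/-- **(Kov)** -/
lemma pK_kov (h : X → ℝ) (z : ι → ℝ) : x * (pA k S m σ J x t (fun τ => h τ * h τ) z -
    pA k S m σ J x t h z ^ 2) ≤ pK k S m σ J x t h h z ∧
    pA k S m σ J x t h z ^ 2 ≤ pA k S m σ J x t (fun τ => h τ * h τ) z := by
  have key := KD_kov (σ := σ) (sm_lz k S).c11 hE (c := tc k S h h) eg_tc (eg_av k S h)
    (eg_av k S fun τ => h τ * h τ)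
    (fun u => by unfold tc; linarith) (fun u => by
      have h1 := av_sq_le k S h u
      have e : (fun τ => h τ * h τ) = fun τ => h τ ^ 2 := by funext τ; ring
      rwa [e]) J le_rfl
  exact KW_kov (c11_Fdp hE) hE.top (eg_dK hE h h) (eg_dA hE h) (eg_dA hE fun τ => h τ * h τ)
    (fun u => (key u).1) (fun u => (key u).2) _ z

lemma pK_one (h : X → ℝ) (z : ι → ℝ) : pK k S m σ J x t h (fun _ => 1) z = 0 := by
  have e1 : av k S (fun _ : X => (1 : ℝ)) = fun _ => 1 := funext fun u => av_one k S u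
  have e2 : tc k S h (fun _ => 1) = fun _ => 0 := by
    funext u
    unfold tc
    simp only [mul_one, av_one]
    ring
  have hm := hE.pos' (i := J) le_rfl
  unfold pK
  rw [e1, e2, KD_one (sm_lz k S).c11 J hm, TD_const (sm_lz k S).c11 1 J hm]
  exact KW_one (c11_Fdp hE) _ _ z

omit hE in
lemma pK_symm (h g : X → ℝ) (z : ι → ℝ) :
    pK k S m σ J x t h g z = pK k S m σ J x t g h z := by
  have e : tc k S h g = tc k S g h := by
    funext u
    unfold tc
    have : (fun τ => h τ * g τ) = fun τ => g τ * h τ := by funext τ; ring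
    rw [this]
    ring
  unfold pK
  rw [KW_symm, KD_symm, e]

omit hE in
lemma fb_av (h : X → ℝ) : Fb (av k S h) (fun e u => k * tc k S h (S e) u) :=
  ⟨(c2_av k S h).fd, eg_av k S h, fun e => eg_tc.const_mul k,
    fun e => continuous_const.mul cont_tc⟩

/-- **The derivative of a mean at a position.** -/
theorem fb_pA (t : ℝ) (h : X → ℝ) : Fb (pA k S m σ J x t h)
    (fun e z => k * pK k S m σ J x t h (S e) z) := by
  have hD : ∀ e, Continuous (Dz k S e) := (sm_lz k S).ctD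
  have h1 := fb_TD (σ := σ) (sm_lz k S).c11 hD (fb_av (k := k) (S := S) h) J
    (hE.pos' le_rfl)
  have h2 := h1.Ax (c11_Fdp (k := k) (S := S) (σ := σ) hE) (fun e => cont_TD (sm_lz k S).c11
    (C11.egD (sm_lz k S).c11 e) (hD e) J (hE.pos' le_rfl)) x (√(1 - t))
  have e1 : ∀ e, KW x (√(1 - t)) (FD (lz k S) m σ J)
      (KD (lz k S) m σ (fun u => k * tc k S h (S e) u) (av k S h) (Dz k S e) J)
      (TD (lz k S) m σ (av k S h) J) (TD (lz k S) m σ (Dz k S e) J) =
      fun z => k * pK k S m σ J x t h (S e) z := by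
    intro e
    have e2 : Dz k S e = fun u => k * av k S (S e) u := rfl
    funext z
    rw [e2, KD_smul, TD_const_mul, KW_smul]
    rfl
  have e3 : (fun e => KW x (√(1 - t)) (FD (lz k S) m σ J)
      (KD (lz k S) m σ (fun u => k * tc k S h (S e) u) (av k S h) (Dz k S e) J)
      (TD (lz k S) m σ (av k S h) J) (TD (lz k S) m σ (Dz k S e) J)) =
      fun e z => k * pK k S m σ J x t h (S e) z := funext e1
  rw [← e3]
  exact h2

/-- the gradient of the value function -/
lemma dd_pA (e : ι) (z : ι → ℝ) : dd x t (FD (lz k S) m σ J)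
    (fun e => TD (lz k S) m σ (Dz k S e) J) e z = k * pA k S m σ J x t (S e) z := by
  have e2 : Dz k S e = fun u => k * av k S (S e) u := rfl
  show Ax x (√(1 - t)) (FD (lz k S) m σ J) (TD (lz k S) m σ (Dz k S e) J) z = _
  rw [e2, TD_const_mul, H785.Ax_const_mul]
  rfl

/-- the Hessian of the value function -/
lemma hh_pK (e f : ι) (z : ι → ℝ) : hh x t (FD (lz k S) m σ J)
    (fun e => TD (lz k S) m σ (Dz k S e) J)
    (fun e f => KD (lz k S) m σ (Hz k S e f) (Dz k S e) (Dz k S f) J) e f z =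
    k ^ 2 * pK k S m σ J x t (S e) (S f) z := by
  have h1 := fb_pA (k := k) (S := S) (m := m) (σ := σ) (J := J) hE t (S e)
  have hD : ∀ e, Dz k S e = fun u => k * av k S (S e) u := fun e => rfl
  show KW x (√(1 - t)) (FD (lz k S) m σ J)
    (KD (lz k S) m σ (Hz k S e f) (Dz k S e) (Dz k S f) J)
    (TD (lz k S) m σ (Dz k S e) J) (TD (lz k S) m σ (Dz k S f) J) z = _
  have e3 : Hz k S e f = fun u => k * (k * tc k S (S e) (S f) u) := by
    funext u
    unfold Hz tc
    ring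
  rw [e3, hD e, hD f, KD_smul, TD_const_mul, TD_const_mul, KW_smul, KD_symm, KD_smul, KW_symm,
    KW_smul, KD_symm, KW_symm]
  unfold pK
  ring

end

/-! ### the root law -/

section root

variable [DecidableEq X]

variable (k S m σ J x t) in
/-- the root law at a position -/
noncomputable def pmu (z : ι → ℝ) (τ : X) : ℝ :=
  pA k S m σ J x t (fun τ' => if τ' = τ then 1 else 0) z

variable (hE : Exs m J x)
include hE

lemma pmu_nonneg (z : ι → ℝ) (τ : X) : 0 ≤ pmu k S m σ J x t z τ :=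
  pA_nonneg hE (fun τ' => by split_ifs <;> norm_num) z

/-- means as sums over the root law -/
lemma pA_pmu (h : X → ℝ) (z : ι → ℝ) :
    pA k S m σ J x t h z = ∑ τ, pmu k S m σ J x t z τ * h τ := by
  have e : h = fun τ' => ∑ τ, h τ * (if τ' = τ then 1 else 0) := by
    funext τ'
    simp
  have h1 := pA_lin (k := k) (S := S) (m := m) (σ := σ) (J := J) (x := x) (t := t) hE
    Finset.univ h (fun τ τ' => if τ' = τ then 1 else 0) z
  conv_lhs => rw [e]
  rw [h1]
  exact Finset.sum_congr rfl fun τ _ => mul_comm _ _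

lemma sum_pmu (z : ι → ℝ) : ∑ τ, pmu k S m σ J x t z τ = 1 := by
  have h1 := pA_pmu (k := k) (S := S) (σ := σ) (t := t) hE (fun _ => 1) z
  rw [pA_const hE] at h1
  simpa using h1.symm

lemma eg_pmu (t : ℝ) (τ : X) : EG fun z => pmu k S m σ J x t z τ := eg_pA hE t _

end root

/-! ### symmetries -/

section sym

variable {A : (ι → ℝ) → ι → ℝ} (hA : GS A) (hlz : ∀ u, lz k S (A u) = lz k S u)
  (hE : Exs m J x)
include hA hlz hE

lemma Fdp_GS (z : ι → ℝ) : FD (lz k S) m σ J (A z) = FD (lz k S) m σ J z :=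
  FD_GS (sm_lz k S).c11 hA hlz J (hE.pos' le_rfl) z

lemma pA_GS {h h' : X → ℝ} (hh : ∀ u, av k S h (A u) = av k S h' u) (z : ι → ℝ) :
    pA k S m σ J x t h (A z) = pA k S m σ J x t h' z := by
  have e : (fun u => av k S h (A u)) = av k S h' := funext hh
  unfold pA
  rw [Ax_GS hA (c11_Fdp (k := k) (S := S) (σ := σ) hE).eg.meas (eg_dA hE h).meas
    (Fdp_GS hA hlz hE)]
  congr 1
  funext u
  rw [TD_GS (sm_lz k S).c11 hA (eg_av k S h) (by rw [e]; exact eg_av k S h') hlz J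
    (hE.pos' le_rfl), e]

lemma pA_GS_neg {h h' : X → ℝ} (hh : ∀ u, av k S h (A u) = -av k S h' u) (z : ι → ℝ) :
    pA k S m σ J x t h (A z) = -pA k S m σ J x t h' z := by
  have e : (fun u => av k S h (A u)) = fun u => -av k S h' u := funext hh
  unfold pA
  rw [Ax_GS hA (c11_Fdp (k := k) (S := S) (σ := σ) hE).eg.meas (eg_dA hE h).meas
    (Fdp_GS hA hlz hE), ← Ax_neg]
  congr 1
  funext u
  rw [TD_GS (sm_lz k S).c11 hA (eg_av k S h) (by rw [e]; exact (eg_av k S h').neg) hlz J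
    (hE.pos' le_rfl), e, TD_neg]

lemma pK_GS_neg {h h' g g' : X → ℝ} (hh : ∀ u, av k S h (A u) = -av k S h' u)
    (hg : ∀ u, av k S g (A u) = -av k S g' u)
    (hhg : ∀ u, av k S (fun τ => h τ * g τ) (A u) = av k S (fun τ => h' τ * g' τ) u)
    (z : ι → ℝ) : pK k S m σ J x t h g (A z) = pK k S m σ J x t h' g' z := by
  have e : (fun u => av k S h (A u)) = fun u => -av k S h' u := funext hh
  have e' : (fun u => av k S g (A u)) = fun u => -av k S g' u := funext hg
  have e'' : (fun u => tc k S h g (A u)) = tc k S h' g' := by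
    funext u
    unfold tc
    rw [hh, hg, hhg]
    ring
  have hm := hE.pos' (i := J) le_rfl
  have g1 : EG fun u => av k S h (A u) := by rw [e]; exact (eg_av k S h').neg
  have g2 : EG fun u => av k S g (A u) := by rw [e']; exact (eg_av k S g').neg
  unfold pK
  rw [KW_GS hA (c11_Fdp (k := k) (S := S) (σ := σ) hE).eg.meas (eg_dK hE h g).meas
    (eg_dA hE h).meas (eg_dA hE g).meas (Fdp_GS hA hlz hE)]
  have a1 : (fun u => KD (lz k S) m σ (tc k S h g) (av k S h) (av k S g) J (A u)) =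
      KD (lz k S) m σ (tc k S h' g') (av k S h') (av k S g') J := by
    funext u
    rw [KD_GS (sm_lz k S).c11 hA eg_tc (eg_av k S h) (eg_av k S g) g1 g2 hlz J hm, e, e', e'',
      KD_neg]
  have a2 : (fun u => TD (lz k S) m σ (av k S h) J (A u)) =
      fun u => -TD (lz k S) m σ (av k S h') J u := by
    funext u
    rw [TD_GS (sm_lz k S).c11 hA (eg_av k S h) g1 hlz J hm, e, TD_neg]
  have a3 : (fun u => TD (lz k S) m σ (av k S g) J (A u)) =
      fun u => -TD (lz k S) m σ (av k S g') J u := by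
    funext u
    rw [TD_GS (sm_lz k S).c11 hA (eg_av k S g) g2 hlz J hm, e', TD_neg]
  rw [a1, a2, a3, KW_neg]

end sym

end Vale.Agent.P146.R1
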