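import Vale.Agent.P146.H713.En3

/-!
The pair of late times `t < s`, part 2: the rates at the second time with the weight
`<Q_1(t), C_t²>` of the first time; exchange of the weights of the two times.
-/

open MeasureTheory ProbabilityTheory

namespace Vale.Agent.P146.H713.En2

open Vale.Agent.P157.Lv Vale.Agent.P146.H425 Vale.Agent.P146.H325 Vale.Agent.P146.H332
  Vale.Agent.P146.H712 Vale.Agent.P146.H816 Vale.Agent.P146.R1 Vale.Agent.P146.R1C Matrix
  Vale.Agent.P146.R1S Vale.Agent.P146.H693 Vale.Agent.P146.H655 Vale.Agent.P146.H946.En2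
open Vale.Agent.P146.H785 (Ax)

set_option linter.unusedSectionVars false

variable {n : ℕ} {k x : ℝ} {S : CS n k x} {w t t' s s' : ℝ} {m σ : ℕ → ℝ} {N : ℕ}
  {M : Matrix (Fin n) (Fin n) ℝ}

/-- `∑_e |D_e C_s|²` -/
def sD (S : CS n k x) (s : ℝ) (v : Pair n → ℝ) : ℝ := ∑ e : Pair n, fr (S.DA s e v)

lemma sD_nonneg (s : ℝ) (v : Pair n → ℝ) : 0 ≤ sD S s v :=
  Finset.sum_nonneg fun _ _ => Finset.sum_nonneg fun _ _ => Finset.sum_nonneg fun _ _ =>
    sq_nonneg _

/-- the trace of the increments -/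
lemma Inc_one (t t' : ℝ) (u : Pair n → ℝ) : Inc S t t' 1 u = IncF S t t' u := by
  unfold Inc IncF
  congr 1
  funext v
  unfold dF H655.dA2 dA
  rw [Fintype.sum_prod_type]
  refine Finset.sum_congr rfl fun i _ => ?_
  rw [Finset.sum_eq_single i]
  · rw [Matrix.one_apply_eq, one_mul]
    refine Finset.sum_congr rfl fun l _ => ?_
    rw [S.A_comm t' v l i, S.A_comm t u l i, _root_.sq]
  · intro j _ hj
    rw [Matrix.one_apply_ne hj.symm, zero_mul]
  · intro h; exact absurd (Finset.mem_univ i) h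

/-- one short step of the second time, at a position of the first time -/
lemma rt_pt (h1 : t ≤ s) (h2 : s < s') (h3 : s' ≤ 1) (hk : Sh S (s' - s)) (u : Pair n → ℝ) :
    (s' - s) * Aw S t s (sD S s) u ≤ 2 * (Aw S t s' (fun v => fr (S.A s' v)) u -
      Aw S t s (fun v => fr (S.A s v)) u) := by
  have hc := c11_uu S.c11 S.x0 s
  have a1 : Aw S t s (fun v => (s' - s) * sD S s v) u ≤
      Aw S t s (fun v => 2 * IncF S s s' v) u :=
    H785.Ax_mono hc.lip hc.B0 ((eg_sDA s).const_mul _) ((eg_IncF h2.le h3).const_mul 2)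
      (fun v => by
        have h := En_le (S := S) psd_one h2 h3 hk v
        rw [En_one, Inc_one] at h
        exact h) _ _ u
  rw [Aw_const_mul, Aw_const_mul] at a1
  have e2 : IncF S s s' = fun v => Aw S s s' (fun v => fr (S.A s' v)) v - fr (S.A s v) :=
    funext fun v => IncF_eq h2.le h3 v
  have e4 : (fun v => Aw S s s' (fun v => fr (S.A s' v)) v - fr (S.A s v)) = fun v =>
      Aw S s s' (fun v => fr (S.A s' v)) v + -1 * fr (S.A s v) := by funext v; ring
  rw [e2, e4, Aw_add S t s (eg_Aw S s s' (eg_frA s')) ((eg_frA s).const_mul (-1)), Aw_const_mul,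
    ← Aw_tower S h1 h2.le h3 (eg_frA s')] at a1
  linarith

/-- `E W |C_s|²`, `W = <Q_1(t), C_t²>` -/
noncomputable def NmT (S : CS n k x) (w : ℝ) (m σ : ℕ → ℝ) (N : ℕ) (c t s : ℝ) : ℝ :=
  ∫ g, E1 S w m σ N t (fun u => qF S t (Q1 S w m σ N t (c • g)) u *
    Aw S t s (fun v => fr (S.A s v)) u) (c • g) ∂(gI (Pair n))

/-- `E W ∑_e |D_e C_s|²`, `W = <Q_1(t), C_t²>` -/
noncomputable def RtT (S : CS n k x) (w : ℝ) (m σ : ℕ → ℝ) (N : ℕ) (c t s : ℝ) : ℝ :=
  ∫ g, E1 S w m σ N t (fun u => qF S t (Q1 S w m σ N t (c • g)) u * Aw S t s (sD S s) u)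
    (c • g) ∂(gI (Pair n))

/-- the mean of a nonnegative function of the second position with the weight `W` -/
noncomputable def EwT (S : CS n k x) (w : ℝ) (m σ : ℕ → ℝ) (N : ℕ) (c t s : ℝ)
    (f : (Pair n → ℝ) → ℝ) : ℝ :=
  ∫ g, E1 S w m σ N t (fun u => qF S t (Q1 S w m σ N t (c • g)) u * Aw S t s f u) (c • g)
    ∂(gI (Pair n))

lemma eg_EwT (hm : Pm m N) (c : ℝ) {f : (Pair n → ℝ) → ℝ} (hf : EG f) :
    EG fun g : Pair n → ℝ => E1 S w m σ N t
      (fun u => qF S t (Q1 S w m σ N t (c • g)) u * Aw S t s f u) (c • g) :=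
  eg_form hm (fun i j => eg_Q1 hm i j) (eg_Aw S t s hf) c

lemma EwT_nonneg (hm : Pm m N) (c t s : ℝ) {f : (Pair n → ℝ) → ℝ} (hf : ∀ u, 0 ≤ f u) :
    0 ≤ EwT S w m σ N c t s f :=
  integral_nonneg fun g => E1_nonneg (fun u => mul_nonneg (qF_nonneg (Q1_psd hm (c • g)) u)
    (Aw_nonneg S t s hf u)) (c • g)

lemma RtT_eq (c t s : ℝ) : RtT S w m σ N c t s = EwT S w m σ N c t s (sD S s) := rfl
lemma NmT_eq (c t s : ℝ) :
    NmT S w m σ N c t s = EwT S w m σ N c t s (fun v => fr (S.A s v)) := rfl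

lemma RtT_nonneg (hm : Pm m N) (c t s : ℝ) : 0 ≤ RtT S w m σ N c t s :=
  EwT_nonneg hm c t s fun u => sD_nonneg s u

lemma NmT_nonneg (hm : Pm m N) (c t s : ℝ) : 0 ≤ NmT S w m σ N c t s :=
  EwT_nonneg hm c t s fun u => frA_nonneg s u

/-- comparison of two functions of the first position under the weight -/
lemma cmp_T (hm : Pm m N) (c : ℝ) {φ ψ : (Pair n → ℝ) → ℝ} (hφ : EG φ) (hψ : EG ψ)
    (h : ∀ u, φ u ≤ ψ u) :
    ∫ g, E1 S w m σ N t (fun u => qF S t (Q1 S w m σ N t (c • g)) u * φ u) (c • g)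
      ∂(gI (Pair n)) ≤
    ∫ g, E1 S w m σ N t (fun u => qF S t (Q1 S w m σ N t (c • g)) u * ψ u) (c • g)
      ∂(gI (Pair n)) := by
  refine integral_mono (eg_form hm (fun i j => eg_Q1 hm i j) hφ c).integrable
    (eg_form hm (fun i j => eg_Q1 hm i j) hψ c).integrable fun g => ?_
  refine E1_mono hm ((eg_qF t _).mul hφ) ((eg_qF t _).mul hψ) (fun u => ?_) _
  exact mul_le_mul_of_nonneg_left (h u) (qF_nonneg (Q1_psd hm (c • g)) u)

lemma lin_T (hm : Pm m N) (c a b : ℝ) {φ ψ : (Pair n → ℝ) → ℝ} (hφ : EG φ) (hψ : EG ψ) :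
    ∫ g, E1 S w m σ N t (fun u => qF S t (Q1 S w m σ N t (c • g)) u * (a * φ u + b * ψ u))
      (c • g) ∂(gI (Pair n)) =
    a * (∫ g, E1 S w m σ N t (fun u => qF S t (Q1 S w m σ N t (c • g)) u * φ u) (c • g)
      ∂(gI (Pair n))) +
    b * ∫ g, E1 S w m σ N t (fun u => qF S t (Q1 S w m σ N t (c • g)) u * ψ u) (c • g)
      ∂(gI (Pair n)) := by
  have i1 := (eg_form (S := S) (w := w) (t := t) (σ := σ) hm
    (fun i j => eg_Q1 (S := S) (w := w) (t := t) (σ := σ) hm i j) hφ c).const_mul a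
  have i2 := (eg_form (S := S) (w := w) (t := t) (σ := σ) hm
    (fun i j => eg_Q1 (S := S) (w := w) (t := t) (σ := σ) hm i j) hψ c).const_mul b
  rw [← integral_const_mul, ← integral_const_mul, ← integral_add i1.integrable i2.integrable]
  refine integral_congr_ae (Filter.Eventually.of_forall fun g => ?_)
  simp only
  have e : (fun u => qF S t (Q1 S w m σ N t (c • g)) u * (a * φ u + b * ψ u)) = fun u =>
      a * (qF S t (Q1 S w m σ N t (c • g)) u * φ u) +
      b * (qF S t (Q1 S w m σ N t (c • g)) u * ψ u) := by funext u; ring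
  rw [e, E1_add hm (((eg_qF t _).mul hφ).const_mul a) (((eg_qF t _).mul hψ).const_mul b),
    E1_const_mul, E1_const_mul]

/-- **The step inequality for the rates at the second time.** -/
theorem RtT_le (hm : Pm m N) (c : ℝ) (h1 : t ≤ s) (h2 : s < s') (h3 : s' ≤ 1)
    (hk : Sh S (s' - s)) :
    (s' - s) * RtT S w m σ N c t s ≤ 2 * (NmT S w m σ N c t s' - NmT S w m σ N c t s) := by
  have e1 : EG (Aw S t s (sD S s)) := eg_Aw S t s (eg_sDA s)
  have e2 := eg_Aw S t s' (eg_frA (S := S) s')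
  have e3 := eg_Aw S t s (eg_frA (S := S) s)
  have a1 := cmp_T (S := S) (w := w) (t := t) (σ := σ) hm c
    ((e1.const_mul (s' - s)).add ((e1.const_mul 0)))
    ((e2.const_mul 2).add (e3.const_mul (-2))) fun u => by
      have := rt_pt (S := S) h1 h2 h3 hk u
      linarith
  rw [lin_T hm c (s' - s) 0 e1 e1, lin_T hm c 2 (-2) e2 e3] at a1
  have b1 : RtT S w m σ N c t s = ∫ g, E1 S w m σ N t (fun u =>
    qF S t (Q1 S w m σ N t (c • g)) u * Aw S t s (sD S s) u) (c • g) ∂(gI (Pair n)) := rfl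
  rw [← b1] at a1
  have b2 : NmT S w m σ N c t s' = ∫ g, E1 S w m σ N t (fun u => qF S t (Q1 S w m σ N t (c • g)) u *
    Aw S t s' (fun v => fr (S.A s' v)) u) (c • g) ∂(gI (Pair n)) := rfl
  have b3 : NmT S w m σ N c t s = ∫ g, E1 S w m σ N t (fun u => qF S t (Q1 S w m σ N t (c • g)) u *
    Aw S t s (fun v => fr (S.A s v)) u) (c • g) ∂(gI (Pair n)) := rfl
  rw [← b2, ← b3] at a1
  linarith

/-- `E W |C_s|² = E W |C_t|² + E W |C_s - C_t|²` -/
theorem NmT_inc (hm : Pm m N) (c : ℝ) (h1 : t ≤ s) (h2 : s ≤ 1) :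
    NmT S w m σ N c t s = QNQ S w m σ N c t + IncT S w m σ N c t s := by
  have e2 := eg_frA (S := S) t
  have e3 := eg_IncF (S := S) h1 h2
  have a1 := lin_T (S := S) (w := w) (t := t) (σ := σ) hm c 1 1 e2 e3
  rw [one_mul, one_mul] at a1
  have b1 : QNQ S w m σ N c t = ∫ g, E1 S w m σ N t (fun u =>
    qF S t (Q1 S w m σ N t (c • g)) u * fr (S.A t u)) (c • g) ∂(gI (Pair n)) := rfl
  have b2 : IncT S w m σ N c t s = ∫ g, E1 S w m σ N t (fun u =>
    qF S t (Q1 S w m σ N t (c • g)) u * IncF S t s u) (c • g) ∂(gI (Pair n)) := rfl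
  rw [b1, b2, ← a1]
  unfold NmT
  refine integral_congr_ae (Filter.Eventually.of_forall fun g => ?_)
  simp only
  congr 1
  funext u
  rw [IncF_eq h1 h2]
  ring

/-- monotone in the second time -/
lemma NmT_mono (hm : Pm m N) (c : ℝ) (h1 : t ≤ s) (h2 : s ≤ s') (h3 : s' ≤ 1) :
    NmT S w m σ N c t s ≤ NmT S w m σ N c t s' := by
  refine cmp_T hm c (eg_Aw S t s (eg_frA s)) (eg_Aw S t s' (eg_frA s')) fun u => ?_
  rw [Aw_tower S h1 h2 h3 (eg_frA s')]
  have hc := c11_uu S.c11 S.x0 s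
  refine H785.Ax_mono hc.lip hc.B0 (eg_frA s) (eg_Aw S s s' (eg_frA s')) (fun v => ?_) _ _ u
  have h4 := IncF_eq (S := S) h2 h3 v
  have h5 := IncF_nonneg (S := S) s s' v
  linarith

/-- the weight is at most `n^4` -/
lemma qF_le (hm : Pm m N) (z u : Pair n → ℝ) : qF S t (Q1 S w m σ N t z) u ≤ (n : ℝ) ^ 4 := by
  have h := (le_abs_self _).trans (abs_qF (S := S) (M := Q1 S w m σ N t z) (bM := n)
    (fun i j => abs_Q1 hm z i j) t u)
  exact h.trans (le_of_eq (by ring))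

/-- a small function of the second position under the weight -/
theorem EwT_le (hm : Pm m N) (c : ℝ) (h0 : w ≤ t) (h1 : t ≤ s) (h2 : s ≤ 1)
    {f : (Pair n → ℝ) → ℝ} (hf : EG f) (hf0 : ∀ u, 0 ≤ f u) :
    EwT S w m σ N c t s f ≤ (n : ℝ) ^ 4 * ∫ g, E1 S w m σ N s f (c • g) ∂(gI (Pair n)) := by
  rw [← integral_const_mul]
  refine integral_mono (eg_EwT hm c hf).integrable
    ((eg_sc (G := E1 S w m σ N s f) (eg_E1 hm hf) c).const_mul _).integrable fun g => ?_
  simp only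
  rw [E1_tower h0 h1 h2 hf, ← E1_const_mul]
  refine E1_mono hm ((eg_qF t _).mul (eg_Aw S t s hf)) ((eg_Aw S t s hf).const_mul _)
    (fun u => ?_) _
  exact mul_le_mul_of_nonneg_right (qF_le hm _ u) (Aw_nonneg S t s hf0 u)

/-- the total weight -/
lemma EwT_one (hm : Pm m N) (c : ℝ) (a : ℝ) :
    EwT S w m σ N c t s (fun _ => a) = a * NQ S w m σ N c t := by
  unfold EwT NQ
  rw [← integral_const_mul]
  refine integral_congr_ae (Filter.Eventually.of_forall fun g => ?_)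
  simp only
  have e : (fun u => qF S t (Q1 S w m σ N t (c • g)) u * Aw S t s (fun _ => a) u) = fun u =>
      a * qF S t (Q1 S w m σ N t (c • g)) u := by
    funext u
    rw [Aw_const]
    ring
  rw [e, E1_const_mul, E1_qF hm]
  congr 1
  unfold fr
  exact Finset.sum_congr rfl fun i _ => Finset.sum_congr rfl fun j _ => by ring

/-- **The size of the second matrix under the weight of the first time.** -/
theorem NmT_le {Nb : ℝ} (hm : Pm m N) (c : ℝ) (hN : 0 ≤ Nb) (h0 : w ≤ t) (h1 : t ≤ s)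
    (h2 : s ≤ 1) :
    NmT S w m σ N c t s ≤ Nb * NQ S w m σ N c t + (n : ℝ) ^ 6 * pB S w m σ N c Nb s := by
  have e1 := (eg_Aw S t s (eg_bd S Nb s))
  have a1 := cmp_T (S := S) (w := w) (t := t) (σ := σ) hm c (eg_Aw S t s (eg_frA s))
    (φ := Aw S t s (fun v => fr (S.A s v)))
    (ψ := fun u => Nb * 1 + (n : ℝ) ^ 2 * Aw S t s (bd S Nb s) u)
    (((EG.const 1).const_mul Nb).add (e1.const_mul ((n : ℝ) ^ 2))) fun u => by
      have hc := c11_uu S.c11 S.x0 s
      have h3 : Aw S t s (fun v => fr (S.A s v)) u ≤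
          Aw S t s (fun v => Nb + (n : ℝ) ^ 2 * bd S Nb s v) u :=
        H785.Ax_mono hc.lip hc.B0 (eg_frA s) ((EG.const _).add ((eg_bd S Nb s).const_mul _))
          (fun v => frA_le_bd hN s v) _ _ u
      rw [Aw_add S t s (EG.const _) ((eg_bd S Nb s).const_mul _), Aw_const, Aw_const_mul] at h3
      linarith
  rw [lin_T hm c Nb ((n : ℝ) ^ 2) (φ := fun _ => (1 : ℝ)) (EG.const 1) e1] at a1
  have b1 : NmT S w m σ N c t s = ∫ g, E1 S w m σ N t (fun u => qF S t (Q1 S w m σ N t (c • g)) u *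
    Aw S t s (fun v => fr (S.A s v)) u) (c • g) ∂(gI (Pair n)) := rfl
  have b2 : EwT S w m σ N c t s (bd S Nb s) = ∫ g, E1 S w m σ N t (fun u =>
    qF S t (Q1 S w m σ N t (c • g)) u * Aw S t s (bd S Nb s) u) (c • g) ∂(gI (Pair n)) := rfl
  have b3 : ∫ g, E1 S w m σ N t (fun u => qF S t (Q1 S w m σ N t (c • g)) u * 1) (c • g)
      ∂(gI (Pair n)) = NQ S w m σ N c t := by
    have h := EwT_one (S := S) (w := w) (t := t) (s := s) (σ := σ) hm c 1
    rw [one_mul] at h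
    rw [← h]
    unfold EwT
    refine integral_congr_ae (Filter.Eventually.of_forall fun g => ?_)
    simp only
    congr 1
    funext u
    rw [Aw_const]
  rw [← b1, ← b2, b3] at a1
  have a2 := EwT_le (S := S) (w := w) (σ := σ) hm c h0 h1 h2 (eg_bd S Nb s)
    (fun u => bd_nonneg Nb s u)
  have b4 : ∫ g, E1 S w m σ N s (bd S Nb s) (c • g) ∂(gI (Pair n)) = pB S w m σ N c Nb s := rfl
  rw [b4] at a2
  have a3 := mul_le_mul_of_nonneg_left a2 (show 0 ≤ (n : ℝ) ^ 2 by positivity)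
  have e4 : (n : ℝ) ^ 2 * ((n : ℝ) ^ 4 * pB S w m σ N c Nb s) =
      (n : ℝ) ^ 6 * pB S w m σ N c Nb s := by ring
  linarith

end Vale.Agent.P146.H713.En2
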