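import Vale.Agent.P146.H713.En2
import Vale.Agent.P146.H713.En4
import Vale.Agent.P146.H693.F0G
import Vale.Agent.P146.H712.RowQ

/-!
The two-layer law `densG q (GTwo q y l F D) F` at a fixed deep position `P0`: the average over all
other coordinates is the nested mean `E1`. Dictionary between `EwG` and `E1`.
-/

open MeasureTheory ProbabilityTheory

namespace Vale.Agent.P146.H713.En2

open Vale.Agent.P157.Lv Vale.Agent.P146.H425 Vale.Agent.P146.H325 Vale.Agent.P146.H332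
  Vale.Agent.P146.H712 Vale.Agent.P146.H816 Vale.Agent.P146.R1 Vale.Agent.P146.R1C Matrix
  Vale.Agent.P146.R1S Vale.Agent.P146.H693 Vale.Agent.P146.H655 Vale.Agent.P146.H706
  Vale.Agent.P146.H946.En2
open Vale.Agent.P146.H785 (Ax)

set_option linter.unusedSectionVars false

section gen

variable {κ : Type} [Fintype κ] [DecidableEq κ] {F : (κ → ℝ) → ℝ} {D : κ → (κ → ℝ) → ℝ}
  {B L : ℝ} {q : Par} {G : GD κ} {y l : ℝ}

/-- all coordinates but those of the deep position -/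
def Rd (κ : Type) [Fintype κ] : Finset (K4 κ) := Finset.univ.disjSum Finset.univ |>.filter
  fun j => j.isRight = true

lemma mem_Rd (j : K4 κ) : j ∈ Rd κ ↔ j.isRight = true := by
  unfold Rd
  rcases j with e | e <;> simp

lemma sw_Rd (z w : K4 κ → ℝ) : sw (Rd κ) z w =
    Sum.elim (fun e => z (Sum.inl e)) (fun e => w (Sum.inr e)) := by
  funext j
  unfold sw
  rcases j with e | e
  · rw [if_neg (by rw [mem_Rd]; simp)]
    rfl
  · rw [if_pos (by rw [mem_Rd]; simp)]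
    rfl

/-- the average over all coordinates but the deep ones -/
lemma Av_Rd {f : (K4 κ → ℝ) → ℝ} (hf : EG f) (z : K4 κ → ℝ) :
    Av (Rd κ) f z = ∫ v : K3 κ → ℝ, f (Sum.elim (fun e => z (Sum.inl e)) v) ∂(gI (K3 κ)) := by
  unfold Av
  rw [R1.int_sum (H712.eg_sw (R := Rd κ) hf z)]
  simp only [sw_Rd, Sum.elim_inr]
  rw [integral_const, probReal_univ, one_smul]

lemma ind_P0 (f : (κ → ℝ) → ℝ) : Ind (Rd κ) fun w => f (P0 q w) := by
  intro z w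
  simp only
  congr 1
  unfold P0 p0 c0
  rw [sw_Rd]
  rfl

/-- a function of the deep position -/
lemma int_P0 {f : (κ → ℝ) → ℝ} (hf : EG f) :
    ∫ w, f (P0 q w) ∂(gI (K4 κ)) = ∫ g, f (√q.t0 • g) ∂(gI κ) := by
  have h := R1.int_sum (α := κ) (β := K3 κ) (G := fun w => f (P0 q w)) (eg_P0 hf)
  refine Eq.trans h ?_
  refine integral_congr_ae (Filter.Eventually.of_forall fun y0 => ?_)
  have e : ∀ w2 : K3 κ → ℝ, P0 q (Sum.elim y0 w2) = √q.t0 • y0 := fun w2 => rfl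
  simp only [e]
  rw [integral_const, probReal_univ, one_smul]

/-- iterated form at a fixed deep position -/
lemma Av_iter (h : C11 F D B L) (hx : 0 < q.x) (hG : G.Ok) {Ψ : Fn4 κ} (hΨ : E4 Ψ)
    (w : K4 κ → ℝ) :
    Av (Rd κ) (fun w => densG q G F w * Ψ (P0 q w) (P1 q w) (P2 q w) (P3 q w)) w =
      ∫ y1, (∫ y2, (∫ y3,
      Real.exp (q.x * uu q.x q.s2 F
        (P0 q w + √(q.t1 - q.t0) • y1 + √(q.s1 - q.t1) • y2 + √(q.s2 - q.s1) • y3) +
        G.f (P0 q w) (P0 q w + √(q.t1 - q.t0) • y1)) *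
      Ψ (P0 q w) (P0 q w + √(q.t1 - q.t0) • y1)
        (P0 q w + √(q.t1 - q.t0) • y1 + √(q.s1 - q.t1) • y2)
        (P0 q w + √(q.t1 - q.t0) • y1 + √(q.s1 - q.t1) • y2 + √(q.s2 - q.s1) • y3)
        ∂(gI κ)) ∂(gI κ)) ∂(gI κ) := by
  have hg : EG fun w => densG q G F w * Ψ (P0 q w) (P1 q w) (P2 q w) (P3 q w) :=
    (eg_densG h hx hG).mul (hΨ.eg_p q.t0 q.t1 q.s1 q.s2)
  rw [Av_Rd hg]
  exact int_K3 (eg_elim hg fun e => w (Sum.inl e))

/-- **functions of the first three positions at a fixed deep position** -/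
lemma Av_123 (h : C11 F D B L) (hx : 0 < q.x) (hG : G.Ok)
    {Ψ : (κ → ℝ) → (κ → ℝ) → (κ → ℝ) → ℝ} (hΨ : E3 Ψ) (h1 : q.s1 ≤ q.s2) (h2 : q.s2 ≤ 1)
    (w : K4 κ → ℝ) :
    Av (Rd κ) (fun w => densG q G F w * Ψ (P0 q w) (P1 q w) (P2 q w)) w =
      ∫ y1, (∫ y2, Real.exp (q.x * uu q.x q.s1 F
        (P0 q w + √(q.t1 - q.t0) • y1 + √(q.s1 - q.t1) • y2) +
        G.f (P0 q w) (P0 q w + √(q.t1 - q.t0) • y1)) *
      Ψ (P0 q w) (P0 q w + √(q.t1 - q.t0) • y1)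
        (P0 q w + √(q.t1 - q.t0) • y1 + √(q.s1 - q.t1) • y2) ∂(gI κ)) ∂(gI κ) := by
  rw [Av_iter (Ψ := fun z0 z1 z2 _ => Ψ z0 z1 z2) h hx hG (E4.of_E3 hΨ)]
  refine integral_congr_ae (Filter.Eventually.of_forall fun y1 => ?_)
  refine integral_congr_ae (Filter.Eventually.of_forall fun y2 => ?_)
  simp only
  rw [integral_mul_const]
  congr 1
  rw [Real.exp_add, ← uu_step h hx h1 h2
    (P0 q w + √(q.t1 - q.t0) • y1 + √(q.s1 - q.t1) • y2), ← integral_mul_const]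
  refine integral_congr_ae (Filter.Eventually.of_forall fun y3 => ?_)
  simp only
  rw [Real.exp_add]

/-- **tower property at a fixed deep position** -/
lemma Av_tower4 (h : C11 F D B L) (hx : 0 < q.x) (hG : G.Ok)
    {Ψ : (κ → ℝ) → (κ → ℝ) → (κ → ℝ) → ℝ} (hΨ : E3 Ψ) {φ : (κ → ℝ) → ℝ} (hφ : EG φ)
    (h1 : q.s1 ≤ q.s2) (h2 : q.s2 ≤ 1) (w : K4 κ → ℝ) :
    Av (Rd κ) (fun w => densG q G F w * (Ψ (P0 q w) (P1 q w) (P2 q w) * φ (P3 q w))) w =
      Av (Rd κ) (fun w => densG q G F w * (Ψ (P0 q w) (P1 q w) (P2 q w) *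
        Ax q.x (√(q.s2 - q.s1)) (uu q.x q.s2 F) φ (P2 q w))) w := by
  have hA : EG (Ax q.x (√(q.s2 - q.s1)) (uu q.x q.s2 F) φ) := eg_Ax (c11_uu h hx q.s2) hφ _ _
  rw [Av_iter (Ψ := fun z0 z1 z2 z3 => Ψ z0 z1 z2 * φ z3) h hx hG
      ((E4.of_E3 hΨ).mul (E4.of3 hφ)),
    Av_123 (Ψ := fun z0 z1 z2 => Ψ z0 z1 z2 *
      Ax q.x (√(q.s2 - q.s1)) (uu q.x q.s2 F) φ z2) h hx hG (hΨ.mul (E3.of2 hA)) h1 h2]
  refine integral_congr_ae (Filter.Eventually.of_forall fun y1 => ?_)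
  refine integral_congr_ae (Filter.Eventually.of_forall fun y2 => ?_)
  simp only
  set z2 := P0 q w + √(q.t1 - q.t0) • y1 + √(q.s1 - q.t1) • y2 with hz2
  have e1 := Ax_mul_t h hx h1 h2 φ z2
  have e2 : ∀ y3 : κ → ℝ, Real.exp (q.x * uu q.x q.s2 F (z2 + √(q.s2 - q.s1) • y3) +
        G.f (P0 q w) (P0 q w + √(q.t1 - q.t0) • y1)) *
      (Ψ (P0 q w) (P0 q w + √(q.t1 - q.t0) • y1) z2 * φ (z2 + √(q.s2 - q.s1) • y3)) =
      (Real.exp (G.f (P0 q w) (P0 q w + √(q.t1 - q.t0) • y1)) *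
        Ψ (P0 q w) (P0 q w + √(q.t1 - q.t0) • y1) z2) *
      (Real.exp (q.x * uu q.x q.s2 F (z2 + √(q.s2 - q.s1) • y3)) *
        φ (z2 + √(q.s2 - q.s1) • y3)) := by
    intro y3
    rw [Real.exp_add]
    ring
  simp only [e2]
  rw [integral_const_mul, ← e1, Real.exp_add]
  ring

/-- **the two-layer law at a fixed deep position** -/
theorem Av_law (h : C11 F D B L) (hx : 0 < q.x) (hy : 0 < y) (hl : 0 < l)
    (ht : q.t0 ≤ q.t1 - l) (hs1 : q.t1 ≤ q.s1) (hs2 : q.s1 ≤ q.s2) (hs3 : q.s2 ≤ 1)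
    {φ : (κ → ℝ) → ℝ} (hφ : EG φ) (w : K4 κ → ℝ) :
    Av (Rd κ) (fun w => densG q (R1C.GTwo q y l F D) F w * φ (P2 q w)) w =
      ∫ g1, Ax y (√l) (uu q.x q.t1 F) (Ax q.x (√(q.s1 - q.t1)) (uu q.x q.s1 F) φ)
        (P0 q w + √(q.t1 - l - q.t0) • g1) ∂(gI κ) := by
  have h1 : q.t0 < q.t1 := by linarith
  have key := law2_in (q := qs q q.s1) (B := B) (L := L) (D := D) (F := F) (β := fun _ => 1)
    (γ := fun _ => 1) (δ := φ) h hx hy hl ht hs1 le_rfl (hs2.trans hs3) (EG.const 1)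
    (EG.const 1) hφ (P0 q w)
  have e0 : ∀ z0 z1, Bc (qs q q.s1) y l F (fun _ => 1) z0 z1 = 1 := fun z0 z1 =>
    Bc_one (q := qs q q.s1) h hx hy l 1 z0 z1
  simp only [e0, one_mul] at key
  have e1 : √((qs q q.s1).s2 - (qs q q.s1).s1) = 0 := by
    show √(q.s1 - q.s1) = 0
    rw [sub_self, Real.sqrt_zero]
  rw [e1] at key
  simp only [zero_smul, add_zero, integral_const, probReal_univ, one_smul] at key
  rw [Av_123 (Ψ := fun _ _ z2 => φ z2) h hx (R1C.GTwo_ok h hx hy l) (E3.of2 hφ) hs2 hs3]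
  refine Eq.trans ?_ key
  refine integral_congr_ae (Filter.Eventually.of_forall fun y1 => ?_)
  refine integral_congr_ae (Filter.Eventually.of_forall fun y2 => ?_)
  simp only
  rw [GTwo_f_eq h hx hy hl.le ht h1]
  rfl

end gen

/-! ### letters of the position systems -/

variable {n : ℕ} {k : ℝ} {q : Par} {S : CS n k q.x} {y l : ℝ} {m σ : ℕ → ℝ}

/-- the two lower layers -/
structure Stk (q : Par) (y l : ℝ) (m σ : ℕ → ℝ) : Prop where
  m0 : m 0 = y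
  m1 : m 1 = 0
  σ0 : σ 0 = √l
  σ1 : σ 1 = √(q.t1 - l - q.t0)

lemma Stk.pm (h : Stk q y l m σ) (hy : 0 < y) : Pm m 2 := by
  intro j hj
  have : j = 0 := by omega
  subst this
  rw [h.m0]
  exact hy

lemma stk3 (q : Par) (y l : ℝ) : Stk q y l (fun j => m3 q y (1 + j)) (fun j => s3 q l (1 + j)) := by
  refine ⟨?_, ?_, ?_, ?_⟩ <;> simp [m3, s3]

/-- **functions of the second-last position at a fixed deep position** -/
theorem Av_two (hT : Tm q y l) (hs : Stk q y l m σ) {φ : (Pair n → ℝ) → ℝ} (hφ : EG φ)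
    (w : K4 (Pair n) → ℝ) :
    Av (Rd (Pair n)) (fun w => densG q (R1C.GTwo q y l S.F S.D) S.F w * φ (P2 q w)) w =
      E1 S q.t1 m σ 2 q.s1 φ (P0 q w) := by
  rw [Av_law S.c11 S.x0 hT.hy hT.hl hT.ht hT.h1 hT.h2 hT.h3 hφ]
  have e1 : E1 S q.t1 m σ 2 q.s1 φ (P0 q w) = Ax (m 1) (σ 1)
      (W (m 0) (σ 0) (uu q.x q.t1 S.F)) (Ax (m 0) (σ 0) (uu q.x q.t1 S.F) (Aw S q.t1 q.s1 φ))
      (P0 q w) := rfl
  rw [e1, hs.m0, hs.m1, hs.σ0, hs.σ1]
  unfold Ax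
  simp only [zero_mul, Real.exp_zero, one_mul, integral_const, probReal_univ, one_smul, div_one]
  rfl

/-- **products of functions of the last two positions at a fixed deep position** -/
theorem Av_pair (hT : Tm q y l) (hs : Stk q y l m σ) {χ φ : (Pair n → ℝ) → ℝ} (hχ : EG χ)
    (hφ : EG φ) (w : K4 (Pair n) → ℝ) :
    Av (Rd (Pair n)) (fun w => densG q (R1C.GTwo q y l S.F S.D) S.F w *
      (χ (P2 q w) * φ (P3 q w))) w =
      E1 S q.t1 m σ 2 q.s1 (fun u => χ u * Aw S q.s1 q.s2 φ u) (P0 q w) := by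
  have hA : EG (Aw S q.s1 q.s2 φ) := eg_Aw S q.s1 q.s2 hφ
  have h := Av_tower4 (q := q) (G := R1C.GTwo q y l S.F S.D) S.c11 S.x0
    (R1C.GTwo_ok S.c11 S.x0 hT.hy l) (Ψ := fun _ _ z2 => χ z2) (E3.of2 hχ) hφ hT.h2 hT.h3 w
  refine h.trans ?_
  exact Av_two hT hs (hχ.mul hA) w

/-- the total mass at a fixed deep position is one -/
theorem Av_dens (hT : Tm q y l) (w : K4 (Pair n) → ℝ) :
    Av (Rd (Pair n)) (fun w => densG q (R1C.GTwo q y l S.F S.D) S.F w) w = 1 := by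
  have hs := stk3 q y l
  have h := Av_two (S := S) hT hs (EG.const 1) w
  simp only [mul_one] at h
  rw [h, E1_const (hs.pm hT.hy)]

/-- **`Q_1` is the mean of `C_1²` at a fixed deep position.** -/
theorem Av_C2 (hT : Tm q y l) (hs : Stk q y l m σ) (i j : Fin n) (w : K4 (Pair n) → ℝ) :
    Av (Rd (Pair n)) (fun w => densG q (R1C.GTwo q y l S.F S.D) S.F w *
      A2 S q.s1 i j (P2 q w)) w = Q1 S q.t1 m σ 2 q.s1 (P0 q w) i j :=
  Av_two hT hs (eg_A2 S q.s1 i j) w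

/-- **The dictionary**: sums of products of functions of `P0`, `P2`, `P3`. -/
theorem EwG_sum (hT : Tm q y l) (hs : Stk q y l m σ) {ι : Type*} (T : Finset ι)
    {a χ φ : ι → (Pair n → ℝ) → ℝ} (ha : ∀ i ∈ T, EG (a i)) (hχ : ∀ i ∈ T, EG (χ i))
    (hφ : ∀ i ∈ T, EG (φ i)) :
    EwG q (R1C.GTwo q y l S.F S.D) S.F (fun w => ∑ i ∈ T, a i (P0 q w) *
      (χ i (P2 q w) * φ i (P3 q w))) =
    ∫ g, ∑ i ∈ T, a i (√q.t0 • g) * E1 S q.t1 m σ 2 q.s1
      (fun u => χ i u * Aw S q.s1 q.s2 (φ i) u) (√q.t0 • g) ∂(gI (Pair n)) := by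
  have hm := hs.pm hT.hy
  have eD : EG (densG q (R1C.GTwo q y l S.F S.D) S.F) :=
    eg_densG S.c11 S.x0 (R1C.GTwo_ok S.c11 S.x0 hT.hy l)
  have e1 : ∀ i ∈ T, EG fun w : K4 (Pair n) → ℝ => densG q (R1C.GTwo q y l S.F S.D) S.F w *
      (χ i (P2 q w) * φ i (P3 q w)) := fun i hi =>
    eD.mul ((eg_P2 (hχ i hi)).mul (eg_P3 (hφ i hi)))
  have e2 : ∀ i ∈ T, EG (E1 S q.t1 m σ 2 q.s1 (fun u => χ i u * Aw S q.s1 q.s2 (φ i) u)) :=
    fun i hi => eg_E1 hm ((hχ i hi).mul (eg_Aw S q.s1 q.s2 (hφ i hi)))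
  have e3 : EG fun z => ∑ i ∈ T, a i z * E1 S q.t1 m σ 2 q.s1
      (fun u => χ i u * Aw S q.s1 q.s2 (φ i) u) z :=
    EG.sum _ fun i hi => (ha i hi).mul (e2 i hi)
  have e4 : ∀ i ∈ T, EG fun w : K4 (Pair n) → ℝ => a i (P0 q w) *
      (densG q (R1C.GTwo q y l S.F S.D) S.F w * (χ i (P2 q w) * φ i (P3 q w))) := fun i hi =>
    (eg_P0 (ha i hi)).mul (e1 i hi)
  have h0 : EwG q (R1C.GTwo q y l S.F S.D) S.F (fun w => ∑ i ∈ T, a i (P0 q w) *
      (χ i (P2 q w) * φ i (P3 q w))) =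
      ∫ w, ∑ i ∈ T, a i (P0 q w) * (densG q (R1C.GTwo q y l S.F S.D) S.F w *
        (χ i (P2 q w) * φ i (P3 q w))) ∂(gI (K4 (Pair n))) := by
    unfold EwG
    refine integral_congr_ae (Filter.Eventually.of_forall fun w => ?_)
    simp only
    rw [Finset.mul_sum]
    exact Finset.sum_congr rfl fun i _ => by ring
  rw [h0, ← integral_Av (Rd (Pair n)) (EG.sum T e4), ← int_P0 (q := q) e3]
  refine integral_congr_ae (Filter.Eventually.of_forall fun w => ?_)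
  simp only
  rw [Av_sum T e4]
  refine Finset.sum_congr rfl fun i hi => ?_
  rw [Av_mul (ind_P0 (q := q) (a i)), Av_pair hT hs (hχ i hi) (hφ i hi)]

/-- **The numbers with the weight `<Y(P0), C_1²>`.** -/
theorem EwG_form (hT : Tm q y l) (hs : Stk q y l m σ)
    {Y : (Pair n → ℝ) → Matrix (Fin n) (Fin n) ℝ} (hY : ∀ i j, EG fun z => Y z i j)
    {χ φ : (Pair n → ℝ) → ℝ} (hχ : EG χ) (hφ : EG φ) :
    EwG q (R1C.GTwo q y l S.F S.D) S.F (fun w => qF S q.s1 (Y (P0 q w)) (P2 q w) *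
      (χ (P2 q w) * φ (P3 q w))) =
    ∫ g, E1 S q.t1 m σ 2 q.s1 (fun u => qF S q.s1 (Y (√q.t0 • g)) u *
      (χ u * Aw S q.s1 q.s2 φ u)) (√q.t0 • g) ∂(gI (Pair n)) := by
  have hm := hs.pm hT.hy
  have key := EwG_sum (S := S) hT hs (Finset.univ : Finset (Fin n × Fin n))
    (a := fun p z => Y z p.1 p.2) (χ := fun p u => A2 S q.s1 p.1 p.2 u * χ u)
    (φ := fun _ => φ) (fun p _ => hY p.1 p.2) (fun p _ => (eg_A2 S q.s1 p.1 p.2).mul hχ)
    (fun _ _ => hφ)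
  have e1 : (fun w => qF S q.s1 (Y (P0 q w)) (P2 q w) * (χ (P2 q w) * φ (P3 q w))) =
      fun w : K4 (Pair n) → ℝ => ∑ p : Fin n × Fin n, Y (P0 q w) p.1 p.2 *
        (A2 S q.s1 p.1 p.2 (P2 q w) * χ (P2 q w) * φ (P3 q w)) := by
    funext w
    unfold qF
    rw [Fintype.sum_prod_type, Finset.sum_mul]
    refine Finset.sum_congr rfl fun i _ => ?_
    rw [Finset.sum_mul]
    exact Finset.sum_congr rfl fun j _ => by ring
  rw [e1, key]
  refine integral_congr_ae (Filter.Eventually.of_forall fun g => ?_)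
  simp only
  rw [E1_form hm (hχ.mul (eg_Aw S q.s1 q.s2 hφ)), Fintype.sum_prod_type]
  refine Finset.sum_congr rfl fun i _ => Finset.sum_congr rfl fun j _ => ?_
  congr 2
  funext u
  ring

end Vale.Agent.P146.H713.En2
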