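import Vale.Agent.P146.H655.Pig
import Vale.Agent.P146.H706G.Mart

/-!
Rates of the matrix at the late time `s2` in the two-time law, with a weight which is a function of
the positions at the times `t0`, `t1`, `s1`. Static form: one short step of the late time.
-/

open MeasureTheory ProbabilityTheory

namespace Vale.Agent.P146.H713.En2

open Vale.Agent.P157.Lv Vale.Agent.P146.H425 Vale.Agent.P146.H325 Vale.Agent.P146.H332
  Vale.Agent.P146.H712 Vale.Agent.P146.H816 Vale.Agent.P146.R1 Vale.Agent.P146.R1C Matrix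
  Vale.Agent.P146.R1S Vale.Agent.P146.H693 Vale.Agent.P146.H655 Vale.Agent.P146.H706
open Vale.Agent.P146.H785 (Ax)

set_option linter.unusedSectionVars false

variable {n : ℕ} {k : ℝ} {q : Par} {S : CS n k q.x} {G : GD (Pair n)} {s s' : ℝ}

/-- the parameters with the late time `s` -/
def qs (q : Par) (s : ℝ) : Par := ⟨q.x, q.θ, q.t0, q.t1, q.s1, s⟩

/-- a matrix function of three positions -/
abbrev MF (n : ℕ) : Type :=
  (Pair n → ℝ) → (Pair n → ℝ) → (Pair n → ℝ) → Matrix (Fin n) (Fin n) ℝ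

/-- **Tower property, with the law of the first three positions not depending on the late time.** -/
theorem tow (S : CS n k q.x) (hG : G.Ok) {Ψ : (Pair n → ℝ) → (Pair n → ℝ) → (Pair n → ℝ) → ℝ}
    (hΨ : E3 Ψ) {φ : (Pair n → ℝ) → ℝ} (hφ : EG φ) (h1 : q.s1 ≤ s) (h2 : s ≤ 1) :
    EwG (qs q s) G S.F (fun w => Ψ (P0 q w) (P1 q w) (P2 q w) * φ (P3 (qs q s) w)) =
      EuG q G S.F q.s1 (fun z0 z1 z2 => Ψ z0 z1 z2 * Aw S q.s1 s φ z2) := by
  have hA : EG (Aw S q.s1 s φ) := eg_Aw S q.s1 s hφ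
  have a1 := EwG_tower (q := qs q s) S.c11 S.x0 hG hΨ hφ h1 h2
  have a2 := EwG_123 (q := qs q s) S.c11 S.x0 hG (hΨ.mul (E3.of2 hA)) h1 h2
  exact a1.trans a2

lemma EuG_mono (S : CS n k q.x) (hG : G.Ok)
    {Ψ Ψ' : (Pair n → ℝ) → (Pair n → ℝ) → (Pair n → ℝ) → ℝ} (hΨ : E3 Ψ) (hΨ' : E3 Ψ')
    (h : ∀ z0 z1 z2, Ψ z0 z1 z2 ≤ Ψ' z0 z1 z2) : EuG q G S.F s Ψ ≤ EuG q G S.F s Ψ' := by
  unfold EuG
  refine integral_mono (eg_EuG S.c11 S.x0 hG s hΨ).integrable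
    (eg_EuG S.c11 S.x0 hG s hΨ').integrable fun w => ?_
  exact mul_le_mul_of_nonneg_left (h _ _ _) (Real.exp_pos _).le

lemma EuG_add (S : CS n k q.x) (hG : G.Ok)
    {Ψ Ψ' : (Pair n → ℝ) → (Pair n → ℝ) → (Pair n → ℝ) → ℝ} (hΨ : E3 Ψ) (hΨ' : E3 Ψ') :
    EuG q G S.F s (fun z0 z1 z2 => Ψ z0 z1 z2 + Ψ' z0 z1 z2) =
      EuG q G S.F s Ψ + EuG q G S.F s Ψ' := by
  unfold EuG
  rw [← integral_add (eg_EuG S.c11 S.x0 hG s hΨ).integrable
    (eg_EuG S.c11 S.x0 hG s hΨ').integrable]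
  refine integral_congr_ae (Filter.Eventually.of_forall fun w => ?_)
  simp only
  ring

lemma EuG_const_mul (S : CS n k q.x) (c : ℝ)
    (Ψ : (Pair n → ℝ) → (Pair n → ℝ) → (Pair n → ℝ) → ℝ) :
    EuG q G S.F s (fun z0 z1 z2 => c * Ψ z0 z1 z2) = c * EuG q G S.F s Ψ := by
  unfold EuG
  rw [← integral_const_mul]
  refine integral_congr_ae (Filter.Eventually.of_forall fun w => ?_)
  simp only
  ring

lemma EuG_sum (S : CS n k q.x) (hG : G.Ok) {ι : Type*} (T : Finset ι)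
    {Ψ : ι → (Pair n → ℝ) → (Pair n → ℝ) → (Pair n → ℝ) → ℝ} (hΨ : ∀ i ∈ T, E3 (Ψ i)) :
    EuG q G S.F s (fun z0 z1 z2 => ∑ i ∈ T, Ψ i z0 z1 z2) = ∑ i ∈ T, EuG q G S.F s (Ψ i) := by
  unfold EuG
  rw [← integral_finsetSum _ fun i hi => (eg_EuG S.c11 S.x0 hG s (hΨ i hi)).integrable]
  refine integral_congr_ae (Filter.Eventually.of_forall fun w => ?_)
  simp only
  rw [Finset.mul_sum]

lemma E3_sum {ι : Type*} (T : Finset ι)
    {Ψ : ι → (Pair n → ℝ) → (Pair n → ℝ) → (Pair n → ℝ) → ℝ} (hΨ : ∀ i ∈ T, E3 (Ψ i)) :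
    E3 (fun z0 z1 z2 => ∑ i ∈ T, Ψ i z0 z1 z2) := EG.sum T hΨ

/-! ### the mean of a matrix form -/

variable {M : MF n} {f : Fin n → Fin n → (Pair n → ℝ) → ℝ}

/-- `E ∑ M_ij f_ij (z3)` -/
noncomputable def fM (S : CS n k q.x) (G : GD (Pair n)) (M : MF n)
    (f : Fin n → Fin n → (Pair n → ℝ) → ℝ) (s : ℝ) : ℝ :=
  EwG (qs q s) G S.F fun w => ∑ i, ∑ j, M (P0 q w) (P1 q w) (P2 q w) i j *
    f i j (P3 (qs q s) w)

lemma E3_form {f : Fin n → Fin n → (Pair n → ℝ) → ℝ} (hM : ∀ i j, E3 fun z0 z1 z2 => M z0 z1 z2 i j)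
    (hf : ∀ i j, EG (f i j)) :
    E3 fun z0 z1 z2 => ∑ i, ∑ j, M z0 z1 z2 i j * f i j z2 :=
  E3_sum _ fun i _ => E3_sum _ fun j _ => (hM i j).mul (E3.of2 (hf i j))

theorem fM_eq (S : CS n k q.x) (hG : G.Ok) (hM : ∀ i j, E3 fun z0 z1 z2 => M z0 z1 z2 i j)
    (hf : ∀ i j, EG (f i j)) (h1 : q.s1 ≤ s) (h2 : s ≤ 1) :
    fM S G M f s = EuG q G S.F q.s1 fun z0 z1 z2 => ∑ i, ∑ j, M z0 z1 z2 i j *
      Aw S q.s1 s (f i j) z2 := by
  have hA : ∀ i j, EG (Aw S q.s1 s (f i j)) := fun i j => eg_Aw S q.s1 s (hf i j)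
  have e1 : ∀ i j, E3 fun z0 z1 z2 => M z0 z1 z2 i j * Aw S q.s1 s (f i j) z2 :=
    fun i j => (hM i j).mul (E3.of2 (hA i j))
  rw [EuG_sum S hG Finset.univ fun i _ => E3_sum _ fun j _ => e1 i j]
  have e2 : ∀ i j, EG fun w : K4 (Pair n) → ℝ => densG (qs q s) G S.F w *
      (M (P0 q w) (P1 q w) (P2 q w) i j * f i j (P3 (qs q s) w)) := by
    intro i j
    have h4 : E4 fun z0 z1 z2 z3 => M z0 z1 z2 i j * f i j z3 :=
      (E4.of_E3 (hM i j)).mul (E4.of3 (hf i j))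
    exact (eg_densG (q := qs q s) S.c11 S.x0 hG).mul (h4.eg_p q.t0 q.t1 q.s1 s)
  have e3 : fM S G M f s = ∑ i, ∑ j, EwG (qs q s) G S.F (fun w =>
      M (P0 q w) (P1 q w) (P2 q w) i j * f i j (P3 (qs q s) w)) := by
    unfold fM EwG
    simp only [Finset.mul_sum]
    rw [integral_finsetSum _ fun i _ => (EG.sum _ fun j _ => e2 i j).integrable]
    refine Finset.sum_congr rfl fun i _ => ?_
    rw [integral_finsetSum _ fun j _ => (e2 i j).integrable]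
  rw [e3]
  refine Finset.sum_congr rfl fun i _ => ?_
  rw [EuG_sum S hG Finset.univ fun j _ => e1 i j]
  exact Finset.sum_congr rfl fun j _ => tow S hG (hM i j) (hf i j) h1 h2

/-- `E <M, C_s²>` with the weight a function of the first three positions -/
noncomputable def nM (S : CS n k q.x) (G : GD (Pair n)) (M : MF n) (s : ℝ) : ℝ :=
  fM S G M (fun i j => A2 S s i j) s

/-- `E ∑_e <M, (D_e C_s)²>` -/
noncomputable def rM (S : CS n k q.x) (G : GD (Pair n)) (M : MF n) (s : ℝ) : ℝ :=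
  EwG (qs q s) G S.F fun w => H655.En S s (M (P0 q w) (P1 q w) (P2 q w)) (P3 (qs q s) w)

/-- the squares of the derivatives -/
def dd2 (S : CS n k q.x) (s : ℝ) (i j : Fin n) (u : Pair n → ℝ) : ℝ :=
  ∑ e : Pair n, ∑ l, S.DA s e u i l * S.DA s e u l j

lemma eg_dd2 (s : ℝ) (i j : Fin n) : EG (dd2 S s i j) :=
  EG.sum _ fun e _ => EG.sum _ fun l _ => (S.eg_DA s e i l).mul (S.eg_DA s e l j)

lemma En_dd2 (s : ℝ) (M : Matrix (Fin n) (Fin n) ℝ) (u : Pair n → ℝ) :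
    H655.En S s M u = ∑ i, ∑ j, M i j * dd2 S s i j u := by
  unfold H655.En dd2
  rw [Finset.sum_comm]
  refine Finset.sum_congr rfl fun i _ => ?_
  rw [Finset.sum_comm]
  refine Finset.sum_congr rfl fun j _ => ?_
  rw [Finset.mul_sum]

lemma rM_eq (M : MF n) (s : ℝ) : rM S G M s = fM S G M (fun i j => dd2 S s i j) s := by
  unfold rM fM
  congr 1
  funext w
  exact En_dd2 s _ _

/-- one step, at a position at the time `s1` -/
lemma step_z {M : Matrix (Fin n) (Fin n) ℝ} (hM : Psd M) {t : ℝ} (h1 : t ≤ s) (h2 : s < s')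
    (h3 : s' ≤ 1) (hk : Sh S (s' - s)) (u : Pair n → ℝ) :
    (s' - s) * ∑ i, ∑ j, M i j * Aw S t s (dd2 S s i j) u ≤
      2 * (∑ i, ∑ j, M i j * Aw S t s' (A2 S s' i j) u -
        ∑ i, ∑ j, M i j * Aw S t s (A2 S s i j) u) := by
  have a1 : Aw S t s (fun v => (s' - s) * H655.En S s M v) u ≤
      Aw S t s (fun v => 2 * Inc S s s' M v) u := by
    have hc := c11_uu S.c11 S.x0 s
    exact H785.Ax_mono hc.lip hc.B0 ((eg_En s M).const_mul _) ((eg_Inc h2.le h3 M).const_mul 2)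
      (fun v => En_le hM h2 h3 hk v) _ _ u
  rw [Aw_const_mul, Aw_const_mul] at a1
  have e1 : H655.En S s M = fun v => ∑ i, ∑ j, M i j * dd2 S s i j v := funext fun v => En_dd2 s M v
  have e2 : Inc S s s' M = fun v => ∑ i, ∑ j, M i j * (Aw S s s' (A2 S s' i j) v -
      A2 S s i j v) := funext fun v => Inc_eq h2.le h3 M v
  rw [e1, e2, Aw_sum2 S t s M (fun i j => eg_dd2 s i j),
    Aw_sum2 S t s M (fun i j => (eg_Aw S s s' (eg_A2 S s' i j)).sub (eg_A2 S s i j))] at a1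
  refine a1.trans (le_of_eq ?_)
  congr 1
  rw [← Finset.sum_sub_distrib]
  refine Finset.sum_congr rfl fun i _ => ?_
  rw [← Finset.sum_sub_distrib]
  refine Finset.sum_congr rfl fun j _ => ?_
  have e3 := Aw_add S t s (eg_Aw S s s' (eg_A2 S s' i j)) ((eg_A2 S s i j).const_mul (-1)) u
  have e4 : (fun v => Aw S s s' (A2 S s' i j) v - A2 S s i j v) = fun v =>
      Aw S s s' (A2 S s' i j) v + -1 * A2 S s i j v := by funext v; ring
  rw [e4, e3, Aw_const_mul, Aw_tower S h1 h2.le h3 (eg_A2 S s' i j)]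
  ring

/-- **The step inequality: the rates at the late time, weight a function of the positions up to
the time `s1`.** -/
theorem rM_le (S : CS n k q.x) (hG : G.Ok) (hM : ∀ i j, E3 fun z0 z1 z2 => M z0 z1 z2 i j)
    (hp : ∀ z0 z1 z2, Psd (M z0 z1 z2)) (h1 : q.s1 ≤ s) (h2 : s < s') (h3 : s' ≤ 1)
    (hk : Sh S (s' - s)) :
    (s' - s) * rM S G M s ≤ 2 * (nM S G M s' - nM S G M s) := by
  have hd : ∀ i j, EG (Aw S q.s1 s (dd2 S s i j)) := fun i j => eg_Aw S q.s1 s (eg_dd2 s i j)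
  have ha : ∀ i j, EG (Aw S q.s1 s (A2 S s i j)) := fun i j => eg_Aw S q.s1 s (eg_A2 S s i j)
  have hb : ∀ i j, EG (Aw S q.s1 s' (A2 S s' i j)) := fun i j =>
    eg_Aw S q.s1 s' (eg_A2 S s' i j)
  have fd := E3_form hM hd
  have fa := E3_form hM ha
  have fb := E3_form hM hb
  rw [rM_eq, fM_eq S hG hM (fun i j => eg_dd2 s i j) h1 (h2.le.trans h3)]
  unfold nM
  rw [fM_eq S hG hM (fun i j => eg_A2 S s i j) h1 (h2.le.trans h3),
    fM_eq S hG hM (fun i j => eg_A2 S s' i j) (h1.trans h2.le) h3, ← EuG_const_mul]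
  have e1 := EuG_add (q := q) (s := q.s1) S hG (fb.const_mul 2) (fa.const_mul (-2))
  rw [EuG_const_mul S (2 : ℝ), EuG_const_mul S (-2 : ℝ)] at e1
  have e2 := EuG_mono (q := q) (s := q.s1) S hG (fd.const_mul (s' - s))
    ((fb.const_mul 2).add (fa.const_mul (-2))) fun z0 z1 z2 => by
      have := step_z (S := S) (hp z0 z1 z2) h1 h2 h3 hk z2
      linarith
  rw [e1] at e2
  linarith

end Vale.Agent.P146.H713.En2
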