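import Vale.Agent.P146.H946.EnC

/-!
The pair of late times `t < s`: weight `<Q_1(t), C_t²>` at the first time, increments and rates at
the second time. Means `E_1` over the layered law.
-/

open MeasureTheory ProbabilityTheory

namespace Vale.Agent.P146.H713.En2

open Vale.Agent.P157.Lv Vale.Agent.P146.H425 Vale.Agent.P146.H325 Vale.Agent.P146.H332
  Vale.Agent.P146.H712 Vale.Agent.P146.H816 Vale.Agent.P146.R1 Vale.Agent.P146.R1C Matrix
  Vale.Agent.P146.R1S Vale.Agent.P146.H693 Vale.Agent.P146.H655 Vale.Agent.P146.H946.En2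
open Vale.Agent.P146.H785 (Ax)

set_option linter.unusedSectionVars false

variable {n : ℕ} {k x : ℝ} {S : CS n k x} {w t t' s s' : ℝ} {m σ : ℕ → ℝ} {N : ℕ}
  {M : Matrix (Fin n) (Fin n) ℝ}

/-! ### increments -/

lemma psd_one : Psd (1 : Matrix (Fin n) (Fin n) ℝ) := by
  refine ⟨transpose_one, fun c => ?_⟩
  refine Finset.sum_nonneg fun i _ => ?_
  rw [Finset.sum_eq_single i]
  · rw [Matrix.one_apply_eq]
    nlinarith [sq_nonneg (c i)]
  · intro j _ hj
    rw [Matrix.one_apply_ne hj.symm]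
    simp
  · intro h; exact absurd (Finset.mem_univ i) h

/-- `|C_t' - C_t|²` -/
def dF (S : CS n k x) (t t' : ℝ) (u v : Pair n → ℝ) : ℝ :=
  ∑ p : Fin n × Fin n, (S.A t' v p.1 p.2 - S.A t u p.1 p.2) ^ 2

lemma eg_dF (t t' : ℝ) (u : Pair n → ℝ) : EG (dF S t t' u) :=
  EG.sum _ fun p _ => ((S.eg_A t' p.1 p.2).sub (EG.const _)).pow 2

lemma dF_nonneg (t t' : ℝ) (u v : Pair n → ℝ) : 0 ≤ dF S t t' u v :=
  Finset.sum_nonneg fun _ _ => sq_nonneg _

/-- `E [|C_t' - C_t|² | z_t]` -/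
noncomputable def IncF (S : CS n k x) (t t' : ℝ) (u : Pair n → ℝ) : ℝ :=
  Aw S t t' (dF S t t' u) u

lemma IncF_nonneg (t t' : ℝ) (u : Pair n → ℝ) : 0 ≤ IncF S t t' u :=
  Aw_nonneg S t t' (fun v => dF_nonneg t t' u v) u

/-- the mean of the square of the increment is the increment of the mean of the square -/
lemma IncF_eq (h2 : t ≤ t') (h3 : t' ≤ 1) (u : Pair n → ℝ) :
    IncF S t t' u = Aw S t t' (fun v => fr (S.A t' v)) u - fr (S.A t u) := by
  unfold IncF
  have e1 : dF S t t' u = fun v => fr (S.A t' v) + (∑ p : Fin n × Fin n,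
      (-2 * S.A t u p.1 p.2) * S.A t' v p.1 p.2) + fr (S.A t u) := by
    funext v
    unfold dF
    rw [fr_pr, fr_pr, ← Finset.sum_add_distrib, ← Finset.sum_add_distrib]
    exact Finset.sum_congr rfl fun p _ => by ring
  have e2 : EG fun v => ∑ p : Fin n × Fin n, (-2 * S.A t u p.1 p.2) * S.A t' v p.1 p.2 :=
    EG.sum _ fun p _ => (S.eg_A t' p.1 p.2).const_mul _
  rw [e1, Aw_add S t t' ((eg_frA t').add e2) (EG.const _), Aw_add S t t' (eg_frA t') e2,
    Aw_const, Aw_sum S t t' Finset.univ (φ := fun (p : Fin n × Fin n) v =>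
      (-2 * S.A t u p.1 p.2) * S.A t' v p.1 p.2) fun p _ => (S.eg_A t' p.1 p.2).const_mul _]
  have e3 : ∀ p : Fin n × Fin n, Aw S t t' (fun v => (-2 * S.A t u p.1 p.2) *
      S.A t' v p.1 p.2) u = -2 * S.A t u p.1 p.2 ^ 2 := by
    intro p
    rw [Aw_const_mul, ← A_tw S h2 h3]
    ring
  simp only [e3]
  rw [← Finset.mul_sum, ← fr_pr]
  ring

lemma eg_IncF (h2 : t ≤ t') (h3 : t' ≤ 1) : EG (IncF S t t') := by
  have h : IncF S t t' = fun u => Aw S t t' (fun v => fr (S.A t' v)) u - fr (S.A t u) :=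
    funext fun u => IncF_eq h2 h3 u
  rw [h]
  exact (eg_Aw S t t' (eg_frA t')).sub (eg_frA t)

/-- **The increment of `C` in the weight `<M, C_t²>`, at a position.** -/
theorem inc_pt {bM Nb : ℝ} (hM : Psd M) (hb : ∀ i j, |M i j| ≤ bM) (hN : 0 ≤ Nb) (h2 : t ≤ t')
    (h3 : t' ≤ 1) (u : Pair n → ℝ) :
    qF S t M u * IncF S t t' u ≤ 2 * (Aw S t t' (QN S t' M) u - QN S t M u) +
      (16 * Nb * Inc S t t' M u + 32 * (n : ℝ) ^ 5 * bM * (Aw S t t' (bd S Nb t') u +
        bd S Nb t u)) := by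
  obtain ⟨V, lam, hl, hV⟩ := H499.psd_decomp hM
  have hc := c11_uu S.c11 S.x0 t'
  set ψ : Fin n × Fin n → (Pair n → ℝ) → ℝ := fun p v => √(lam p.1) * ∑ i, V i p.1 *
    S.A t' v i p.2 with hψ
  set β : Fin n × Fin n → ℝ := fun p => √(lam p.1) * ∑ i, V i p.1 * S.A t u i p.2 with hβ
  have eψ : ∀ p, EG (ψ p) := fun p => (eg_lin t' (fun i => V i p.1) p.2).const_mul _
  have a1 : ∀ p, Aw S t t' (ψ p) u = β p := by
    intro p
    rw [hψ]
    simp only
    rw [Aw_const_mul]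
    congr 1
    exact Aw_lin h2 h3 (fun i => V i p.1) p.2 u
  have b1 : ∑ p, β p ^ 2 = qF S t M u :=
    (form_pr hl hV (fun i j => S.A t u i j) (S.A_comm t u)).symm
  have b2 : ∀ v, ∑ p, ψ p v ^ 2 = qF S t' M v := fun v =>
    (form_pr hl hV (fun i j => S.A t' v i j) (S.A_comm t' v)).symm
  have b3 : ∀ v, ∑ p, (ψ p v - β p) ^ 2 = dq S t t' M u v := by
    intro v
    have h := form_pr hl hV (fun i j => dA S t t' u v i j) (dA_comm t t' u v)
    refine Eq.trans ?_ h.symm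
    refine Finset.sum_congr rfl fun p _ => ?_
    rw [hψ, hβ]
    simp only
    rw [← mul_sub, ← Finset.sum_sub_distrib]
    congr 2
    exact Finset.sum_congr rfl fun i _ => by unfold dA; ring
  set c1 : (Pair n → ℝ) → ℝ := fun v => ∑ p, β p * (ψ p v - β p) with hc1
  set c2 : (Pair n → ℝ) → ℝ := fun v => ∑ p : Fin n × Fin n, S.A t u p.1 p.2 *
    (S.A t' v p.1 p.2 - S.A t u p.1 p.2) with hc2
  have e1 : EG c1 := EG.sum _ fun p _ => ((eψ p).sub (EG.const _)).const_mul _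
  have e2 : EG c2 := EG.sum _ fun p _ => ((S.eg_A t' p.1 p.2).sub (EG.const _)).const_mul _
  have z1 : Aw S t t' c1 u = 0 := by
    rw [hc1, Aw_sum S t t' Finset.univ (φ := fun p v => β p * (ψ p v - β p)) fun p _ =>
      ((eψ p).sub (EG.const _)).const_mul _]
    refine Finset.sum_eq_zero fun p _ => ?_
    have e : (fun v => β p * (ψ p v - β p)) = fun v => β p * ψ p v + -(β p * β p) := by
      funext v; ring
    rw [e, Aw_add S t t' ((eψ p).const_mul _) (EG.const _), Aw_const_mul, Aw_const, a1 p]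
    ring
  have z2 : Aw S t t' c2 u = 0 := by
    rw [hc2, Aw_sum S t t' Finset.univ (φ := fun (p : Fin n × Fin n) v => S.A t u p.1 p.2 *
      (S.A t' v p.1 p.2 - S.A t u p.1 p.2)) fun p _ =>
      ((S.eg_A t' p.1 p.2).sub (EG.const _)).const_mul _]
    refine Finset.sum_eq_zero fun p _ => ?_
    have e : (fun v => S.A t u p.1 p.2 * (S.A t' v p.1 p.2 - S.A t u p.1 p.2)) = fun v =>
        S.A t u p.1 p.2 * S.A t' v p.1 p.2 + -(S.A t u p.1 p.2 * S.A t u p.1 p.2) := by
      funext v; ring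
    rw [e, Aw_add S t t' ((S.eg_A t' p.1 p.2).const_mul _) (EG.const _), Aw_const_mul, Aw_const,
      ← A_tw S h2 h3]
    ring
  have e3 : EG fun v => dq S t t' M u v * (fr (S.A t' v) + fr (S.A t u)) :=
    (eg_dq t t' M u).mul ((eg_frA t').add (EG.const _))
  have key : ∀ v, QN S t M u + (2 * fr (S.A t u) * c1 v + (2 * qF S t M u * c2 v +
      (1 / 2 * qF S t M u * dF S t t' u v +
      -4 * (dq S t t' M u v * (fr (S.A t' v) + fr (S.A t u)))))) ≤ QN S t' M v := by
    intro v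
    have h := pt_le (fun p => ψ p v) β (fun p : Fin n × Fin n => S.A t' v p.1 p.2)
      (fun p => S.A t u p.1 p.2)
    rw [b1, b2, b3, ← fr_pr, ← fr_pr] at h
    exact h
  have h1 := H785.Ax_mono hc.lip hc.B0 ((EG.const _).add ((e1.const_mul _).add
    ((e2.const_mul _).add (((eg_dF t t' u).const_mul _).add (e3.const_mul (-4))))))
    (eg_QN (S := S) t' M) key x (√(t' - t)) u
  have h4 : Aw S t t' (fun v => QN S t M u + (2 * fr (S.A t u) * c1 v + (2 * qF S t M u * c2 v +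
      (1 / 2 * qF S t M u * dF S t t' u v +
      -4 * (dq S t t' M u v * (fr (S.A t' v) + fr (S.A t u))))))) u ≤
      Aw S t t' (QN S t' M) u := h1
  rw [Aw_add S t t' (EG.const _) ((e1.const_mul _).add
    ((e2.const_mul _).add (((eg_dF t t' u).const_mul _).add (e3.const_mul (-4))))),
    Aw_add S t t' (e1.const_mul _) ((e2.const_mul _).add (((eg_dF t t' u).const_mul _).add
      (e3.const_mul (-4)))), Aw_add S t t' (e2.const_mul _) (((eg_dF t t' u).const_mul _).add
      (e3.const_mul (-4))), Aw_add S t t' ((eg_dF t t' u).const_mul _) (e3.const_mul (-4)),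
    Aw_const, Aw_const_mul, Aw_const_mul, Aw_const_mul, Aw_const_mul, z1, z2] at h4
  have h5 := last_le (S := S) hM hb hN t t' u
  unfold IncF
  linarith

/-- the energy of the increments with the weight `<Q_1(t), C_t²>` -/
noncomputable def IncT (S : CS n k x) (w : ℝ) (m σ : ℕ → ℝ) (N : ℕ) (c t t' : ℝ) : ℝ :=
  ∫ g, E1 S w m σ N t (fun u => qF S t (Q1 S w m σ N t (c • g)) u * IncF S t t' u) (c • g)
    ∂(gI (Pair n))

lemma eg_IncT (hm : Pm m N) (c : ℝ) (h2 : t ≤ t') (h3 : t' ≤ 1) :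
    EG fun g : Pair n → ℝ => E1 S w m σ N t
      (fun u => qF S t (Q1 S w m σ N t (c • g)) u * IncF S t t' u) (c • g) :=
  eg_form hm (fun i j => eg_Q1 hm i j) (eg_IncF h2 h3) c

lemma IncT_nonneg (hm : Pm m N) (c t t' : ℝ) : 0 ≤ IncT S w m σ N c t t' :=
  integral_nonneg fun g => E1_nonneg (fun u => mul_nonneg (qF_nonneg (Q1_psd hm (c • g)) u)
    (IncF_nonneg t t' u)) (c • g)

/-- **The increments of `C` in the weight `<Q_1(t), C_t²>`: any two times.** -/
theorem IncT_le {Nb : ℝ} (hm : Pm m N) (c : ℝ) (hN : 0 ≤ Nb) (h1 : w ≤ t) (h2 : t ≤ t')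
    (h3 : t' ≤ 1) :
    IncT S w m σ N c t t' ≤
      (2 * QNQ S w m σ N c t' + 8 * Nb * NQ S w m σ N c t') -
      (2 * QNQ S w m σ N c t + 8 * Nb * NQ S w m σ N c t) +
      32 * (n : ℝ) ^ 6 * (pB S w m σ N c Nb t' + pB S w m σ N c Nb t) := by
  have i1 := eg_IncT (S := S) (w := w) (σ := σ) hm c h2 h3
  have i2 := eg_QNW (S := S) (w := w) (t := t') (σ := σ) (Y := Q1 S w m σ N t') hm
    (fun i j => eg_Q1 hm i j) c
  have i3 := eg_QNW (S := S) (w := w) (t := t) (σ := σ) (Y := Q1 S w m σ N t) hm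
    (fun i j => eg_Q1 hm i j) c
  have i4 := eg_IncW (S := S) (σ := σ) hm c (Y := Q1 S w m σ N t) (fun i j => eg_Q1 hm i j) h1 h2
    h3
  have i5 := eg_pB (S := S) (w := w) (t := t') (σ := σ) hm c Nb
  have i6 := eg_pB (S := S) (w := w) (t := t) (σ := σ) hm c Nb
  have key : ∀ z, E1 S w m σ N t (fun u => qF S t (Q1 S w m σ N t z) u * IncF S t t' u) z ≤
      2 * (E1 S w m σ N t' (QN S t' (Q1 S w m σ N t' z)) z -
        E1 S w m σ N t (QN S t (Q1 S w m σ N t z)) z) +
      (16 * Nb * E1 S w m σ N t (Inc S t t' (Q1 S w m σ N t z)) z + 32 * (n : ℝ) ^ 5 * n *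
        (E1 S w m σ N t' (bd S Nb t') z + E1 S w m σ N t (bd S Nb t) z)) := by
    intro z
    set Y := Q1 S w m σ N t z with hY
    have eq' := eg_Aw S t t' (eg_QN (S := S) t' Y)
    have eb' := eg_Aw S t t' (eg_bd S Nb t')
    have ei := eg_Inc (S := S) h2 h3 Y
    have a1 := E1_mono (S := S) (w := w) (t := t) (σ := σ) hm
      ((eg_qF (S := S) t Y).mul (eg_IncF (S := S) h2 h3))
      (((eq'.sub (eg_QN t Y)).const_mul 2).add ((ei.const_mul (16 * Nb)).add
        ((eb'.add (eg_bd S Nb t)).const_mul (32 * (n : ℝ) ^ 5 * n))))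
      (fun u => inc_pt (Q1_psd hm z) (fun i j => abs_Q1 hm z i j) hN h2 h3 u) z
    rw [E1_add hm ((eq'.sub (eg_QN t Y)).const_mul 2) ((ei.const_mul (16 * Nb)).add
        ((eb'.add (eg_bd S Nb t)).const_mul (32 * (n : ℝ) ^ 5 * n))), E1_const_mul,
      E1_sub hm eq' (eg_QN t Y), E1_add hm (ei.const_mul _)
        ((eb'.add (eg_bd S Nb t)).const_mul _), E1_const_mul, E1_const_mul,
      E1_add hm eb' (eg_bd S Nb t)] at a1
    have b1 : E1 S w m σ N t (fun u => Aw S t t' (QN S t' Y) u) z =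
        E1 S w m σ N t' (QN S t' Y) z := (E1_tower h1 h2 h3 (eg_QN t' Y) z).symm
    have b2 : E1 S w m σ N t (fun u => Aw S t t' (bd S Nb t') u) z =
        E1 S w m σ N t' (bd S Nb t') z := (E1_tower h1 h2 h3 (eg_bd S Nb t') z).symm
    rw [b1, b2] at a1
    have a2 : E1 S w m σ N t' (QN S t' Y) z ≤ E1 S w m σ N t' (QN S t' (Q1 S w m σ N t' z)) z := by
      refine E1_mono hm (eg_QN t' _) (eg_QN t' _) (fun u => ?_) z
      have c1 := qF_nonneg (S := S) (t := t') (Q1_inc (S := S) (σ := σ) hm h1 h2 h3 z) u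
      have c2 : qF S t' (Q1 S w m σ N t' z - Q1 S w m σ N t z) u =
          qF S t' (Q1 S w m σ N t' z) u - qF S t' Y u := by
        unfold qF
        rw [← Finset.sum_sub_distrib]
        refine Finset.sum_congr rfl fun i _ => ?_
        rw [← Finset.sum_sub_distrib]
        exact Finset.sum_congr rfl fun j _ => by
          rw [Matrix.sub_apply]
          ring
      rw [c2] at c1
      exact mul_le_mul_of_nonneg_right (by linarith) (frA_nonneg t' u)
    linarith
  have j1 := (i2.sub i3).const_mul 2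
  have j2 := i4.const_mul (16 * Nb)
  have j3 := (i5.add i6).const_mul (32 * (n : ℝ) ^ 5 * n)
  have e1 := integral_mono i1.integrable (j1.add (j2.add j3)).integrable fun g => key (c • g)
  rw [integral_add j1.integrable (j2.add j3).integrable, integral_add j2.integrable j3.integrable,
    integral_const_mul, integral_const_mul, integral_const_mul,
    integral_sub i2.integrable i3.integrable, integral_add i5.integrable i6.integrable] at e1
  have h4 : IncW S w m σ N c (Q1 S w m σ N t) t t' ≤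
      (NQ S w m σ N c t' - NQ S w m σ N c t) / 2 :=
    IncQ_le (S := S) (σ := σ) hm c h1 h2 h3
  have h5 := mul_le_mul_of_nonneg_left h4 (show 0 ≤ 16 * Nb by positivity)
  have f1 : ∫ g : Pair n → ℝ, E1 S w m σ N t
      (fun u => qF S t (Q1 S w m σ N t (c • g)) u * IncF S t t' u) (c • g) ∂(gI (Pair n)) =
      IncT S w m σ N c t t' := rfl
  have f2 : ∫ g : Pair n → ℝ, E1 S w m σ N t' (QN S t' (Q1 S w m σ N t' (c • g))) (c • g)
      ∂(gI (Pair n)) = QNQ S w m σ N c t' := rfl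
  have f3 : ∫ g : Pair n → ℝ, E1 S w m σ N t (QN S t (Q1 S w m σ N t (c • g))) (c • g)
      ∂(gI (Pair n)) = QNQ S w m σ N c t := rfl
  have f4 : ∫ g : Pair n → ℝ, E1 S w m σ N t (Inc S t t' (Q1 S w m σ N t (c • g))) (c • g)
      ∂(gI (Pair n)) = IncW S w m σ N c (Q1 S w m σ N t) t t' := rfl
  have f5 : ∫ g : Pair n → ℝ, E1 S w m σ N t' (bd S Nb t') (c • g) ∂(gI (Pair n)) =
      pB S w m σ N c Nb t' := rfl
  have f6 : ∫ g : Pair n → ℝ, E1 S w m σ N t (bd S Nb t) (c • g) ∂(gI (Pair n)) =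
      pB S w m σ N c Nb t := rfl
  rw [f1, f2, f3, f4, f5, f6] at e1
  have e4 : 32 * (n : ℝ) ^ 5 * n = 32 * (n : ℝ) ^ 6 := by ring
  rw [e4] at e1
  linarith

end Vale.Agent.P146.H713.En2
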