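import Vale.Agent.P146.H713.En4
import Vale.Agent.P146.H655.GridC

/-!
The pair of late times, part 3: the growth of `2 E W|C|² + 8 Nb E|Q|²` over a gap `Δ = p δ` of the
grid as a further family of `all_rates`; the exchange of the weights of the two times.
-/

open MeasureTheory ProbabilityTheory

namespace Vale.Agent.P146.H713.En2

open Vale.Agent.P157.Lv Vale.Agent.P146.H425 Vale.Agent.P146.H325 Vale.Agent.P146.H332
  Vale.Agent.P146.H712 Vale.Agent.P146.H816 Vale.Agent.P146.R1 Vale.Agent.P146.R1C Matrix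
  Vale.Agent.P146.R1S Vale.Agent.P146.H693 Vale.Agent.P146.H655 Vale.Agent.P146.H946.En2
open Vale.Agent.P146.H785 (Ax)

set_option linter.unusedSectionVars false

variable {n : ℕ} {k x : ℝ} {S : CS n k x} {w t t' s s' : ℝ} {m σ : ℕ → ℝ} {N : ℕ}
  {M : Matrix (Fin n) (Fin n) ℝ}

/-- the potential of the increments -/
noncomputable def FF (S : CS n k x) (w : ℝ) (m σ : ℕ → ℝ) (N : ℕ) (c Nb t : ℝ) : ℝ :=
  2 * QNQ S w m σ N c t + 8 * Nb * NQ S w m σ N c t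

/-- its average over the gap -/
noncomputable def FA (S : CS n k x) (w : ℝ) (m σ : ℕ → ℝ) (N : ℕ) (c Nb δ : ℝ) (p : ℕ)
    (t : ℝ) : ℝ := (∑ i ∈ Finset.range p, FF S w m σ N c Nb (t + i * δ)) / p

/-- the difference quotient, with the error `E0` -/
noncomputable def FG (S : CS n k x) (w : ℝ) (m σ : ℕ → ℝ) (N : ℕ) (c Nb δ : ℝ) (p : ℕ)
    (E0 t : ℝ) : ℝ :=
  (FF S w m σ N c Nb (t + p * δ) - FF S w m σ N c Nb t + E0) / (p * δ)

section fam

variable {a b c Nb η δ E0 : ℝ} {p : ℕ}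

/-- almost monotone -/
lemma FF_mono (hm : Pm m N) (c : ℝ) (hNb : 0 ≤ Nb)
    (hpB : ∀ t, a ≤ t → t ≤ b → pB S w m σ N c Nb t ≤ η) (h0 : w ≤ a) (hb : b ≤ 1)
    (h1 : a ≤ t) (h2 : t ≤ t') (h3 : t' ≤ b) :
    IncT S w m σ N c t t' ≤ FF S w m σ N c Nb t' - FF S w m σ N c Nb t +
      64 * (n : ℝ) ^ 6 * η := by
  have a1 := IncT_le (S := S) (σ := σ) (w := w) hm c hNb (h0.trans h1) h2 (h3.trans hb)
  have a2 := hpB t h1 (h2.trans h3)
  have a3 := hpB t' (h1.trans h2) h3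
  have a4 : 32 * (n : ℝ) ^ 6 * (pB S w m σ N c Nb t' + pB S w m σ N c Nb t) ≤
      32 * (n : ℝ) ^ 6 * (η + η) := mul_le_mul_of_nonneg_left (by linarith) (by positivity)
  unfold FF
  linarith

lemma FF_le (hm : Pm m N) (c : ℝ) (hNb : 0 ≤ Nb) (h : pB S w m σ N c Nb t ≤ η) :
    FF S w m σ N c Nb t ≤ 10 * (Nb * NQ S w m σ N c t) + 2 * (n : ℝ) ^ 6 * η := by
  have a1 := QNQ_le (S := S) (w := w) (t := t) (σ := σ) hm c hNb
  have a2 : (n : ℝ) ^ 6 * pB S w m σ N c Nb t ≤ (n : ℝ) ^ 6 * η :=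
    mul_le_mul_of_nonneg_left h (by positivity)
  unfold FF
  linarith

lemma FF_ge (hm : Pm m N) (c : ℝ) : 8 * (Nb * NQ S w m σ N c t) ≤ FF S w m σ N c Nb t := by
  have a1 := QNQ_nonneg (S := S) (w := w) (t := t) (σ := σ) hm c
  unfold FF
  linarith

/-- the difference quotient is nonnegative -/
lemma FG_nonneg (hm : Pm m N) (c : ℝ) (hNb : 0 ≤ Nb)
    (hpB : ∀ t, a ≤ t → t ≤ b → pB S w m σ N c Nb t ≤ η) (h0 : w ≤ a) (hb : b ≤ 1)
    (hδ : 0 < δ) (hE : 64 * (n : ℝ) ^ 6 * η ≤ E0) (h1 : a ≤ t) (h3 : t + p * δ ≤ b) :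
    0 ≤ FG S w m σ N c Nb δ p E0 t := by
  have hp : (0 : ℝ) ≤ p * δ := by positivity
  have a1 := FF_mono (S := S) (w := w) (σ := σ) hm c hNb hpB h0 hb h1
    (show t ≤ t + p * δ by linarith) h3
  have a2 := IncT_nonneg (S := S) (w := w) (σ := σ) hm c t (t + p * δ)
  exact div_nonneg (by linarith) hp

/-- the step identity -/
lemma FA_step (hp : 0 < p) (hδ : 0 < δ) (t : ℝ) :
    δ * FG S w m σ N c Nb δ p E0 t = FA S w m σ N c Nb δ p (t + δ) - FA S w m σ N c Nb δ p t +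
      E0 / p := by
  have hp' : (0 : ℝ) < p := by exact_mod_cast hp
  have h := Finset.sum_range_succ (fun i : ℕ => FF S w m σ N c Nb (t + i * δ)) p
  have h' := Finset.sum_range_succ' (fun i : ℕ => FF S w m σ N c Nb (t + i * δ)) p
  have e1 : ∀ i : ℕ, FF S w m σ N c Nb (t + (i + 1 : ℕ) * δ) =
      FF S w m σ N c Nb (t + δ + i * δ) := fun i => by
    congr 1
    push_cast
    ring
  have e2 : FF S w m σ N c Nb (t + (0 : ℕ) * δ) = FF S w m σ N c Nb t := by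
    congr 1
    simp
  simp only [e1, e2] at h'
  have e3 : ∑ i ∈ Finset.range p, FF S w m σ N c Nb (t + δ + i * δ) -
      ∑ i ∈ Finset.range p, FF S w m σ N c Nb (t + i * δ) =
      FF S w m σ N c Nb (t + p * δ) - FF S w m σ N c Nb t := by linarith
  unfold FG FA
  rw [← sub_div, e3]
  field_simp

/-- upper bound of the average -/
lemma FA_le {U : ℝ} (hp : 0 < p) (h : ∀ i < p, FF S w m σ N c Nb (t + i * δ) ≤ U) :
    FA S w m σ N c Nb δ p t ≤ U := by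
  have hp' : (0 : ℝ) < p := by exact_mod_cast hp
  unfold FA
  rw [div_le_iff₀ hp']
  refine (Finset.sum_le_sum fun i hi => h i (Finset.mem_range.1 hi)).trans (le_of_eq ?_)
  rw [Finset.sum_const, Finset.card_range, nsmul_eq_mul]
  ring

lemma FA_ge {U : ℝ} (hp : 0 < p) (h : ∀ i < p, U ≤ FF S w m σ N c Nb (t + i * δ)) :
    U ≤ FA S w m σ N c Nb δ p t := by
  have hp' : (0 : ℝ) < p := by exact_mod_cast hp
  unfold FA
  rw [le_div_iff₀ hp']
  refine (le_of_eq ?_).trans (Finset.sum_le_sum fun i hi => h i (Finset.mem_range.1 hi))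
  rw [Finset.sum_const, Finset.card_range, nsmul_eq_mul]
  ring

/-- the range of the average over the whole interval -/
lemma FA_range (hm : Pm m N) (c : ℝ) (hn : 2 ≤ n) (hNb : 0 < Nb) {h : ℝ} {Mg : ℕ}
    (hpB : ∀ t, a ≤ t → t ≤ b → pB S w m σ N c Nb t ≤ η)
    (hp : 0 < p) (hδ : 0 < δ) (hh : 0 ≤ h) (hab : a + h + p * δ ≤ b)
    (hη : (66 + 64 * Mg) * (n : ℝ) ^ 6 * η ≤ Nb * n) :
    0 < FA S w m σ N c Nb δ p a ∧
      FA S w m σ N c Nb δ p (a + h) + Mg * (64 * (n : ℝ) ^ 6 * η / p) ≤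
        2 * (n : ℝ) ^ 3 * FA S w m σ N c Nb δ p a := by
  have hp' : (0 : ℝ) < p := by exact_mod_cast hp
  have hp1 : (1 : ℝ) ≤ p := by exact_mod_cast hp
  have hn2 : (2 : ℝ) ≤ n := by exact_mod_cast hn
  have hn0 : (0 : ℝ) < n := by linarith
  have hpd : 0 ≤ p * δ := by positivity
  have hη0 : 0 ≤ η := (pB_nonneg (S := S) (w := w) (m := m) (σ := σ) (N := N) (t := a) c
    Nb).trans (hpB a le_rfl (by linarith))
  have hE : 0 ≤ 64 * (n : ℝ) ^ 6 * η := by positivity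
  have hi : ∀ i < p, (i : ℝ) * δ ≤ p * δ := fun i hi =>
    mul_le_mul_of_nonneg_right (by exact_mod_cast hi.le) hδ.le
  have hi0 : ∀ i : ℕ, 0 ≤ (i : ℝ) * δ := fun i => by positivity
  have hlow : 8 * (Nb * n) ≤ FA S w m σ N c Nb δ p a := by
    refine FA_ge hp fun i _ => ?_
    have a1 := FF_ge (S := S) (w := w) (t := a + i * δ) (σ := σ) (Nb := Nb) hm c
    have a2 : Nb * n ≤ Nb * NQ S w m σ N c (a + i * δ) :=
      mul_le_mul_of_nonneg_left (NQ_ge hm c) hNb.le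
    linarith
  have hup : FA S w m σ N c Nb δ p (a + h) ≤ 10 * (Nb * (n : ℝ) ^ 4) + 2 * (n : ℝ) ^ 6 * η := by
    refine FA_le hp fun i hp => ?_
    have a1 := FF_le (S := S) (w := w) (t := a + h + i * δ) (σ := σ) (Nb := Nb) (η := η) hm c
      hNb.le (hpB _ (by linarith [hi0 i]) (by linarith [hi i hp]))
    have a2 : Nb * NQ S w m σ N c (a + h + i * δ) ≤ Nb * (n : ℝ) ^ 4 :=
      mul_le_mul_of_nonneg_left (NQ_le hm c) hNb.le
    linarith
  have hn3 : (1 : ℝ) ≤ (n : ℝ) ^ 3 := one_le_pow₀ (by linarith)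
  refine ⟨by nlinarith [mul_pos hNb hn0], ?_⟩
  have a3 : (Mg : ℝ) * (64 * (n : ℝ) ^ 6 * η / p) ≤ Mg * (64 * (n : ℝ) ^ 6 * η) :=
    mul_le_mul_of_nonneg_left (div_le_self hE hp1) (by positivity)
  have a4 : 2 * (n : ℝ) ^ 3 * (8 * (Nb * n)) ≤ 2 * (n : ℝ) ^ 3 * FA S w m σ N c Nb δ p a :=
    mul_le_mul_of_nonneg_left hlow (by positivity)
  have a5 : 2 * (n : ℝ) ^ 3 * (8 * (Nb * n)) = 16 * (Nb * (n : ℝ) ^ 4) := by ring
  have a6 : Nb * n ≤ Nb * (n : ℝ) ^ 4 := by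
    refine mul_le_mul_of_nonneg_left ?_ hNb.le
    calc (n : ℝ) = 1 * n := by ring
      _ ≤ (n : ℝ) ^ 3 * n := mul_le_mul_of_nonneg_right hn3 hn0.le
      _ = _ := by ring
  have a7 : 0 ≤ (n : ℝ) ^ 6 * η := by positivity
  nlinarith [a7, mul_nonneg (show (0 : ℝ) ≤ Mg by positivity) a7]

/-- **Growth at a good time.** `θ = K p δ / h`. -/
theorem FF_growth (hm : Pm m N) (c : ℝ) (hNb : 0 < Nb)
    {h K θ : ℝ} {Mg j : ℕ}
    (hpB : ∀ t, a ≤ t → t ≤ b → pB S w m σ N c Nb t ≤ η) (h0 : w ≤ a) (hb : b ≤ 1)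
    (hp : 0 < p) (hδ : 0 < δ) (hh : 0 < h) (hK : 0 ≤ K) (hj : j ≤ Mg) (h1 : a ≤ t)
    (h3 : t + p * δ ≤ b) (hθ : K * (p * δ) ≤ θ * h) (hθ1 : θ ≤ 1 / 2)
    (hη : (288 + 128 * Mg) * (n : ℝ) ^ 6 * η ≤ θ * (Nb * n))
    (hg : h * FG S w m σ N c Nb δ p (64 * (n : ℝ) ^ 6 * η) t ≤
      K * (FA S w m σ N c Nb δ p t + j * (64 * (n : ℝ) ^ 6 * η / p)))
    (h4 : t ≤ s) (h5 : s ≤ t + p * δ) :
    IncT S w m σ N c t s ≤ 24 * θ * (Nb * NQ S w m σ N c t) := by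
  have hp' : (0 : ℝ) < p := by exact_mod_cast hp
  have hp1 : (1 : ℝ) ≤ p := by exact_mod_cast hp
  have hpd : 0 < p * δ := by positivity
  have hη0 : 0 ≤ η := (pB_nonneg (S := S) (w := w) (m := m) (σ := σ) (N := N) (t := t) c
    Nb).trans (hpB t h1 (by linarith))
  set E0 := 64 * (n : ℝ) ^ 6 * η with hE0
  have hE : 0 ≤ E0 := by positivity
  have hj' : (j : ℝ) ≤ Mg := by exact_mod_cast hj
  set F' := FF S w m σ N c Nb (t + p * δ) with hF'
  set F := FF S w m σ N c Nb t with hF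
  have hA : FA S w m σ N c Nb δ p t ≤ F' + E0 := by
    refine FA_le hp fun i hi => ?_
    have b1 : (i : ℝ) * δ ≤ p * δ := mul_le_mul_of_nonneg_right (by exact_mod_cast hi.le) hδ.le
    have b2 : 0 ≤ (i : ℝ) * δ := by positivity
    have b3 := FF_mono (S := S) (w := w) (σ := σ) hm c hNb.le hpB h0 hb
      (show a ≤ t + i * δ by linarith) (show t + i * δ ≤ t + p * δ by linarith) h3
    have b4 := IncT_nonneg (S := S) (w := w) (σ := σ) hm c (t + i * δ) (t + p * δ)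
    linarith
  have c1 : (j : ℝ) * (E0 / p) ≤ Mg * E0 :=
    mul_le_mul hj' (div_le_self hE hp1) (by positivity) (by positivity)
  have c2 : h * FG S w m σ N c Nb δ p E0 t ≤ K * (F' + (1 + Mg) * E0) :=
    hg.trans (mul_le_mul_of_nonneg_left (by linarith) hK)
  have c3 : FG S w m σ N c Nb δ p E0 t * (p * δ) = F' - F + E0 := by
    unfold FG
    exact div_mul_cancel₀ _ hpd.ne'
  have hF'0 : 0 ≤ F' + (1 + Mg) * E0 := by
    have b1 := FF_ge (S := S) (w := w) (t := t + p * δ) (σ := σ) (Nb := Nb) hm c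
    have b2 : 0 ≤ Nb * NQ S w m σ N c (t + p * δ) :=
      mul_nonneg hNb.le ((Nat.cast_nonneg n).trans (NQ_ge hm c))
    have b3 : 0 ≤ (1 + (Mg : ℝ)) * E0 := by positivity
    linarith
  have c4 : h * (F' - F + E0) ≤ h * (θ * (F' + (1 + Mg) * E0)) := by
    calc h * (F' - F + E0) = (h * FG S w m σ N c Nb δ p E0 t) * (p * δ) := by rw [← c3]; ring
      _ ≤ K * (F' + (1 + Mg) * E0) * (p * δ) := mul_le_mul_of_nonneg_right c2 hpd.le
      _ = K * (p * δ) * (F' + (1 + Mg) * E0) := by ring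
      _ ≤ θ * h * (F' + (1 + Mg) * E0) := mul_le_mul_of_nonneg_right hθ hF'0
      _ = _ := by ring
  have c5 : F' - F + E0 ≤ θ * (F' + (1 + Mg) * E0) := le_of_mul_le_mul_left c4 hh
  have hθ0 : 0 ≤ θ := by
    by_contra hcon
    push Not at hcon
    have b1 : 0 ≤ K * (p * δ) := by positivity
    nlinarith
  have hs := FF_mono (S := S) (w := w) (σ := σ) hm c hNb.le hpB h0 hb h1 h4 (h5.trans h3)
  have hs' := FF_mono (S := S) (w := w) (σ := σ) hm c hNb.le hpB h0 hb (h1.trans h4) h5 h3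
  have hs0 := IncT_nonneg (S := S) (w := w) (σ := σ) hm c s (t + p * δ)
  have hFle := FF_le (S := S) (w := w) (t := t) (σ := σ) (Nb := Nb) (η := η) hm c hNb.le
    (hpB t h1 (by linarith))
  have hNn : Nb * n ≤ Nb * NQ S w m σ N c t := mul_le_mul_of_nonneg_left (NQ_ge hm c) hNb.le
  rw [← hF] at hFle hs
  rw [← hF'] at hs'
  have e1 : IncT S w m σ N c t s ≤ F' - F + E0 + E0 := by linarith
  have e2 : θ * (F' - F + E0) ≤ 1 / 2 * (F' - F + E0) := by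
    refine mul_le_mul_of_nonneg_right hθ1 ?_
    have b3 := FF_mono (S := S) (w := w) (σ := σ) hm c hNb.le hpB h0 hb h1
      (show t ≤ t + p * δ by linarith) h3
    have b4 := IncT_nonneg (S := S) (w := w) (σ := σ) hm c t (t + p * δ)
    linarith
  have e3 : F' - F + E0 ≤ 2 * (θ * F) + 2 * (θ * (Mg * E0)) := by
    have b1 : θ * (F' + (1 + Mg) * E0) = θ * (F' - F + E0) + θ * F + θ * (Mg * E0) := by ring
    linarith
  have e4 : θ * F ≤ 10 * (θ * (Nb * NQ S w m σ N c t)) + 2 * (θ * ((n : ℝ) ^ 6 * η)) := by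
    refine (mul_le_mul_of_nonneg_left hFle hθ0).trans (le_of_eq ?_)
    ring
  have e5 : θ * (Nb * n) ≤ θ * (Nb * NQ S w m σ N c t) := mul_le_mul_of_nonneg_left hNn hθ0
  have e6 : θ * ((n : ℝ) ^ 6 * η) ≤ 1 / 2 * ((n : ℝ) ^ 6 * η) :=
    mul_le_mul_of_nonneg_right hθ1 (by positivity)
  have e7 : θ * (Mg * E0) ≤ 32 * (Mg * ((n : ℝ) ^ 6 * η)) := by
    refine (mul_le_mul_of_nonneg_right hθ1 (by positivity)).trans (le_of_eq ?_)
    rw [hE0]
    ring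
  have e8 : 0 ≤ (Mg : ℝ) * ((n : ℝ) ^ 6 * η) := by positivity
  have e9 : 0 ≤ (n : ℝ) ^ 6 * η := by positivity
  have e10 : (288 + 128 * (Mg : ℝ)) * (n : ℝ) ^ 6 * η = 288 * ((n : ℝ) ^ 6 * η) +
      128 * (Mg * ((n : ℝ) ^ 6 * η)) := by ring
  have e11 : E0 = 64 * ((n : ℝ) ^ 6 * η) := by rw [hE0]; ring
  have e12 : 24 * θ * (Nb * NQ S w m σ N c t) = 24 * (θ * (Nb * NQ S w m σ N c t)) := by ring
  rw [e12]
  rw [e10] at hη
  linarith

end fam

end Vale.Agent.P146.H713.En2
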