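import Vale.Agent.P146.H713.Dic2
import Vale.Agent.P146.H713.En6

/-!
Rates with a scalar weight of the deep position: step inequality, the weight `|Q_1(t)|`, the second
time with finitely many such weights, and the dictionary.
-/

open MeasureTheory ProbabilityTheory

namespace Vale.Agent.P146.H713.En2

open Vale.Agent.P157.Lv Vale.Agent.P146.H425 Vale.Agent.P146.H325 Vale.Agent.P146.H332
  Vale.Agent.P146.H712 Vale.Agent.P146.H816 Vale.Agent.P146.R1 Vale.Agent.P146.R1C Matrix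
  Vale.Agent.P146.R1S Vale.Agent.P146.H693 Vale.Agent.P146.H655 Vale.Agent.P146.H706
  Vale.Agent.P146.H946.En2
open Vale.Agent.P146.H785 (Ax)

set_option linter.unusedSectionVars false

variable {n : ℕ} {k x : ℝ} {S : CS n k x} {w t t' s s' : ℝ} {m σ : ℕ → ℝ} {N : ℕ}

/-- `E θ(z_deep) |C_t|²` -/
noncomputable def N0 (S : CS n k x) (w : ℝ) (m σ : ℕ → ℝ) (N : ℕ) (c : ℝ)
    (θ : (Pair n → ℝ) → ℝ) (t : ℝ) : ℝ :=
  ∫ g, θ (c • g) * E1 S w m σ N t (fun v => fr (S.A t v)) (c • g) ∂(gI (Pair n))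

/-- `E θ(z_deep) ∑_e |D_e C_t|²` -/
noncomputable def R0 (S : CS n k x) (w : ℝ) (m σ : ℕ → ℝ) (N : ℕ) (c : ℝ)
    (θ : (Pair n → ℝ) → ℝ) (t : ℝ) : ℝ :=
  ∫ g, θ (c • g) * E1 S w m σ N t (sD S t) (c • g) ∂(gI (Pair n))

variable {θ θ' : (Pair n → ℝ) → ℝ}

lemma eg_th (hm : Pm m N) (c : ℝ) (hθ : EG θ) {φ : (Pair n → ℝ) → ℝ} (hφ : EG φ) :
    EG fun g : Pair n → ℝ => θ (c • g) * E1 S w m σ N t φ (c • g) :=
  (eg_sc hθ c).mul (eg_sc (eg_E1 hm hφ) c)

lemma R0_nonneg (h0 : ∀ z, 0 ≤ θ z) (c t : ℝ) : 0 ≤ R0 S w m σ N c θ t :=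
  integral_nonneg fun g => mul_nonneg (h0 _) (E1_nonneg (fun u => sD_nonneg t u) _)

/-- the step at a position -/
lemma E1_sD (hm : Pm m N) (h1 : w ≤ t) (h2 : t < t') (h3 : t' ≤ 1) (hk : Sh S (t' - t))
    (z : Pair n → ℝ) :
    (t' - t) * E1 S w m σ N t (sD S t) z ≤
      2 * (E1 S w m σ N t' (fun v => fr (S.A t' v)) z - E1 S w m σ N t (fun v => fr (S.A t v)) z)
    := by
  have e1 := eg_Aw S t t' (eg_frA (S := S) t')
  have h := E1_mono (S := S) (w := w) (t := t) (σ := σ) hm ((eg_sDA t).const_mul (t' - t))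
    ((e1.sub (eg_frA t)).const_mul 2) (fun u => by
      have h4 := rt_pt (S := S) (t := t) (s := t) le_rfl h2 h3 hk u
      have hc := c11_uu S.c11 S.x0 t
      have b1 : ∀ φ : (Pair n → ℝ) → ℝ, Aw S t t φ u = φ u := by
        intro φ
        unfold Aw
        rw [sub_self, Real.sqrt_zero]
        unfold Ax
        simp only [zero_smul, add_zero]
        rw [integral_const, integral_const, probReal_univ, one_smul, one_smul]
        field_simp
      rw [b1, b1] at h4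
      exact h4) z
  rw [E1_const_mul, E1_const_mul, E1_sub hm e1 (eg_frA t),
    ← E1_tower h1 h2.le h3 (eg_frA t')] at h
  exact h

lemma E1_frA_nonneg (z : Pair n → ℝ) : 0 ≤ E1 S w m σ N t (fun v => fr (S.A t v)) z :=
  E1_nonneg (fun u => frA_nonneg t u) z

/-- **The step inequality with deep weights `θ ≤ θ'`.** -/
theorem R0_le (hm : Pm m N) (c : ℝ) (hθ : EG θ) (hθ' : EG θ') (h0 : ∀ z, 0 ≤ θ z)
    (hle : ∀ z, θ z ≤ θ' z) (h1 : w ≤ t) (h2 : t < t') (h3 : t' ≤ 1) (hk : Sh S (t' - t)) :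
    (t' - t) * R0 S w m σ N c θ t ≤ 2 * N0 S w m σ N c θ' t' - 2 * N0 S w m σ N c θ t := by
  have i1 := eg_th (S := S) (w := w) (t := t) (σ := σ) hm c hθ (eg_sDA (S := S) t)
  have i2 := eg_th (S := S) (w := w) (t := t') (σ := σ) hm c hθ' (eg_frA (S := S) t')
  have i3 := eg_th (S := S) (w := w) (t := t) (σ := σ) hm c hθ (eg_frA (S := S) t)
  have key := integral_mono (i1.const_mul (t' - t)).integrable
    ((i2.const_mul 2).sub (i3.const_mul 2)).integrable fun g => by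
      simp only
      have a1 := mul_le_mul_of_nonneg_left (E1_sD (S := S) (σ := σ) hm h1 h2 h3 hk (c • g))
        (h0 (c • g))
      have a2 := mul_le_mul_of_nonneg_right (hle (c • g))
        (E1_frA_nonneg (S := S) (w := w) (t := t') (m := m) (σ := σ) (N := N) (c • g))
      have e1 : (fun v => ∑ e : Pair n, fr (S.DA t e v)) = sD S t := rfl
      rw [e1]
      nlinarith [a1, a2]
  rw [integral_const_mul, integral_sub (i2.const_mul 2).integrable (i3.const_mul 2).integrable,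
    integral_const_mul, integral_const_mul] at key
  exact key

lemma N0_ge (hm : Pm m N) (c : ℝ) (hθ : EG θ) (h0 : ∀ z, 0 ≤ θ z) :
    (n : ℝ) * (∫ g, θ (c • g) ∂(gI (Pair n))) ≤ N0 S w m σ N c θ t := by
  rw [← integral_const_mul]
  refine integral_mono ((eg_sc hθ c).const_mul _).integrable
    (eg_th hm c hθ (eg_frA t)).integrable fun g => ?_
  simp only
  have h := E1_mono (S := S) (w := w) (t := t) (σ := σ) (ψ := fun v => fr (S.A t v)) hm
    (EG.const (n : ℝ)) (eg_frA (S := S) t) (fun u => frA_ge (S := S) t u) (c • g)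
  rw [E1_const hm] at h
  nlinarith [mul_le_mul_of_nonneg_left h (h0 (c • g))]

lemma N0_le (hm : Pm m N) (c : ℝ) (hθ : EG θ) (h0 : ∀ z, 0 ≤ θ z) :
    N0 S w m σ N c θ t ≤ (n : ℝ) ^ 2 * ∫ g, θ (c • g) ∂(gI (Pair n)) := by
  rw [← integral_const_mul]
  refine integral_mono (eg_th hm c hθ (eg_frA t)).integrable
    ((eg_sc hθ c).const_mul _).integrable fun g => ?_
  simp only
  have h := E1_mono (S := S) (w := w) (t := t) (σ := σ) (φ := fun v => fr (S.A t v)) hm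
    (eg_frA (S := S) t) (EG.const ((n : ℝ) ^ 2)) (fun u => frA_le (S := S) t u) (c • g)
  rw [E1_const hm] at h
  nlinarith [mul_le_mul_of_nonneg_left h (h0 (c • g))]

/-! ### the weight `|Q_1(t)|` -/

lemma psd_ip {M P : Matrix (Fin n) (Fin n) ℝ} (hM : Psd M) (hP : Psd P) :
    0 ≤ ∑ i, ∑ j, M i j * P i j := by
  obtain ⟨V, lam, hl, hV⟩ := H499.psd_decomp hP
  have e : ∑ i, ∑ j, M i j * P i j = ∑ a, lam a * ∑ i, ∑ j, V i a * V j a * M i j := by
    simp only [hV, Finset.mul_sum]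
    rw [Finset.sum_comm' (t' := Finset.univ) (s' := fun _ => Finset.univ) (by simp)]
    conv_rhs => rw [Finset.sum_comm]
    conv_lhs => rw [Finset.sum_comm]
    refine Finset.sum_congr rfl fun i _ => ?_
    conv_rhs => rw [Finset.sum_comm]
    refine Finset.sum_congr rfl fun j _ => Finset.sum_congr rfl fun a _ => ?_
    ring
  rw [e]
  refine Finset.sum_nonneg fun a _ => mul_nonneg (hl a) ?_
  have h := hM.2 fun i => V i a
  refine le_of_le_of_eq h ?_
  exact Finset.sum_congr rfl fun i _ => Finset.sum_congr rfl fun j _ => by ring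

lemma frQ_mono (hm : Pm m N) (h1 : w ≤ t) (h2 : t ≤ t') (h3 : t' ≤ 1) (z : Pair n → ℝ) :
    fr (Q1 S w m σ N t z) ≤ fr (Q1 S w m σ N t' z) := by
  have a1 := psd_ip (Q1_psd (S := S) (w := w) (t := t) (σ := σ) hm z)
    (Q1_inc (S := S) (σ := σ) hm h1 h2 h3 z)
  have a2 := psd_ip (Q1_psd (S := S) (w := w) (t := t') (σ := σ) hm z)
    (Q1_inc (S := S) (σ := σ) hm h1 h2 h3 z)
  have e : fr (Q1 S w m σ N t' z) - fr (Q1 S w m σ N t z) =
      (∑ i, ∑ j, Q1 S w m σ N t z i j * (Q1 S w m σ N t' z - Q1 S w m σ N t z) i j) +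
      ∑ i, ∑ j, Q1 S w m σ N t' z i j * (Q1 S w m σ N t' z - Q1 S w m σ N t z) i j := by
    unfold fr
    rw [← Finset.sum_sub_distrib, ← Finset.sum_add_distrib]
    refine Finset.sum_congr rfl fun i _ => ?_
    rw [← Finset.sum_sub_distrib, ← Finset.sum_add_distrib]
    exact Finset.sum_congr rfl fun j _ => by
      rw [Matrix.sub_apply]
      ring
  linarith

/-- the Frobenius norm of `Q_1(t)` -/
noncomputable def nQ (S : CS n k x) (w : ℝ) (m σ : ℕ → ℝ) (N : ℕ) (t : ℝ)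
    (z : Pair n → ℝ) : ℝ := √(fr (Q1 S w m σ N t z))

lemma eg_nQ (hm : Pm m N) : EG (nQ S w m σ N t) := by
  have h1 : EG fun z => fr (Q1 S w m σ N t z) :=
    EG.sum _ fun i _ => EG.sum _ fun j _ => (eg_Q1 hm i j).pow 2
  refine EG.of_bdd (C := (n : ℝ) ^ 2) (h1.meas.sqrt) fun z => ?_
  unfold nQ
  rw [abs_of_nonneg (Real.sqrt_nonneg _)]
  refine Real.sqrt_le_iff.2 ⟨by positivity, ?_⟩
  exact (fr_Q1_le hm z).trans (le_of_eq (by ring))

lemma nQ_nonneg (z : Pair n → ℝ) : 0 ≤ nQ S w m σ N t z := Real.sqrt_nonneg _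

lemma nQ_mono (hm : Pm m N) (h1 : w ≤ t) (h2 : t ≤ t') (h3 : t' ≤ 1) (z : Pair n → ℝ) :
    nQ S w m σ N t z ≤ nQ S w m σ N t' z := Real.sqrt_le_sqrt (frQ_mono hm h1 h2 h3 z)

lemma nQ_ge (hm : Pm m N) (hn : 1 ≤ n) (z : Pair n → ℝ) : 1 ≤ nQ S w m σ N t z := by
  unfold nQ
  rw [Real.one_le_sqrt]
  have h : (1 : ℝ) ≤ n := by exact_mod_cast hn
  exact h.trans (fr_Q1_ge hm z)

lemma nQ_le (hm : Pm m N) (z : Pair n → ℝ) : nQ S w m σ N t z ≤ (n : ℝ) ^ 2 := by
  unfold nQ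
  refine Real.sqrt_le_iff.2 ⟨by positivity, ?_⟩
  exact (fr_Q1_le hm z).trans (le_of_eq (by ring))

/-- **The rate with the weight `|Q_1(t)|` of the same time**: `f(t) = 2 E |Q_1(t)| |C_t|²`,
`g(t) = E |Q_1(t)| ∑_e |D_e C_t|²`. -/
theorem fro_step (hm : Pm m N) (c : ℝ) (h1 : w ≤ t) (h2 : t < t') (h3 : t' ≤ 1)
    (hk : Sh S (t' - t)) :
    (t' - t) * R0 S w m σ N c (nQ S w m σ N t) t ≤
      2 * N0 S w m σ N c (nQ S w m σ N t') t' - 2 * N0 S w m σ N c (nQ S w m σ N t) t :=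
  R0_le hm c (eg_nQ hm) (eg_nQ hm) (fun z => nQ_nonneg z) (fun z => nQ_mono hm h1 h2.le h3 z)
    h1 h2 h3 hk

/-- the range of the potential -/
lemma fro_range (hm : Pm m N) (c : ℝ) (hn : 1 ≤ n) :
    (n : ℝ) ≤ N0 S w m σ N c (nQ S w m σ N t) t ∧
      N0 S w m σ N c (nQ S w m σ N t') t' ≤ (n : ℝ) ^ 4 := by
  constructor
  · refine le_trans ?_ (N0_ge hm c (eg_nQ hm) fun z => nQ_nonneg z)
    have h := integral_mono (integrable_const (μ := gI (Pair n)) (1 : ℝ))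
      (eg_sc (eg_nQ (S := S) (w := w) (t := t) (σ := σ) hm) c).integrable
      fun g => nQ_ge hm hn (c • g)
    rw [integral_const, probReal_univ, one_smul] at h
    have h0 : (0 : ℝ) ≤ n := by positivity
    nlinarith
  · refine (N0_le hm c (eg_nQ hm) fun z => nQ_nonneg z).trans ?_
    have h := integral_mono (eg_sc (eg_nQ (S := S) (w := w) (t := t') (σ := σ) hm) c).integrable
      (integrable_const (μ := gI (Pair n)) ((n : ℝ) ^ 2)) fun g => nQ_le hm (c • g)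
    rw [integral_const, probReal_univ, one_smul] at h
    have h0 : (0 : ℝ) ≤ (n : ℝ) ^ 2 := by positivity
    calc (n : ℝ) ^ 2 * ∫ g, nQ S w m σ N t' (c • g) ∂(gI (Pair n)) ≤ (n : ℝ) ^ 2 * (n : ℝ) ^ 2 :=
          mul_le_mul_of_nonneg_left h h0
      _ = (n : ℝ) ^ 4 := by ring

/-! ### the second time with further families of rates -/

/-- **The second time**, with any further family of potentials `f i`, rates `g i` and errors `e i`
per step on `[t + Δ/2, t + Δ]`. -/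
theorem second2 {ι : Type*} [Fintype ι] (hm : Pm m N) (c : ℝ) (hn : 2 ≤ n) {Δ q Nb η : ℝ} {M : ℕ}
    (h0 : w ≤ t) (hΔ : 0 < Δ) (h2 : t + 2 * Δ ≤ 1) (hSh : Sh S (Δ / 2 / M)) (hq : 1 ≤ q)
    (hNb : 0 < Nb) (hpB : ∀ s, t ≤ s → s ≤ t + Δ → pB S w m σ N c Nb s ≤ η)
    (hη : (4 + 128 * M) * (n : ℝ) ^ 6 * η ≤ Nb * n) (hM : 9 * q * Real.log n ≤ M)
    {f g : ι → ℝ → ℝ} {e K R : ι → ℝ} (hf : ∀ i, 0 < f i (t + Δ / 2))
    (hg : ∀ i s, t + Δ / 2 ≤ s → s ≤ t + Δ → 0 ≤ g i s)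
    (hs : ∀ i s, t + Δ / 2 ≤ s → s + Δ / 2 / M ≤ t + Δ →
      Δ / 2 / M * g i s ≤ f i (s + Δ / 2 / M) - f i s + e i)
    (hR : ∀ i, f i (t + Δ) + M * e i ≤ R i * f i (t + Δ / 2))
    (hK : ∀ i, 2 * q * Real.log (R i) ≤ K i) (hK0 : ∀ i, 0 < K i) (hKM : ∀ i, K i ≤ M) :
    ∃ G ⊆ Finset.range M, (M : ℝ) * (1 - (Fintype.card ι + 5) / q) ≤ G.card ∧
      ∀ j ∈ G, ∀ s, s = t + Δ / 2 + j * (Δ / 2 / M) → Rates S w m σ N c (Δ / 2) 0 1 q Nb s ∧
        Δ * RtT S w m σ N c t s ≤ 16 * q * Real.log n * (Nb * NQ S w m σ N c t) ∧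
        ∀ i, Δ / 2 * g i s ≤ K i * (f i s + j * e i) := by
  have hn2 : (2 : ℝ) ≤ n := by exact_mod_cast hn
  have hn0 : (0 : ℝ) < n := by linarith
  have hl : 0 < Real.log n := Real.log_pos (by linarith)
  have hql : 0 < q * Real.log n := by positivity
  have hM0 : (0 : ℝ) < M := lt_of_lt_of_le (by nlinarith) hM
  have hNQ : (0 : ℝ) < NQ S w m σ N c t := lt_of_lt_of_le hn0 (NQ_ge hm c)
  have hη0 : 0 ≤ η := (pB_nonneg (S := S) (w := w) (m := m) (σ := σ) (N := N) (t := t) c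
    Nb).trans (hpB t le_rfl (by linarith))
  have hlog2 : (2 : ℝ) / 3 ≤ Real.log (1 + 1) := by
    have := Real.log_two_gt_d9
    norm_num at this ⊢
    linarith
  have hS : ∀ s s' : ℝ, s' - s = Δ / 2 / M → Sh S (s' - s) := fun s s' h => by rw [h]; exact hSh
  have hst : (0 : ℝ) < Δ / 2 / M := by positivity
  have ha : t + Δ / 2 + Δ / 2 = t + Δ := by ring
  obtain ⟨G, hG, hc, hb⟩ := all_rates (ι := Option ι) (κ := Empty) (S := S) (σ := σ) (q := q)
    (M := M) (a := t + Δ / 2) (h := Δ / 2) (Δ := 0) (ε := 1) (Nb := Nb) (η := η)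
    (f := fun o s => o.elim (2 * NmT S w m σ N c t s) fun i => f i s)
    (g := fun o s => o.elim (RtT S w m σ N c t s) fun i => g i s)
    (e := fun o => o.elim 0 e) (K := fun o => o.elim (2 * q * Real.log n) K)
    (R := fun o => o.elim (n : ℝ) R)
    (F := fun i => i.elim) (R' := fun i => i.elim) hm c hn (by linarith) (by linarith) le_rfl
    (by linarith) hSh hq one_pos hNb (fun s b1 b2 => hpB s (by linarith) (by linarith)) hη
    (by nlinarith)
    (by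
      calc 6 * q * Real.log n = 9 * q * Real.log n * (2 / 3) := by ring
        _ ≤ M * (2 / 3) := mul_le_mul_of_nonneg_right hM (by norm_num)
        _ ≤ M * Real.log (1 + 1) := mul_le_mul_of_nonneg_left hlog2 hM0.le)
    (by
      have : 0 ≤ Δ / 2 * Real.log (1 + 1) := by positivity
      linarith)
    (by
      rintro (_ | i)
      · have h1 := NmT_ge (S := S) (w := w) (t := t) (s := t + Δ / 2) (σ := σ) hm c
        have h2 : 0 < (n : ℝ) * NQ S w m σ N c t := by positivity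
        show 0 < 2 * NmT S w m σ N c t (t + Δ / 2)
        linarith
      · exact hf i)
    (by
      rintro (_ | i) s b1 b2
      · exact RtT_nonneg hm c t s
      · exact hg i s b1 (b2.trans ha.le))
    (by
      rintro (_ | i) s b1 b2
      · have h1 := RtT_le (S := S) (w := w) (t := t) (s := s) (s' := s + Δ / 2 / M) (σ := σ) hm c
          (by linarith) (by linarith) (by linarith) (hS _ _ (by ring))
        have e : s + Δ / 2 / M - s = Δ / 2 / M := by ring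
        rw [e] at h1
        show Δ / 2 / M * RtT S w m σ N c t s ≤
          2 * NmT S w m σ N c t (s + Δ / 2 / M) - 2 * NmT S w m σ N c t s + 0
        linarith
      · exact hs i s b1 (b2.trans ha.le))
    (by
      rintro (_ | i)
      · have h1 := NmT_le2 (S := S) (w := w) (t := t) (s := t + Δ / 2 + Δ / 2) (σ := σ) hm c
        have h2 := NmT_ge (S := S) (w := w) (t := t) (s := t + Δ / 2) (σ := σ) hm c
        have h3 := mul_le_mul_of_nonneg_left h2 hn0.le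
        have h4 : (n : ℝ) * (n * NQ S w m σ N c t) = (n : ℝ) ^ 2 * NQ S w m σ N c t := by ring
        show 2 * NmT S w m σ N c t (t + Δ / 2 + Δ / 2) + M * 0 ≤
          n * (2 * NmT S w m σ N c t (t + Δ / 2))
        linarith
      · show f i (t + Δ / 2 + Δ / 2) + M * e i ≤ R i * f i (t + Δ / 2)
        rw [ha]
        exact hR i)
    (by
      rintro (_ | i)
      · exact le_rfl
      · exact hK i)
    (by
      rintro (_ | i)
      · show 0 < 2 * q * Real.log n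
        positivity
      · exact hK0 i)
    (by
      rintro (_ | i)
      · show 2 * q * Real.log n ≤ M
        nlinarith
      · exact hKM i)
    (fun i => i.elim) (fun i => i.elim) (fun i => i.elim) (fun i => i.elim) (fun i => i.elim)
  refine ⟨G, hG, le_trans (le_of_eq ?_) hc, fun j hj s hsj => ?_⟩
  · simp only [Fintype.card_option, Fintype.card_empty, Nat.cast_zero]
    push_cast
    ring
  · obtain ⟨b1, b2, -⟩ := hb j hj s hsj
    refine ⟨b1, ?_, fun i => b2 (some i)⟩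
    have b3 := b2 none
    simp only [Option.elim, mul_zero, add_zero] at b3
    have hjM : (j : ℝ) ≤ M := by exact_mod_cast (Finset.mem_range.1 (hG hj)).le
    have hj1 : (j : ℝ) * (Δ / 2 / M) ≤ Δ / 2 := by
      calc (j : ℝ) * (Δ / 2 / M) ≤ M * (Δ / 2 / M) := mul_le_mul_of_nonneg_right hjM hst.le
        _ = Δ / 2 := by field_simp
    have hj0 : 0 ≤ (j : ℝ) * (Δ / 2 / M) := by positivity
    have h5 := NmT_le (S := S) (w := w) (t := t) (s := s) (σ := σ) (Nb := Nb) hm c hNb.le h0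
      (by linarith) (by linarith)
    have h6 := hpB s (by linarith) (by linarith)
    have h7 : (n : ℝ) ^ 6 * pB S w m σ N c Nb s ≤ (n : ℝ) ^ 6 * η :=
      mul_le_mul_of_nonneg_left h6 (by positivity)
    have h8 : Nb * n ≤ Nb * NQ S w m σ N c t := mul_le_mul_of_nonneg_left (NQ_ge hm c) hNb.le
    have h9 : (n : ℝ) ^ 6 * η ≤ (4 + 128 * M) * (n : ℝ) ^ 6 * η := by
      have : 0 ≤ (n : ℝ) ^ 6 * η := by positivity
      nlinarith
    have h10 : NmT S w m σ N c t s ≤ 2 * (Nb * NQ S w m σ N c t) := by linarith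
    have h11 : 2 * q * Real.log n * (2 * NmT S w m σ N c t s) ≤
        2 * q * Real.log n * (2 * (2 * (Nb * NQ S w m σ N c t))) :=
      mul_le_mul_of_nonneg_left (by linarith) (by positivity)
    nlinarith [b3, h11]

/-- the facts on a fixed deep weight needed by a family: positivity, step, ratio -/
lemma th_member (hm : Pm m N) (c : ℝ) (hθ : EG θ) (h0 : ∀ z, 0 ≤ θ z) (hn : 1 ≤ n)
    (hp : 0 < ∫ g, θ (c • g) ∂(gI (Pair n))) :
    (∀ t, 0 < 2 * N0 S w m σ N c θ t) ∧ (∀ t, 0 ≤ R0 S w m σ N c θ t) ∧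
      (∀ t t', w ≤ t → t < t' → t' ≤ 1 → Sh S (t' - t) → (t' - t) * R0 S w m σ N c θ t ≤
        2 * N0 S w m σ N c θ t' - 2 * N0 S w m σ N c θ t) ∧
      ∀ t t', 2 * N0 S w m σ N c θ t' ≤ n * (2 * N0 S w m σ N c θ t) := by
  have hn1 : (1 : ℝ) ≤ n := by exact_mod_cast hn
  have e0 : ∀ t, 0 < 2 * N0 S w m σ N c θ t := fun t => by
    have h1 := N0_ge (S := S) (w := w) (t := t) (σ := σ) hm c hθ h0
    have h2 : 0 < (n : ℝ) * ∫ g, θ (c • g) ∂(gI (Pair n)) := by positivity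
    linarith
  refine ⟨e0, fun t => R0_nonneg h0 c t, fun t t' h1 h2 h3 hk =>
    R0_le hm c hθ hθ h0 (fun _ => le_rfl) h1 h2 h3 hk, fun t t' => ?_⟩
  have h1 := N0_ge (S := S) (w := w) (t := t) (σ := σ) hm c hθ h0
  have h2 := N0_le (S := S) (w := w) (t := t') (σ := σ) hm c hθ h0
  have h3 := mul_le_mul_of_nonneg_left h1 (by linarith : (0 : ℝ) ≤ n)
  have h4 : (n : ℝ) * (n * ∫ g, θ (c • g) ∂(gI (Pair n))) =
      (n : ℝ) ^ 2 * ∫ g, θ (c • g) ∂(gI (Pair n)) := by ring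
  linarith

/-! ### the dictionary -/

section dict

variable {n : ℕ} {k : ℝ} {q : Par} {S : CS n k q.x} {y l : ℝ} {m σ : ℕ → ℝ}
  {θ : (Pair n → ℝ) → ℝ}

/-- `E θ(P0) f(P3)` -/
theorem EwG_th3 (hT : Tm q y l) (hs : Stk q y l m σ) (hθ : EG θ) {f : (Pair n → ℝ) → ℝ}
    (hf : EG f) :
    EwG q (R1C.GTwo q y l S.F S.D) S.F (fun w => θ (P0 q w) * f (P3 q w)) =
      ∫ g, θ (√q.t0 • g) * E1 S q.t1 m σ 2 q.s2 f (√q.t0 • g) ∂(gI (Pair n)) := by
  have h := EwG_sum (S := S) hT hs (Finset.univ : Finset Unit) (a := fun _ => θ)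
    (χ := fun _ _ => 1) (φ := fun _ => f) (fun _ _ => hθ) (fun _ _ => EG.const 1)
    (fun _ _ => hf)
  simp only [Finset.univ_unique, Finset.sum_singleton, one_mul] at h
  rw [h]
  refine integral_congr_ae (Filter.Eventually.of_forall fun g => ?_)
  simp only
  rw [← E1_tower hT.h1 hT.h2 hT.h3 hf]

/-- `E θ(P0) f(P2)` -/
theorem EwG_th2 (hT : Tm q y l) (hs : Stk q y l m σ) (hθ : EG θ) {f : (Pair n → ℝ) → ℝ}
    (hf : EG f) :
    EwG q (R1C.GTwo q y l S.F S.D) S.F (fun w => θ (P0 q w) * f (P2 q w)) =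
      ∫ g, θ (√q.t0 • g) * E1 S q.t1 m σ 2 q.s1 f (√q.t0 • g) ∂(gI (Pair n)) := by
  have h := EwG_sum (S := S) hT hs (Finset.univ : Finset Unit) (a := fun _ => θ)
    (χ := fun _ => f) (φ := fun _ _ => 1) (fun _ _ => hθ) (fun _ _ => hf)
    (fun _ _ => EG.const 1)
  have e1 : Aw S q.s1 q.s2 (fun _ => (1 : ℝ)) = fun _ => 1 :=
    funext fun u => Aw_const S q.s1 q.s2 1 u
  simp only [Finset.univ_unique, Finset.sum_singleton, mul_one, e1] at h
  exact h

/-- `E θ(P0)` -/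
theorem EwG_th (hT : Tm q y l) (hs : Stk q y l m σ) (hθ : EG θ) :
    EwG q (R1C.GTwo q y l S.F S.D) S.F (fun w => θ (P0 q w)) =
      ∫ g, θ (√q.t0 • g) ∂(gI (Pair n)) := by
  have h := EwG_th2 (S := S) hT hs hθ (EG.const 1)
  simp only [mul_one, E1_const (hs.pm hT.hy)] at h
  exact h

/-- `E θ(P0) |C_1|²` -/
theorem EwG_N02 (hT : Tm q y l) (hs : Stk q y l m σ) (hθ : EG θ) :
    EwG q (R1C.GTwo q y l S.F S.D) S.F (fun w => θ (P0 q w) * fr (S.A q.s1 (P2 q w))) =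
      N0 S q.t1 m σ 2 (√q.t0) θ q.s1 := EwG_th2 hT hs hθ (eg_frA q.s1)

/-- `E θ(P0) |C_2|²` -/
theorem EwG_N03 (hT : Tm q y l) (hs : Stk q y l m σ) (hθ : EG θ) :
    EwG q (R1C.GTwo q y l S.F S.D) S.F (fun w => θ (P0 q w) * fr (S.A q.s2 (P3 q w))) =
      N0 S q.t1 m σ 2 (√q.t0) θ q.s2 := EwG_th3 hT hs hθ (eg_frA q.s2)

/-- `E θ(P0) ∑_e |D_e C_1|²` -/
theorem EwG_R02 (hT : Tm q y l) (hs : Stk q y l m σ) (hθ : EG θ) :
    EwG q (R1C.GTwo q y l S.F S.D) S.F (fun w => θ (P0 q w) *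
      ∑ e : Pair n, fr (S.DA q.s1 e (P2 q w))) =
      R0 S q.t1 m σ 2 (√q.t0) θ q.s1 := EwG_th2 hT hs hθ (eg_sDA q.s1)

/-- `E θ(P0) ∑_e |D_e C_2|²` -/
theorem EwG_R03 (hT : Tm q y l) (hs : Stk q y l m σ) (hθ : EG θ) :
    EwG q (R1C.GTwo q y l S.F S.D) S.F (fun w => θ (P0 q w) *
      ∑ e : Pair n, fr (S.DA q.s2 e (P3 q w))) =
      R0 S q.t1 m σ 2 (√q.t0) θ q.s2 := EwG_th3 hT hs hθ (eg_sDA q.s2)

end dict

end Vale.Agent.P146.H713.En2
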